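import Vale.Agent.P028X.Bilinear

/-! P028X module CLS: interpolation and the class bound with parameter `ε`. -/

namespace Vale.Agent.P028X

open Finset Vale.Agent.P028

/-- Interpolation with the trivial bound. -/
theorem interpX {ε : ℝ} (hε : Small ε) (μ : ℕ → ℝ) (G : ℕ → ℕ → ℝ) (V W : Finset ℕ) (R : ℝ)
    (hμ : ∀ q, 0 ≤ μ q) (hG : ∀ q r, 0 ≤ G q r ∧ G q r ≤ 1) (hR : 0 ≤ R)
    (h : pairSum μ G V W ≤ R * Real.sqrt (msum μ V * msum μ W)) :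
    pairSum μ G V W ≤ R ^ (1 - 2 * ε) * (msum μ V * msum μ W) ^ aX ε := by
  obtain ⟨h1, h2⟩ := hε
  set E := pairSum μ G V W with hE
  set X := msum μ V * msum μ W with hX
  have hE0 : 0 ≤ E := Finset.sum_nonneg (fun q _ => Finset.sum_nonneg (fun r _ =>
    mul_nonneg (mul_nonneg (hμ q) (hμ r)) (hG q r).1))
  have hEX : E ≤ X := by
    rw [hE, hX, msum, msum, Finset.sum_mul_sum]
    exact Finset.sum_le_sum (fun q _ => Finset.sum_le_sum (fun r _ =>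
      mul_le_of_le_one_right (mul_nonneg (hμ q) (hμ r)) (hG q r).2))
  have hX0 : 0 ≤ X := le_trans hE0 hEX
  calc E = E ^ (2 * ε) * E ^ (1 - 2 * ε) := by
        rw [← Real.rpow_add' hE0 (by norm_num)]; norm_num
    _ ≤ X ^ (2 * ε) * (R * Real.sqrt X) ^ (1 - 2 * ε) :=
        mul_le_mul (Real.rpow_le_rpow hE0 hEX (by linarith)) (Real.rpow_le_rpow hE0 h (by linarith))
          (Real.rpow_nonneg hE0 _) (Real.rpow_nonneg hX0 _)
    _ = R ^ (1 - 2 * ε) * X ^ aX ε := by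
        rw [Real.mul_rpow hR (Real.sqrt_nonneg _), Real.sqrt_eq_rpow, ← Real.rpow_mul hX0,
          mul_left_comm, ← Real.rpow_add' hX0 (by linarith)]
        congr 2
        unfold aX; ring

/-- From the `L^2` bound to the bound required of good states. -/
lemma to_finalX {ε : ℝ} (hε : Small ε) (μ : ℕ → ℝ) (G : ℕ → ℕ → ℝ) (V W : Finset ℕ) (c d : ℕ)
    (K Y : ℝ) (hμ : ∀ q, 0 ≤ μ q) (hG : ∀ q r, 0 ≤ G q r ∧ G q r ≤ 1) (hK : 0 ≤ K) (hY : 0 ≤ Y)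
    (h : pairSum μ G V W ≤ K * Real.sqrt Y * ((c * d : ℕ) : ℝ) ^ (-(1 / 2 : ℝ))
      * Real.sqrt (msum μ V * msum μ W)) :
    pairSum μ G V W ≤ K ^ (1 - 2 * ε) * Y ^ (1 / 2 - ε) * ((c * d : ℕ) : ℝ) ^ (-(ε / 4))
      * ((c * d : ℕ) : ℝ) ^ (-tX ε) * (msum μ V * msum μ W) ^ aX ε := by
  have hcd : (0 : ℝ) ≤ ((c * d : ℕ) : ℝ) := Nat.cast_nonneg _
  refine (interpX hε μ G V W _ hμ hG (by positivity) h).trans (le_of_eq ?_)
  congr 1
  rw [Real.mul_rpow (by positivity) (by positivity), Real.mul_rpow hK (by positivity),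
    Real.sqrt_eq_rpow, ← Real.rpow_mul hY, ← Real.rpow_mul hcd,
    mul_assoc (K ^ (1 - 2 * ε) * Y ^ (1 / 2 - ε)),
    ← Real.rpow_add' hcd (by have := hε.1; have := hε.2; unfold tX; linarith)]
  congr 2
  · congr 1; ring
  · unfold tX; ring

lemma cls_finalX {ε : ℝ} (hε : Small ε) :
    ∃ C : ℝ, 0 ≤ C ∧ ∀ (ψ : ℕ → ℝ) (S : Finset ℕ) (y1 y2 : ℝ) (p0 : ℕ),
      (∀ q, 0 ≤ ψ q) → (∀ q ∈ S, 0 < q ∧ 0 < ψ q) → 0 < y1 → 0 < y2 →
      FinalX ε p0 (mu ψ) (clsI ψ y1 y2) (C * (y1 * y2) ^ (1 / 2 - ε)) S := by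
  obtain ⟨C, hC, h⟩ := cls_schur
  refine ⟨C ^ (1 - 2 * ε), by positivity, ?_⟩
  intro ψ S y1 y2 p0 hψ hS hy1 hy2 P V W k c d hV hW hP hst
  refine (to_finalX hε _ _ V W c d C _ (mu_nonneg' hψ) (fun q r => ?_) hC (by positivity)
    (h ψ P V W k c d y1 y2 hψ (fun p hp => (hP p hp).1) (fun q hq => hS q (hV hq))
      (fun q hq => hS q (hW hq)) hst hy1 hy2)).trans ?_
  · unfold goodG
    split_ifs
    · exact cls_mem ψ y1 y2 q r
    · norm_num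
  · have hM : 0 ≤ (msum (mu ψ) V * msum (mu ψ) W) ^ aX ε := Real.rpow_nonneg
      (mul_nonneg (Finset.sum_nonneg fun q _ => mu_nonneg' hψ q)
        (Finset.sum_nonneg fun q _ => mu_nonneg' hψ q)) _
    refine mul_le_mul_of_nonneg_right (mul_le_mul_of_nonneg_right ?_ (by positivity)) hM
    exact mul_le_of_le_one_right (by positivity)
      (rpow_neg_natCast_le_one _ (by have := hε.1; linarith))

/-- The final hypothesis of `bilinear_stateX` gives the bound for any two subsets of `S`. -/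
lemma bilinearX {ε : ℝ} (hε : Small ε) :
    ∃ (p0 : ℕ) (K : ℝ), 0 ≤ K ∧ ∀ (μ : ℕ → ℝ) (G : ℕ → ℕ → ℝ) (δ : ℝ) (S V W : Finset ℕ),
      (∀ q, 0 ≤ μ q) → (∀ q r, 0 ≤ G q r) → 0 ≤ δ → (∀ q ∈ S, 0 < q) → V ⊆ S → W ⊆ S →
      FinalX ε p0 μ G δ S →
      pairSum μ G V W ≤ K * δ * (msum μ V * msum μ W) ^ aX ε := by
  obtain ⟨p0, K, h⟩ := bilinear_stateX hε
  refine ⟨p0, max K 0, le_max_right _ _, fun μ G δ S V W hμ hG hδ hS hV hW hfin => ?_⟩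
  have hu := state_univ (P := S.biUnion Nat.primeFactors) hS
    fun q hq p hp => Finset.mem_biUnion.2 ⟨q, hq, hp⟩
  have := h μ G δ S hμ hG hδ hS hfin (S.biUnion Nat.primeFactors) V W 1 1 hV hW
    (fun p hp => by
      obtain ⟨q, _, hq⟩ := Finset.mem_biUnion.1 hp
      exact Nat.prime_of_mem_primeFactors hq)
    ⟨fun q hq q' hq' => hu.1 q (hV hq) q' (hV hq'),
      fun q hq q' hq' => hu.2.1 q (hW hq) q' (hW hq'),
      fun q hq r hr => hu.2.2 q (hV hq) r (hW hr)⟩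
  rw [Nat.mul_one, Nat.cast_one, Real.one_rpow, mul_one] at this
  refine this.trans ?_
  have hM : 0 ≤ (msum μ V * msum μ W) ^ aX ε := Real.rpow_nonneg
    (mul_nonneg (Finset.sum_nonneg fun q _ => hμ q) (Finset.sum_nonneg fun q _ => hμ q)) _
  gcongr
  exact le_max_left _ _

lemma cls_boundX {ε : ℝ} (hε : Small ε) :
    ∃ C : ℝ, 0 ≤ C ∧ ∀ (ψ : ℕ → ℝ) (S V W : Finset ℕ) (y1 y2 : ℝ),
      (∀ q, 0 ≤ ψ q) → (∀ q ∈ S, 0 < q ∧ 0 < ψ q) → V ⊆ S → W ⊆ S → 0 < y1 → 0 < y2 →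
      pairSum (mu ψ) (clsI ψ y1 y2) V W
        ≤ C * (y1 * y2) ^ (1 / 2 - ε) * (msum (mu ψ) V * msum (mu ψ) W) ^ aX ε := by
  obtain ⟨C, hC, h⟩ := cls_finalX hε
  obtain ⟨p0, K, hK, hb⟩ := bilinearX hε
  refine ⟨K * C, by positivity, fun ψ S V W y1 y2 hψ hS hV hW hy1 hy2 => ?_⟩
  refine (hb (mu ψ) _ _ S V W (mu_nonneg' hψ) (fun q r => (cls_mem ψ y1 y2 q r).1) (by positivity)
    (fun q hq => (hS q hq).1) hV hW (h ψ S y1 y2 p0 hψ hS hy1 hy2)).trans (le_of_eq ?_)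
  ring

/-- `(M M)^a ≤ M + M^2`. -/
lemma omegaX {ε : ℝ} (hε : Small ε) (M : ℝ) (hM : 0 ≤ M) : (M * M) ^ aX ε ≤ M + M ^ 2 := by
  obtain ⟨h1, h2⟩ := hε
  rw [← sq, ← Real.rpow_two, ← Real.rpow_mul hM]
  rcases le_total M 1 with h | h
  · exact (Real.rpow_le_self_of_le_one hM h (by unfold aX; linarith)).trans
      (le_add_of_nonneg_right (by positivity))
  · exact (Real.rpow_le_rpow_of_exponent_le h (by unfold aX; linarith)).trans
      (le_add_of_nonneg_left hM)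

end Vale.Agent.P028X
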