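import Vale.Agent.P028X.Defs

/-! P028X module TOP, walks: a bilinear form on the graph of reduced ratios, bounded by a trace. -/

namespace Vale.Agent.P028X

open Finset Matrix Vale.Agent.P028

namespace TopAux

section power

variable {α : Type*} [Fintype α] [DecidableEq α]

lemma dot_pow (G : Matrix α α ℝ) (hG : G.transpose = G) (f : α → ℝ) (i j : ℕ) :
    (G ^ i *ᵥ f) ⬝ᵥ (G ^ j *ᵥ f) = f ⬝ᵥ (G ^ (i + j) *ᵥ f) := by
  rw [pow_add, ← Matrix.mulVec_mulVec, Matrix.dotProduct_mulVec (v := f)]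
  congr 1
  rw [← Matrix.mulVec_transpose, Matrix.transpose_pow, hG]

omit [DecidableEq α] in
lemma dot_sq_le (f g : α → ℝ) : (f ⬝ᵥ g) ^ 2 ≤ (f ⬝ᵥ f) * (g ⬝ᵥ g) := by
  simp only [dotProduct]
  refine (Finset.sum_mul_sq_le_sq_mul_sq univ f g).trans (le_of_eq ?_)
  simp only [sq]

omit [DecidableEq α] in
lemma mulVec_sq_le (G : Matrix α α ℝ) (f : α → ℝ) :
    (G *ᵥ f) ⬝ᵥ (G *ᵥ f) ≤ (∑ a, ∑ b, G a b ^ 2) * (f ⬝ᵥ f) := by
  rw [dotProduct, Finset.sum_mul]
  refine Finset.sum_le_sum fun a _ => ?_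
  rw [← sq]
  calc (∑ b, G a b * f b) ^ 2 ≤ (∑ b, G a b ^ 2) * ∑ b, f b ^ 2 :=
        Finset.sum_mul_sq_le_sq_mul_sq univ (G a) f
    _ = _ := by simp only [dotProduct, sq]

/-- Repeated Cauchy–Schwarz. -/
lemma pow_trace (G : Matrix α α ℝ) (hG : G.transpose = G) (f : α → ℝ)
    (h1 : 0 ≤ f ⬝ᵥ (G *ᵥ f)) (i : ℕ) :
    (f ⬝ᵥ (G *ᵥ f)) ^ 2 ^ (i + 1) ≤ (f ⬝ᵥ f) ^ 2 ^ (i + 1) * (G ^ 2 ^ (i + 1)).trace := by
  set a : ℕ → ℝ := fun n => f ⬝ᵥ (G ^ n *ᵥ f) with ha
  set w := f ⬝ᵥ f with hw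
  have hw0 : 0 ≤ w := Finset.sum_nonneg fun x _ => mul_self_nonneg (f x)
  rcases hw0.eq_or_lt with h0 | hwpos
  · have hf : f = 0 := funext fun x => by
      have := (Finset.sum_eq_zero_iff_of_nonneg fun x _ => mul_self_nonneg (f x)).1 h0.symm x
        (mem_univ x)
      simpa using this
    simp [w, hf]
  have htrace : ∀ n, a (n + n) ≤ w * (G ^ (n + n)).trace := by
    intro n
    rw [ha]
    simp only
    rw [← dot_pow G hG f n n, mul_comm w]
    refine (mulVec_sq_le (G ^ n) f).trans (le_of_eq ?_)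
    congr 1
    rw [pow_add, Matrix.trace]
    refine Finset.sum_congr rfl fun x _ => ?_
    rw [Matrix.diag_apply, Matrix.mul_apply]
    refine Finset.sum_congr rfl fun y _ => ?_
    have : (G ^ n).transpose = G ^ n := by rw [Matrix.transpose_pow, hG]
    rw [show (G ^ n) y x = (G ^ n) x y from congrFun (congrFun this x) y, sq]
  have hsq : ∀ n, a n ^ 2 ≤ w * a (n + n) := by
    intro n
    rw [ha]
    simp only
    rw [← dot_pow G hG f n n]
    exact dot_sq_le f _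
  have main : ∀ j, (f ⬝ᵥ (G *ᵥ f)) ^ 2 ^ j * w ≤ w ^ 2 ^ j * a (2 ^ j) := by
    intro j
    induction j with
    | zero => simp [ha, mul_comm]
    | succ j ih =>
      have h2 : ((f ⬝ᵥ (G *ᵥ f)) ^ 2 ^ j * w) ^ 2 ≤ (w ^ 2 ^ j * a (2 ^ j)) ^ 2 :=
        pow_le_pow_left₀ (mul_nonneg (pow_nonneg h1 _) hwpos.le) ih 2
      rw [mul_pow, mul_pow, ← pow_mul, ← pow_mul, ← pow_succ] at h2
      have h3 : w ^ 2 ^ (j + 1) * a (2 ^ j) ^ 2 ≤ w ^ 2 ^ (j + 1) * (w * a (2 ^ (j + 1))) := by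
        refine mul_le_mul_of_nonneg_left ?_ (pow_nonneg hwpos.le _)
        rw [show 2 ^ (j + 1) = 2 ^ j + 2 ^ j by ring]
        exact hsq _
      refine le_of_mul_le_mul_right ?_ hwpos
      calc (f ⬝ᵥ (G *ᵥ f)) ^ 2 ^ (j + 1) * w * w = (f ⬝ᵥ (G *ᵥ f)) ^ 2 ^ (j + 1) * w ^ 2 := by
            ring
        _ ≤ w ^ 2 ^ (j + 1) * (w * a (2 ^ (j + 1))) := h2.trans h3
        _ = _ := by ring
  refine le_of_mul_le_mul_right ?_ hwpos
  refine (main (i + 1)).trans ?_
  rw [mul_assoc _ (Matrix.trace _) w, mul_comm (Matrix.trace _) w]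
  refine mul_le_mul_of_nonneg_left ?_ (pow_nonneg hwpos.le _)
  rw [show 2 ^ (i + 1) = 2 ^ i + 2 ^ i by ring]
  exact htrace _

end power

/-- Sequences of `n` steps up and down along the ratios of `R` leading from `q` to `q'`. -/
def walks (R : Finset (ℕ × ℕ)) (n q q' : ℕ) : Finset (Fin n → (ℕ × ℕ) × (ℕ × ℕ)) :=
  (Fintype.piFinset fun _ => R ×ˢ R).filter fun z =>
    q' * ∏ i, ((z i).1.1 * (z i).2.2) = q * ∏ i, ((z i).1.2 * (z i).2.1)

/-- The common neighbours. -/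
def common (R : Finset (ℕ × ℕ)) (Sf : Finset ℕ) (q q' : ℕ) : Finset ℕ :=
  Sf.filter fun r => (uu q r, vv q r) ∈ R ∧ (uu q' r, vv q' r) ∈ R

lemma ratio_eq (q r : ℕ) : q * vv q r = r * uu q r := by
  obtain ⟨a, ha⟩ := Nat.gcd_dvd_left q r
  obtain ⟨b, hb⟩ := Nat.gcd_dvd_right q r
  rcases Nat.eq_zero_or_pos (Nat.gcd q r) with h | h
  · rw [(Nat.gcd_eq_zero_iff.1 h).1, (Nat.gcd_eq_zero_iff.1 h).2, Nat.zero_mul, Nat.zero_mul]
  · have eu : uu q r = a :=
      (congrArg (fun x => x / Nat.gcd q r) ha).trans (Nat.mul_div_cancel_left a h)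
    have ev : vv q r = b :=
      (congrArg (fun x => x / Nat.gcd q r) hb).trans (Nat.mul_div_cancel_left b h)
    rw [eu, ev]
    conv_lhs => rw [ha]
    conv_rhs => rw [hb]
    ring

lemma walk_step (R : Finset (ℕ × ℕ)) (hR : ∀ p ∈ R, 0 < p.1 ∧ 0 < p.2) (Sc Sf : Finset ℕ)
    (n q q' : ℕ) :
    ∑ p ∈ Sc, (walks R n q p).card * (common R Sf p q').card ≤ (walks R (n + 1) q q').card := by
  simp_rw [← card_product]
  rw [← card_sigma]
  refine Finset.card_le_card_of_injOn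
    (fun x => Fin.snoc (α := fun _ => (ℕ × ℕ) × (ℕ × ℕ)) x.2.1
      ((uu x.1 x.2.2, vv x.1 x.2.2), (uu q' x.2.2, vv q' x.2.2))) ?_ ?_
  · rintro ⟨p, z, r⟩ hx
    obtain ⟨-, hx⟩ := mem_sigma.1 hx
    obtain ⟨hz, hr⟩ := mem_product.1 hx
    obtain ⟨hzR, hzeq⟩ := mem_filter.1 hz
    obtain ⟨-, he, hf⟩ := mem_filter.1 hr
    refine mem_coe.2 (mem_filter.2 ⟨Fintype.mem_piFinset.2 fun i => ?_, ?_⟩)
    · refine Fin.lastCases ?_ ?_ i
      · simpa using ⟨he, hf⟩
      · intro j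
        simpa using Fintype.mem_piFinset.1 hzR j
    · simp only [Fin.prod_univ_castSucc, Fin.snoc_castSucc, Fin.snoc_last]
      simp only at hzeq
      calc q' * ((∏ i, (z i).1.1 * (z i).2.2) * (uu p r * vv q' r))
          = (∏ i, (z i).1.1 * (z i).2.2) * uu p r * (q' * vv q' r) := by ring
        _ = (∏ i, (z i).1.1 * (z i).2.2) * (r * uu p r) * uu q' r := by rw [ratio_eq q' r]; ring
        _ = (p * ∏ i, (z i).1.1 * (z i).2.2) * (vv p r * uu q' r) := by rw [← ratio_eq p r]; ring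
        _ = _ := by rw [hzeq]; ring
  · rintro ⟨p, z, r⟩ hx ⟨p', z', r'⟩ hx' heq
    obtain ⟨-, hx⟩ := mem_sigma.1 hx
    obtain ⟨hz, hr⟩ := mem_product.1 hx
    obtain ⟨-, hx'⟩ := mem_sigma.1 hx'
    obtain ⟨hz', hr'⟩ := mem_product.1 hx'
    simp only at heq
    obtain ⟨hzz, hl⟩ := (Fin.snoc_inj (α := fun _ => (ℕ × ℕ) × (ℕ × ℕ))).1 heq
    subst hzz
    obtain ⟨hzR, hzeq⟩ := mem_filter.1 hz
    obtain ⟨-, hzeq'⟩ := mem_filter.1 hz'
    have hpos : 0 < ∏ i, (z i).1.1 * (z i).2.2 := Finset.prod_pos fun i _ =>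
      Nat.mul_pos (hR _ (mem_product.1 (Fintype.mem_piFinset.1 hzR i)).1).1
        (hR _ (mem_product.1 (Fintype.mem_piFinset.1 hzR i)).2).2
    have hpp : p = p' := Nat.eq_of_mul_eq_mul_right hpos (hzeq.trans hzeq'.symm)
    subst hpp
    obtain ⟨-, he, -⟩ := mem_filter.1 hr
    simp only [Prod.mk.injEq] at hl
    have hrr : r = r' := by
      have h1 := ratio_eq p r
      have h2 := ratio_eq p r'
      rw [hl.1.2] at h1
      rw [← hl.1.1] at h2
      exact Nat.eq_of_mul_eq_mul_right (hR _ he).1 (h1.symm.trans h2)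
    rw [hrr]

lemma common_le (R : Finset (ℕ × ℕ)) (hR : ∀ p ∈ R, 0 < p.1 ∧ 0 < p.2) (Sf : Finset ℕ)
    (q q' : ℕ) : (common R Sf q q').card ≤ (walks R 1 q q').card := by
  refine le_trans ?_ (walk_step R hR {q} Sf 0 q q')
  rw [sum_singleton, show (walks R 0 q q).card = 1 by simp [walks]]
  rw [one_mul]

open Classical in
/-- The bilinear form of the ratios in `R`, through closed walks. -/
theorem walk_bound (μ : ℕ → ℝ) (R : Finset (ℕ × ℕ)) (Sc Sf : Finset ℕ) (bc bf : ℝ) (i : ℕ)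
    (hμ : ∀ q, 0 ≤ μ q) (hSc : ∀ q ∈ Sc, 0 < q ∧ μ q ≤ bc) (hSf : ∀ r ∈ Sf, μ r ≤ bf)
    (hR : ∀ p ∈ R, 0 < p.1 ∧ 0 < p.2) (hbc : 0 ≤ bc) (hbf : 0 ≤ bf) :
    pairSum μ (fun q r => if (uu q r, vv q r) ∈ R then 1 else 0) Sc Sf ^ (2 * 2 ^ (i + 1))
      ≤ (msum μ Sc * msum μ Sf) ^ 2 ^ (i + 1) * msum μ Sc *
          (bc ^ (2 ^ (i + 1) - 1) * bf ^ 2 ^ (i + 1)) * ((walks R (2 ^ (i + 1)) 1 1).card : ℝ) := by
  set N : Matrix Sc Sf ℝ := Matrix.of fun q r =>
    if (uu q.1 r.1, vv q.1 r.1) ∈ R then √(μ q.1) * √(μ r.1) else 0 with hN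
  set G := N * N.transpose with hG
  set f : Sc → ℝ := fun q => √(μ q.1) with hf
  have hGsymm : G.transpose = G := by rw [hG, transpose_mul, transpose_transpose]
  have hff : f ⬝ᵥ f = msum μ Sc := by
    rw [dotProduct, msum, ← Finset.sum_coe_sort Sc]
    exact Finset.sum_congr rfl fun q _ => Real.mul_self_sqrt (hμ _)
  have hE : pairSum μ (fun q r => if (uu q r, vv q r) ∈ R then 1 else 0) Sc Sf
      = ∑ r : Sf, √(μ r.1) * (N.transpose *ᵥ f) r := by
    unfold pairSum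
    rw [Finset.sum_comm, ← Finset.sum_coe_sort Sf]
    refine Finset.sum_congr rfl fun r _ => ?_
    rw [mulVec, dotProduct, Finset.mul_sum, ← Finset.sum_coe_sort Sc]
    refine Finset.sum_congr rfl fun q _ => ?_
    simp only [hN, Matrix.transpose_apply, Matrix.of_apply, hf]
    split_ifs
    · rw [mul_one]
      conv_lhs => rw [← Real.mul_self_sqrt (hμ q.1), ← Real.mul_self_sqrt (hμ r.1)]
      ring
    · simp
  have hquad : f ⬝ᵥ (G *ᵥ f) = (N.transpose *ᵥ f) ⬝ᵥ (N.transpose *ᵥ f) := by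
    rw [hG, ← mulVec_mulVec, dotProduct_mulVec, ← mulVec_transpose]
  have hq0 : 0 ≤ f ⬝ᵥ (G *ᵥ f) := by
    rw [hquad]
    exact Finset.sum_nonneg fun r _ => mul_self_nonneg _
  have hE2 : pairSum μ (fun q r => if (uu q r, vv q r) ∈ R then 1 else 0) Sc Sf ^ 2
      ≤ msum μ Sf * (f ⬝ᵥ (G *ᵥ f)) := by
    rw [hE, hquad]
    refine (Finset.sum_mul_sq_le_sq_mul_sq univ _ _).trans (le_of_eq ?_)
    congr 1
    · rw [msum, ← Finset.sum_coe_sort Sf]
      exact Finset.sum_congr rfl fun r _ => Real.sq_sqrt (hμ _)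
    · simp only [dotProduct, sq]
  have hG1 : ∀ q q' : Sc,
      G q q' ≤ √(μ q.1) * √(μ q'.1) * bf * ((common R Sf q.1 q'.1).card : ℝ) := by
    intro q q'
    rw [hG, Matrix.mul_apply, common, ← nsmul_one, nsmul_eq_mul, mul_one, card_filter,
      Nat.cast_sum, Finset.mul_sum, ← Finset.sum_coe_sort Sf]
    refine Finset.sum_le_sum fun r _ => ?_
    simp only [hN, Matrix.transpose_apply, Matrix.of_apply]
    by_cases h1 : (uu q.1 r.1, vv q.1 r.1) ∈ R
    · by_cases h2 : (uu q'.1 r.1, vv q'.1 r.1) ∈ R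
      · rw [if_pos h1, if_pos h2, if_pos (And.intro h1 h2), Nat.cast_one, mul_one]
        calc √(μ q.1) * √(μ r.1) * (√(μ q'.1) * √(μ r.1))
            = √(μ q.1) * √(μ q'.1) * (√(μ r.1) * √(μ r.1)) := by ring
          _ ≤ _ := by
              rw [Real.mul_self_sqrt (hμ _)]
              exact mul_le_mul_of_nonneg_left (hSf r.1 r.2) (by positivity)
      · simp [h2]
    · simp [h1]
  have hG0 : ∀ q q' : Sc, 0 ≤ G q q' := fun q q' => by
    rw [hG, Matrix.mul_apply]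
    refine Finset.sum_nonneg fun r _ => mul_nonneg ?_ ?_ <;>
      simp only [hN, Matrix.transpose_apply, Matrix.of_apply] <;> split_ifs <;> positivity
  have hpow0 : ∀ n, ∀ q q' : Sc, 0 ≤ (G ^ n) q q' := by
    intro n
    induction n with
    | zero => intro q q'; rw [pow_zero, Matrix.one_apply]; split_ifs <;> norm_num
    | succ n ih =>
      intro q q'
      rw [pow_succ, Matrix.mul_apply]
      exact Finset.sum_nonneg fun p _ => mul_nonneg (ih q p) (hG0 p q')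
  have hwalk : ∀ n, ∀ q q' : Sc, (G ^ (n + 1)) q q'
      ≤ √(μ q.1) * √(μ q'.1) * (bc ^ n * bf ^ (n + 1)) * ((walks R (n + 1) q.1 q'.1).card : ℝ) := by
    intro n
    induction n with
    | zero =>
      intro q q'
      rw [pow_one, pow_zero, one_mul, pow_one]
      refine (hG1 q q').trans (mul_le_mul_of_nonneg_left ?_ (by positivity))
      exact_mod_cast common_le R hR Sf q.1 q'.1
    | succ n ih =>
      intro q q'
      rw [pow_succ, Matrix.mul_apply]
      calc ∑ p : Sc, (G ^ (n + 1)) q p * G p q'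
          ≤ ∑ p : Sc, √(μ q.1) * √(μ q'.1) * (bc ^ (n + 1) * bf ^ (n + 2)) *
              (((walks R (n + 1) q.1 p.1).card * (common R Sf p.1 q'.1).card : ℕ) : ℝ) := by
            refine Finset.sum_le_sum fun p _ => ?_
            refine (mul_le_mul (ih q p) (hG1 p q') (hG0 p q') (by positivity)).trans ?_
            have e : √(μ p.1) * √(μ p.1) = μ p.1 := Real.mul_self_sqrt (hμ _)
            have hp := (hSc p.1 p.2).2
            push_cast
            calc _ = μ p.1 * (√(μ q.1) * √(μ q'.1) * (bc ^ n * bf ^ (n + 2)) *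
                  ((walks R (n + 1) q.1 p.1).card * (common R Sf p.1 q'.1).card : ℝ)) := by
                    linear_combination (√(μ q.1) * √(μ q'.1) * bc ^ n * bf ^ (n + 2)
                      * ((walks R (n + 1) q.1 p.1).card : ℝ)
                      * ((common R Sf p.1 q'.1).card : ℝ)) * e
              _ ≤ bc * _ := mul_le_mul_of_nonneg_right hp (by positivity)
              _ = _ := by ring
        _ ≤ _ := by
            rw [← Finset.mul_sum, ← Nat.cast_sum]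
            refine mul_le_mul_of_nonneg_left (Nat.cast_le.2 ?_) (by positivity)
            rw [Finset.sum_coe_sort Sc
              (fun p => (walks R (n + 1) q.1 p).card * (common R Sf p q'.1).card)]
            exact walk_step R hR Sc Sf (n + 1) q.1 q'.1
  set m := 2 ^ (i + 1) with hm
  have hm1 : 1 ≤ m := Nat.one_le_two_pow
  have htr : (G ^ m).trace ≤ msum μ Sc * (bc ^ (m - 1) * bf ^ m) * ((walks R m 1 1).card : ℝ) := by
    rw [Matrix.trace, msum, Finset.sum_mul, Finset.sum_mul, ← Finset.sum_coe_sort Sc]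
    refine Finset.sum_le_sum fun q _ => ?_
    rw [Matrix.diag_apply, ← Real.mul_self_sqrt (hμ q.1)]
    have := hwalk (m - 1) q q
    rw [Nat.sub_add_cancel hm1] at this
    refine this.trans (le_of_eq ?_)
    congr 2
    unfold walks
    refine congrArg Finset.card (Finset.filter_congr fun z _ => ?_)
    rw [Nat.mul_left_cancel_iff (hSc q.1 q.2).1, one_mul, one_mul]
  have hMf : 0 ≤ msum μ Sf := Finset.sum_nonneg fun r _ => hμ r
  calc _ = (pairSum μ (fun q r => if (uu q r, vv q r) ∈ R then 1 else 0) Sc Sf ^ 2) ^ m :=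
        pow_mul _ _ _
    _ ≤ (msum μ Sf * (f ⬝ᵥ (G *ᵥ f))) ^ m := pow_le_pow_left₀ (sq_nonneg _) hE2 m
    _ = msum μ Sf ^ m * (f ⬝ᵥ (G *ᵥ f)) ^ m := mul_pow _ _ _
    _ ≤ msum μ Sf ^ m * (msum μ Sc ^ m * (msum μ Sc * (bc ^ (m - 1) * bf ^ m) *
          ((walks R m 1 1).card : ℝ))) := by
        refine mul_le_mul_of_nonneg_left ?_ (pow_nonneg hMf _)
        refine (pow_trace G hGsymm f hq0 i).trans ?_
        rw [hff]
        exact mul_le_mul_of_nonneg_left htr (pow_nonneg (Finset.sum_nonneg fun q _ => hμ q) _)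
    _ = _ := by rw [mul_pow]; ring

end TopAux

end Vale.Agent.P028X
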