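import Vale.Agent.P028X.TopEnergy
import Vale.Agent.P028X.TopWalk

/-! P028X module TOP: pairs with `η ≤ min (ψ q) (ψ r) ^ ρ`, by counting closed walks. -/

namespace Vale.Agent.P028X

open Finset Vale.Agent.P028

namespace TopAux

/-- The possible reduced pairs of a dyadic class. -/
noncomputable def ratioSet (γ η : ℝ) (a b : ℕ) : Finset (ℕ × ℕ) :=
  ((Ico (2 ^ a) (2 ^ (a + 1))) ×ˢ (Ico (2 ^ b) (2 ^ (b + 1)))).filter fun p =>
    Nat.Coprime p.1 p.2 ∧ distInt (γ * ((p.2 : ℝ) - (p.1 : ℝ))) < η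

lemma ratioSet_pos (γ η : ℝ) (a b : ℕ) : ∀ p ∈ ratioSet γ η a b, 0 < p.1 ∧ 0 < p.2 := by
  intro p hp
  obtain ⟨hp1, hp2⟩ := mem_product.1 (mem_filter.1 hp).1
  exact ⟨lt_of_lt_of_le (Nat.two_pow_pos a) (mem_Ico.1 hp1).1,
    lt_of_lt_of_le (Nat.two_pow_pos b) (mem_Ico.1 hp2).1⟩

lemma distInt_neg' (x : ℝ) : distInt (-x) = distInt x := by
  have key : ∀ y : ℝ, distInt (-y) ≤ distInt y := fun y =>
    (distInt_le (-y) (-round y)).trans (le_of_eq (by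
      push_cast
      rw [show -y - -(round y : ℝ) = -(y - round y) by ring, abs_neg]
      rfl))
  exact le_antisymm (key x) (by simpa using key (-x))

/-- The number of closed walks of a sparse class. -/
lemma walks_sparse {θ D0 : ℝ} (hθ : 0 < θ) (hθ1 : θ ≤ 1) (hD00 : 0 ≤ D0) (m : ℕ) :
    ∃ C : ℝ, 0 ≤ C ∧ ∀ (γ η : ℝ) (a b : ℕ), Sparse γ θ D0 (m + m) (max a b) η →
      ((walks (ratioSet γ η a b) m 1 1).card : ℝ) ≤ C * ((2 : ℝ) ^ a * 2 ^ b) ^ m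
        * (2 : ℝ) ^ ((1 - θ * m / 4) * (max a b : ℕ)) := by
  classical
  obtain ⟨C, hC0, hC⟩ := tuple_count (ι := Fin m ⊕ Fin m) hθ hθ1 hD00
  refine ⟨C, hC0, fun γ η a b hsp => ?_⟩
  set L := max a b with hL
  set e : Fin m ⊕ Fin m → ℕ := Sum.elim (fun _ => b) (fun _ => a) with he
  set T : Finset (Fin m ⊕ Fin m) :=
    if a ≤ b then (univ : Finset (Fin m)).disjSum ∅ else (∅ : Finset (Fin m)).disjSum univ with hT
  have hTcard : T.card = m := by rw [hT]; split_ifs <;> simp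
  set Φ : (Fin m → (ℕ × ℕ) × (ℕ × ℕ)) → (Fin m ⊕ Fin m → ℕ) × (Fin m ⊕ Fin m → ℕ) := fun z =>
    (Sum.elim (fun i => (z i).1.2) (fun i => (z i).2.1),
      Sum.elim (fun i => (z i).1.1) (fun i => (z i).2.2)) with hΦ
  have hinj : Function.Injective Φ := by
    intro z z' hzz
    simp only [hΦ, Prod.mk.injEq, funext_iff, Sum.forall, Sum.elim_inl, Sum.elim_inr] at hzz
    funext i
    exact Prod.ext (Prod.ext (hzz.2.1 i) (hzz.1.1 i)) (Prod.ext (hzz.1.2 i) (hzz.2.2 i))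
  set P := (walks (ratioSet γ η a b) m 1 1).image Φ with hP
  have hcard : P.card = (walks (ratioSet γ η a b) m 1 1).card := card_image_of_injective _ hinj
  have hmain := hC γ η e L T P (by simpa [hL] using hsp) ?_ ?_ ?_
  · rw [hcard, hTcard] at hmain
    refine hmain.trans (le_of_eq ?_)
    congr 2
    rw [Real.rpow_natCast, he, Fintype.sum_sum_type]
    simp only [Sum.elim_inl, Sum.elim_inr, sum_const, card_univ, Fintype.card_fin, smul_eq_mul]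
    rw [← pow_add (2 : ℝ) a b, ← pow_mul]
    congr 1
    ring
  · rintro (i | i)
    · exact le_max_right a b
    · exact le_max_left a b
  · rintro (i | i) hi <;> rw [hT] at hi <;> split_ifs at hi with hab <;>
      simp [he, hL] at hi ⊢ <;> omega
  · intro p hp
    obtain ⟨z, hz, rfl⟩ := mem_image.1 hp
    obtain ⟨hzR, hzeq⟩ := mem_filter.1 hz
    rw [one_mul, one_mul, prod_mul_distrib, prod_mul_distrib] at hzeq
    have hz1 : ∀ i, (2 ^ a ≤ (z i).1.1 ∧ (z i).1.1 < 2 ^ (a + 1) ∧ 2 ^ b ≤ (z i).1.2 ∧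
          (z i).1.2 < 2 ^ (b + 1) ∧ Nat.Coprime (z i).1.1 (z i).1.2 ∧
          distInt (γ * (((z i).1.2 : ℝ) - ((z i).1.1 : ℝ))) < η) ∧
        (2 ^ a ≤ (z i).2.1 ∧ (z i).2.1 < 2 ^ (a + 1) ∧ 2 ^ b ≤ (z i).2.2 ∧
          (z i).2.2 < 2 ^ (b + 1) ∧ Nat.Coprime (z i).2.1 (z i).2.2 ∧
          distInt (γ * (((z i).2.2 : ℝ) - ((z i).2.1 : ℝ))) < η) := by
      intro i
      have := Fintype.mem_piFinset.1 hzR i
      simp only [mem_product, ratioSet, mem_filter, mem_Ico] at this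
      tauto
    have hpa := Nat.two_pow_pos a
    have hpb := Nat.two_pow_pos b
    refine ⟨?_, ?_, ?_⟩
    · simp only [hΦ, Fintype.prod_sum_type, Sum.elim_inl, Sum.elim_inr]
      exact hzeq.symm
    · rintro (i | i) <;> obtain ⟨⟨h1, h2, h3, h4, h5, -⟩, ⟨g1, g2, g3, g4, g5, -⟩⟩ := hz1 i
      · exact ⟨hpb.trans_le h3, h4, hpa.trans_le h1, h5.symm⟩
      · exact ⟨hpa.trans_le g1, g2, hpb.trans_le g3, g5⟩
    · rintro (i | i) hi <;> rw [hT] at hi <;> split_ifs at hi with hab <;> simp at hi <;>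
        obtain ⟨⟨h1, -, h3, -, -, h6⟩, ⟨g1, -, -, -, -, g6⟩⟩ := hz1 i
      · exact ⟨by rw [hL, max_eq_right hab]; exact h3, h6⟩
      · refine ⟨by rw [hL, max_eq_left (not_le.1 hab).le]; exact g1, ?_⟩
        show distInt (γ * (((z i).2.1 : ℝ) - ((z i).2.2 : ℝ))) < η
        rw [← distInt_neg', ← mul_neg, neg_sub]
        exact g6

/-- The number of closed walks of a class. -/
lemma walks_count {γ μ c ρ : ℝ} (h : Dioph γ μ c) (hρ : 0 < ρ) (hρ1 : ρ ≤ 1) (m : ℕ) :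
    ∃ C : ℝ, 0 ≤ C ∧ ∀ (η : ℝ) (a b : ℕ), 0 < η → η ≤ 2 * (2 : ℝ) ^ (-(ρ * (max a b : ℕ))) →
      ((walks (ratioSet γ η a b) m 1 1).card : ℝ) ≤ C * ((2 : ℝ) ^ a * 2 ^ b) ^ m
        * (2 : ℝ) ^ ((1 - ρ / μ * m / 4) * (max a b : ℕ)) := by
  obtain ⟨hμ, hc, -⟩ := id h
  obtain ⟨C, hC0, hC⟩ := walks_sparse (θ := ρ / μ) (D0 := (4 * 2 / c) ^ (1 / μ))
    (div_pos hρ (by linarith)) ((div_le_one (by linarith)).2 (hρ1.trans hμ)) (by positivity) m
  exact ⟨C, hC0, fun η a b hη hηL => hC γ η a b (sparse_dioph h two_pos hη hηL)⟩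

/-- The arithmetic of one class. -/
lemma class_arith (m lq lr a b L0 : ℕ) (hm : 1 ≤ m) {M Mc Mf E η0 Cw X D : ℝ}
    (_hE : 0 ≤ E) (hη0 : 0 < η0) (hM : 0 ≤ M) (hMc0 : 0 ≤ Mc) (hMc : Mc ≤ M) (hMf0 : 0 ≤ Mf)
    (hMf : Mf ≤ M) (hCw : 0 ≤ Cw) (hX : 0 ≤ X) (hD : 0 ≤ D)
    (_hW : 0 ≤ (2 : ℝ) ^ a * 2 ^ b * ((1 / 2) ^ lq * (1 / 2) ^ lr))
    (hη : (2 : ℝ) ^ a * 2 ^ b * ((1 / 2) ^ lq * (1 / 2) ^ lr) ≤ η0 ^ 2)
    (hwalk : E ^ (2 * m) ≤ (Mc * Mf) ^ m * Mc *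
      (((1 / 2 : ℝ) ^ lq) ^ (m - 1) * ((1 / 2 : ℝ) ^ lr) ^ m) *
      (Cw * ((2 : ℝ) ^ a * 2 ^ b) ^ m * X))
    (hexp : X * (2 : ℝ) ^ (lq : ℝ) ≤ D * (2 : ℝ) ^ (-(L0 : ℝ))) :
    E / η0 ≤ (Cw * D) ^ (((2 * m : ℕ) : ℝ)⁻¹) * (M + M ^ 2)
      * (2 : ℝ) ^ (-((L0 : ℝ) / (2 * m))) := by
  set W := (2 : ℝ) ^ a * 2 ^ b * ((1 / 2) ^ lq * (1 / 2) ^ lr) with hWdef
  have hMM : M ^ (2 * m) * M ≤ (M + M ^ 2) ^ (2 * m) := by
    rw [show M + M ^ 2 = M * (1 + M) by ring, mul_pow]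
    exact mul_le_mul_of_nonneg_left
      ((le_add_of_nonneg_left zero_le_one).trans (le_self_pow₀ (by linarith) (by omega)))
      (pow_nonneg hM _)
  have e : ((1 / 2 : ℝ) ^ lq) ^ (m - 1) = ((1 / 2 : ℝ) ^ lq) ^ m * (2 : ℝ) ^ (lq : ℝ) := by
    have e1 : ((1 / 2 : ℝ) ^ lq) * (2 : ℝ) ^ lq = 1 := by rw [← mul_pow]; norm_num
    conv_rhs => rw [← Nat.sub_add_cancel hm, pow_succ, Real.rpow_natCast, mul_assoc, e1, mul_one]
  have hpow : (E / η0) ^ (2 * m) ≤ Cw * D * (M + M ^ 2) ^ (2 * m) * (2 : ℝ) ^ (-(L0 : ℝ)) := by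
    rw [div_pow, div_le_iff₀ (by positivity)]
    calc E ^ (2 * m) ≤ (Mc * Mf) ^ m * Mc *
          (((1 / 2 : ℝ) ^ lq) ^ (m - 1) * ((1 / 2 : ℝ) ^ lr) ^ m) *
          (Cw * ((2 : ℝ) ^ a * 2 ^ b) ^ m * X) := hwalk
      _ = (Mc * Mf) ^ m * Mc * Cw * W ^ m * (X * (2 : ℝ) ^ (lq : ℝ)) := by
          rw [e, hWdef]; simp only [mul_pow]; ring
      _ ≤ (M * M) ^ m * M * Cw * (η0 ^ 2) ^ m * (D * (2 : ℝ) ^ (-(L0 : ℝ))) := by gcongr
      _ = M ^ (2 * m) * M * (Cw * (η0 ^ 2) ^ m * (D * (2 : ℝ) ^ (-(L0 : ℝ)))) := by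
          rw [← pow_two M, ← pow_mul]; ring
      _ ≤ (M + M ^ 2) ^ (2 * m) * (Cw * (η0 ^ 2) ^ m * (D * (2 : ℝ) ^ (-(L0 : ℝ)))) :=
          mul_le_mul_of_nonneg_right hMM (by positivity)
      _ = _ := by rw [← pow_mul η0]; ring
  refine le_of_pow_le_pow_left₀ (show 2 * m ≠ 0 by omega) (by positivity)
    (hpow.trans (le_of_eq ?_))
  rw [mul_pow _ ((2 : ℝ) ^ _), mul_pow, ← Real.rpow_natCast ((Cw * D) ^ _),
    ← Real.rpow_mul (by positivity), inv_mul_cancel₀ (by positivity), Real.rpow_one,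
    ← Real.rpow_natCast ((2 : ℝ) ^ _), ← Real.rpow_mul two_pos.le]
  congr 2
  have : (m : ℝ) ≠ 0 := by exact_mod_cast (by omega : m ≠ 0)
  push_cast
  field_simp

/-- Geometric decay in all four parameters of a class. -/
lemma class_decay (m lq lr a b L0 : ℕ) (hm : 1 ≤ m) (h : lq + lr + (a + b) ≤ 4 * L0 + 2) :
    (2 : ℝ) ^ (-((L0 : ℝ) / (2 * m))) ≤ 2 * ((((2 : ℝ) ^ (-(1 / (8 * (m : ℝ))))) ^ lq
      * ((2 : ℝ) ^ (-(1 / (8 * (m : ℝ))))) ^ lr) * (((2 : ℝ) ^ (-(1 / (8 * (m : ℝ))))) ^ a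
      * ((2 : ℝ) ^ (-(1 / (8 * (m : ℝ))))) ^ b)) := by
  rw [← pow_add, ← pow_add, ← pow_add, ← Real.rpow_natCast ((2 : ℝ) ^ _),
    ← Real.rpow_mul two_pos.le]
  set s : ℝ := ((lq + lr + (a + b) : ℕ) : ℝ) with hs
  have h2 : s ≤ 4 * L0 + 2 := by rw [hs]; exact_mod_cast h
  have h4 : (1 : ℝ) ≤ m := by exact_mod_cast hm
  calc (2 : ℝ) ^ (-((L0 : ℝ) / (2 * m)))
      ≤ (2 : ℝ) ^ (1 + -(1 / (8 * (m : ℝ))) * s) := by
        refine Real.rpow_le_rpow_of_exponent_le one_le_two ?_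
        rw [neg_mul, one_div_mul_eq_div]
        have h5 : s / (8 * m) ≤ (4 * L0 + 2) / (8 * m) :=
          div_le_div_of_nonneg_right h2 (by positivity)
        have h6 : (4 * (L0 : ℝ) + 2) / (8 * m) = (L0 : ℝ) / (2 * m) + 1 / (4 * m) := by
          field_simp; ring
        have h7 : 1 / (4 * (m : ℝ)) ≤ 1 := (div_le_one (by positivity)).2 (by linarith)
        linarith
    _ = _ := by rw [Real.rpow_add two_pos, Real.rpow_one]

lemma log_le_scale (x lx : ℕ) (w : ℝ) (hx : 0 < x) (hw : (1 / 2 : ℝ) ^ (lx + 1) < w)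
    (hxw : (x : ℝ) * w ≤ 1) : Nat.log 2 x ≤ lx + 1 := by
  have hw0 : 0 < w := lt_trans (by positivity) hw
  rw [one_div, inv_pow, inv_lt_iff_one_lt_mul₀ (by positivity)] at hw
  have h1 : (x : ℝ) < (2 : ℝ) ^ (lx + 1) := by
    by_contra hcon
    have := mul_le_mul_of_nonneg_left (not_lt.1 hcon) hw0.le
    linarith
  have h2 : x < 2 ^ (lx + 1) := by exact_mod_cast h1
  exact (Nat.log_lt_of_lt_pow hx.ne' h2).le

lemma eta_sq (a b lq lr : ℕ) :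
    (2 : ℝ) ^ a * 2 ^ b * ((1 / 2) ^ lq * (1 / 2) ^ lr)
      ≤ ((2 : ℝ) ^ b * (1 / 2) ^ (lq + 1) + (2 : ℝ) ^ a * (1 / 2) ^ (lr + 1)) ^ 2 := by
  rw [pow_succ (1 / 2 : ℝ) lq, pow_succ (1 / 2 : ℝ) lr]
  nlinarith [sq_nonneg ((2 : ℝ) ^ b * (1 / 2) ^ lq - (2 : ℝ) ^ a * (1 / 2) ^ lr)]

/-- A pair with tiny `η` and a coincidence has long ratios. -/
lemma pair_low {γ μ c ρ' : ℝ} (h : Dioph γ μ c) {q r L L0 : ℕ} (hq : 0 < q) (_hr : 0 < r)
    (hne : q ≠ r) (hu : uu q r < 2 ^ (L + 1)) (hv : vv q r < 2 ^ (L + 1)) {η : ℝ}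
    (hnear : Near γ η q r) (hη : η ≤ (2 : ℝ) ^ (-(ρ' * (L0 : ℝ)))) :
    ρ' / μ * L0 + (Real.logb 2 c / μ - 1) ≤ (L : ℝ) := by
  obtain ⟨hμ, hc, hd⟩ := h
  have hh0 : hh q r ≠ 0 := by
    intro h0
    simp only [hh, sub_eq_zero, Int.natCast_inj] at h0
    have := ratio_eq q r
    rw [h0] at this
    exact hne (Nat.eq_of_mul_eq_mul_right (uu_pos q r hq) this)
  set H := (hh q r).natAbs with hH
  have hH0 : 0 < H := Int.natAbs_pos.2 hh0
  have hHle : H ≤ 2 ^ (L + 1) := by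
    have e : hh q r = (vv q r : ℤ) - (uu q r : ℤ) := rfl
    omega
  have hdist : distInt ((H : ℝ) * γ) < (2 : ℝ) ^ (-(ρ' * (L0 : ℝ))) := by
    refine lt_of_eq_of_lt ?_ (lt_of_lt_of_le hnear hη)
    rw [mul_comm, hH, Nat.cast_natAbs, Int.cast_abs]
    rcases abs_choice ((hh q r : ℤ) : ℝ) with he | he
    · rw [he]
    · rw [he, mul_neg, distInt_neg']
  have h1 : c * ((2 : ℝ) ^ ((L : ℝ) + 1)) ^ (-μ) < (2 : ℝ) ^ (-(ρ' * (L0 : ℝ))) := by
    refine lt_of_le_of_lt ?_ ((hd H hH0).trans_lt hdist)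
    refine mul_le_mul_of_nonneg_left ?_ hc.le
    refine Real.rpow_le_rpow_of_nonpos (by exact_mod_cast hH0) ?_ (by linarith)
    rw [← Nat.cast_one (R := ℝ), ← Nat.cast_add, Real.rpow_natCast]
    exact_mod_cast hHle
  rw [← Real.rpow_mul two_pos.le] at h1
  have h2 := Real.logb_lt_logb one_lt_two (mul_pos hc (Real.rpow_pos_of_pos two_pos _)) h1
  rw [Real.logb_mul hc.ne' (Real.rpow_pos_of_pos two_pos _).ne', Real.logb_rpow two_pos (by norm_num),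
    Real.logb_rpow two_pos (by norm_num)] at h2
  have h3 : ρ' / μ * L0 + Real.logb 2 c / μ < (L : ℝ) + 1 := by
    rw [div_mul_eq_mul_div, ← add_div, div_lt_iff₀ (by linarith)]
    linarith
  linarith

/-- The bound of one class, given the count of its closed walks. -/
lemma class_bound (μf : ℕ → ℝ) (S : Finset ℕ) (R : Finset (ℕ × ℕ)) (l : ℕ → ℕ)
    (lq lr a b j : ℕ) (η0 M Cw κ θ E : ℝ) (hμ : ∀ q, 0 ≤ μf q)
    (hμl : ∀ q ∈ S, 0 < q ∧ μf q ≤ (1 / 2 : ℝ) ^ l q)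
    (hR : ∀ p ∈ R, 0 < p.1 ∧ 0 < p.2) (hM : M = msum μf S) (hη0 : 0 < η0)
    (hη0W : (2 : ℝ) ^ a * 2 ^ b * ((1 / 2) ^ lq * (1 / 2) ^ lr) ≤ η0 ^ 2)
    (hCw : 0 ≤ Cw)
    (hcount : ((walks R (2 ^ (j + 1)) 1 1).card : ℝ)
      ≤ Cw * ((2 : ℝ) ^ a * 2 ^ b) ^ 2 ^ (j + 1) * (2 : ℝ) ^ (-κ * (max a b : ℕ)))
    (hκ : 2 ≤ θ * κ) (hκ0 : 0 ≤ κ) (hlow : θ * (max lq lr : ℕ) + E ≤ ((max a b : ℕ) : ℝ)) :
    pairSum μf (fun q r => if (uu q r, vv q r) ∈ R then 1 else 0)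
        (S.filter fun q => l q = lq) (S.filter fun q => l q = lr) / η0
      ≤ (Cw * (2 : ℝ) ^ (-(κ * E))) ^ (((2 * 2 ^ (j + 1) : ℕ) : ℝ)⁻¹) * (M + M ^ 2)
        * (2 : ℝ) ^ (-(((max lq lr : ℕ) : ℝ) / (2 * (2 ^ (j + 1) : ℕ)))) := by
  classical
  set Sc := S.filter fun q => l q = lq with hSc
  set Sf := S.filter fun q => l q = lr with hSf
  have hM0 : 0 ≤ M := hM ▸ Finset.sum_nonneg fun q _ => hμ q
  have hMc : msum μf Sc ≤ M :=
    hM ▸ Finset.sum_le_sum_of_subset_of_nonneg (filter_subset _ _) fun q _ _ => hμ q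
  have hMf : msum μf Sf ≤ M :=
    hM ▸ Finset.sum_le_sum_of_subset_of_nonneg (filter_subset _ _) fun q _ _ => hμ q
  have hMc0 : 0 ≤ msum μf Sc := Finset.sum_nonneg fun q _ => hμ q
  have hMf0 : 0 ≤ msum μf Sf := Finset.sum_nonneg fun q _ => hμ q
  have hE0 : 0 ≤ pairSum μf (fun q r => if (uu q r, vv q r) ∈ R then (1 : ℝ) else 0) Sc Sf := by
    refine Finset.sum_nonneg fun q _ => Finset.sum_nonneg fun r _ => ?_
    refine mul_nonneg (mul_nonneg (hμ q) (hμ r)) ?_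
    dsimp only
    split_ifs <;> norm_num
  have hwb := walk_bound μf R Sc Sf ((1 / 2 : ℝ) ^ lq) ((1 / 2 : ℝ) ^ lr) j hμ
    (fun q hq => ⟨(hμl q (mem_filter.1 hq).1).1,
      (mem_filter.1 hq).2 ▸ (hμl q (mem_filter.1 hq).1).2⟩)
    (fun q hq => (mem_filter.1 hq).2 ▸ (hμl q (mem_filter.1 hq).1).2)
    hR (by positivity) (by positivity)
  have hexp : (2 : ℝ) ^ (-κ * (max a b : ℕ)) * (2 : ℝ) ^ (lq : ℝ)
      ≤ (2 : ℝ) ^ (-(κ * E)) * (2 : ℝ) ^ (-((max lq lr : ℕ) : ℝ)) := by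
    rw [← Real.rpow_add two_pos, ← Real.rpow_add two_pos]
    refine Real.rpow_le_rpow_of_exponent_le one_le_two ?_
    have h1 := mul_le_mul_of_nonneg_left hlow hκ0
    have h2 : (lq : ℝ) ≤ ((max lq lr : ℕ) : ℝ) := by exact_mod_cast le_max_left lq lr
    have h3 := mul_le_mul_of_nonneg_right hκ (Nat.cast_nonneg (α := ℝ) (max lq lr))
    linarith
  exact class_arith (2 ^ (j + 1)) lq lr a b (max lq lr) Nat.one_le_two_pow hE0 hη0 hM0 hMc0 hMc
    hMf0 hMf hCw (Real.rpow_nonneg two_pos.le _) (Real.rpow_nonneg two_pos.le _) (by positivity)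
    hη0W (hwb.trans (mul_le_mul_of_nonneg_left hcount (mul_nonneg (mul_nonneg (pow_nonneg
      (mul_nonneg hMc0 hMf0) _) hMc0) (by positivity)))) hexp

end TopAux

open TopAux in
theorem top_pairs (γ μ c ρ : ℝ) (h : Dioph γ μ c) (hρ : 0 < ρ) :
    ∃ C : ℝ, 0 ≤ C ∧ ∀ (ψ : ℕ → ℝ) (S : Finset ℕ),
      (∀ q, 0 ≤ ψ q) → (∀ q ∈ S, 0 < q ∧ 0 < ψ q ∧ ψ q ≤ 1 / 2) →
      pairSum (mu ψ) (kerTop γ ψ ρ) S S ≤ C * (msum (mu ψ) S + msum (mu ψ) S ^ 2) := by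
  classical
  obtain ⟨hμ, hc, hd⟩ := id h
  set ρ' := min ρ 1 with hρ'
  have hρ'0 : 0 < ρ' := lt_min hρ one_pos
  set θ := ρ' / μ with hθdef
  have hθ : 0 < θ := div_pos hρ'0 (by linarith)
  obtain ⟨j, hj⟩ := pow_unbounded_of_one_lt (4 / θ + 8 / θ ^ 2) (one_lt_two (α := ℝ))
  set m := 2 ^ (j + 1) with hm
  have hm1 : 1 ≤ m := Nat.one_le_two_pow
  have hmR : 4 / θ + 8 / θ ^ 2 ≤ (m : ℝ) := by
    rw [hm]; push_cast
    exact hj.le.trans (pow_le_pow_right₀ one_le_two (Nat.le_succ j))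
  have hκ : 2 ≤ θ * (θ * m / 4 - 1) := by
    have h1 := mul_le_mul_of_nonneg_left hmR (sq_nonneg θ)
    rw [mul_add, mul_div_assoc', mul_div_assoc', mul_div_cancel_left₀ (8 : ℝ) (by positivity)] at h1
    have h2 : θ ^ 2 * 4 / θ = 4 * θ := by field_simp
    rw [h2] at h1
    linarith
  obtain ⟨Cw, hCw0, hCw⟩ := walks_count h hρ'0 (min_le_right _ _) m
  set κ := θ * m / 4 - 1 with hκdef
  have hκ0 : 0 ≤ κ := by
    by_contra hcon
    have : θ * κ ≤ 0 := mul_nonpos_of_nonneg_of_nonpos hθ.le (not_le.1 hcon).le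
    linarith
  set E := Real.logb 2 c / μ - 1 with hE
  set C1 := Cw * (2 : ℝ) ^ (-(κ * E)) with hC1
  have hC10 : 0 ≤ C1 := by positivity
  set r : ℝ := (2 : ℝ) ^ (-(1 / (8 * (m : ℝ)))) with hr
  have hr0 : 0 ≤ r := by positivity
  have hmpos : (0 : ℝ) < m := by exact_mod_cast hm1
  have hr1 : r < 1 := Real.rpow_lt_one_of_one_lt_of_neg one_lt_two (neg_neg_of_pos (by positivity))
  set C2 := 2 * C1 ^ (((2 * m : ℕ) : ℝ)⁻¹) with hC2
  refine ⟨C2 * (1 / (1 - r)) ^ 4, by have := sub_pos.2 hr1; positivity, fun ψ S hψ hS => ?_⟩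
  set M := msum (mu ψ) S with hM
  have hmu0 : ∀ q, 0 ≤ mu ψ q := fun q =>
    mul_nonneg (div_nonneg (Nat.cast_nonneg _) (Nat.cast_nonneg _)) (hψ q)
  have hmule : ∀ q, mu ψ q ≤ ψ q := fun q => by
    refine mul_le_of_le_one_left (hψ q) ?_
    rcases Nat.eq_zero_or_pos q with rfl | hq
    · simp [th]
    · exact (div_le_one (by exact_mod_cast hq)).2 (by exact_mod_cast Nat.totient_le q)
  have hM0 : 0 ≤ M := Finset.sum_nonneg fun q _ => hmu0 q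
  have hex : ∀ q ∈ S, ∃ l : ℕ, (1 / 2 : ℝ) ^ (l + 1) < ψ q ∧ ψ q ≤ (1 / 2 : ℝ) ^ l := fun q hq =>
    exists_nat_pow_near_of_lt_one (hS q hq).2.1 (by linarith [(hS q hq).2.2]) (by norm_num)
      (by norm_num)
  choose! l hl1 hl2 using hex
  set cls : ℕ × ℕ → (ℕ × ℕ) × (ℕ × ℕ) := fun p =>
    ((l p.1, l p.2), (Nat.log 2 (uu p.1 p.2), Nat.log 2 (vv p.1 p.2))) with hcls
  set Pr := (S ×ˢ S).filter fun p => p.1 ≠ p.2 ∧ Near γ (etaP ψ p.1 p.2) p.1 p.2 ∧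
    etaP ψ p.1 p.2 ≤ (min (ψ p.1) (ψ p.2)) ^ ρ with hPr
  have hsum : pairSum (mu ψ) (kerTop γ ψ ρ) S S
      = ∑ p ∈ Pr, mu ψ p.1 * mu ψ p.2 / etaP ψ p.1 p.2 := by
    rw [pairSum, hPr, Finset.sum_filter, Finset.sum_product]
    refine Finset.sum_congr rfl fun q _ => Finset.sum_congr rfl fun r' _ => ?_
    simp only [kerTop]
    split_ifs <;> ring
  have hclass : ∀ z ∈ Pr.image cls, ∑ p ∈ Pr.filter (fun p => cls p = z),
      mu ψ p.1 * mu ψ p.2 / etaP ψ p.1 p.2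
      ≤ C2 * (M + M ^ 2) * ((r ^ z.1.1 * r ^ z.1.2) * (r ^ z.2.1 * r ^ z.2.2)) := by
    intro z hz
    obtain ⟨⟨q0, r0⟩, hp0, rfl⟩ := mem_image.1 hz
    obtain ⟨hqr0, hne, hnear, htop⟩ := mem_filter.1 hp0
    obtain ⟨hq0, hr0S⟩ := mem_product.1 hqr0
    simp only [hcls] at hne hnear htop ⊢
    set lq := l q0
    set lr := l r0
    set u0 := uu q0 r0 with hu0
    set v0 := vv q0 r0 with hv0
    set a := Nat.log 2 u0 with ha
    set b := Nat.log 2 v0 with hb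
    have hup : 0 < u0 := uu_pos q0 r0 (hS q0 hq0).1
    have hvp : 0 < v0 := vv_pos q0 r0 (hS r0 hr0S).1
    set L0 := max lq lr with hL0
    set η1 : ℝ := (2 : ℝ) ^ (-(ρ' * (L0 : ℝ))) with hη1
    have htopbound : ∀ q ∈ S, ∀ r' ∈ S, etaP ψ q r' ≤ (min (ψ q) (ψ r')) ^ ρ →
        etaP ψ q r' ≤ (2 : ℝ) ^ (-(ρ' * (max (l q) (l r') : ℕ))) := by
      intro q hq r' hr' ht
      have hpos : 0 < min (ψ q) (ψ r') := lt_min (hS q hq).2.1 (hS r' hr').2.1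
      have hle1 : min (ψ q) (ψ r') ≤ 1 := (min_le_left _ _).trans (by linarith [(hS q hq).2.2])
      refine ht.trans ((Real.rpow_le_rpow_of_exponent_ge hpos hle1 (min_le_left ρ 1)).trans ?_)
      have h2 : min (ψ q) (ψ r') ≤ (1 / 2 : ℝ) ^ max (l q) (l r') := by
        rcases le_total (l q) (l r') with hll | hll
        · rw [max_eq_right hll]; exact (min_le_right _ _).trans (hl2 r' hr')
        · rw [max_eq_left hll]; exact (min_le_left _ _).trans (hl2 q hq)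
      refine (Real.rpow_le_rpow hpos.le h2 hρ'0.le).trans (le_of_eq ?_)
      rw [one_div, inv_pow, ← Real.rpow_natCast, Real.inv_rpow (by positivity),
        ← Real.rpow_mul two_pos.le, ← Real.rpow_neg two_pos.le]
      congr 1
      rw [hρ']
      ring
    have hη0 : etaP ψ q0 r0 ≤ η1 := htopbound q0 hq0 r0 hr0S htop
    have hη11 : η1 ≤ 1 := Real.rpow_le_one_of_one_le_of_nonpos one_le_two
      (neg_nonpos.2 (mul_nonneg hρ'0.le (Nat.cast_nonneg L0)))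
    have hηe : etaP ψ q0 r0 = (v0 : ℝ) * ψ q0 + (u0 : ℝ) * ψ r0 := rfl
    have hψq0 := (hS q0 hq0).2.1
    have hψr0 := (hS r0 hr0S).2.1
    have hu_nn : 0 ≤ (u0 : ℝ) * ψ r0 := by positivity
    have hv_nn : 0 ≤ (v0 : ℝ) * ψ q0 := by positivity
    have hble : b ≤ lq + 1 := log_le_scale v0 lq (ψ q0) hvp (hl1 q0 hq0) (by linarith)
    have hale : a ≤ lr + 1 := log_le_scale u0 lr (ψ r0) hup (hl1 r0 hr0S) (by linarith)
    set L := max a b with hLdef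
    have hLL0 : L ≤ L0 + 1 := max_le (hale.trans (by omega)) (hble.trans (by omega))
    have hη1L : η1 ≤ 2 * (2 : ℝ) ^ (-(ρ' * (L : ℕ))) := by
      have hstep : (L : ℝ) ≤ L0 + 1 := by exact_mod_cast hLL0
      have hmul := mul_le_mul_of_nonneg_left hstep hρ'0.le
      have h1 : ρ' ≤ 1 := min_le_right _ _
      calc η1 ≤ (2 : ℝ) ^ (1 + -(ρ' * (L : ℕ))) :=
            Real.rpow_le_rpow_of_exponent_le one_le_two (by linarith)
        _ = _ := by rw [Real.rpow_add two_pos, Real.rpow_one]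
    have hLlow : θ * L0 + E ≤ (L : ℝ) :=
      pair_low h (hS q0 hq0).1 (hS r0 hr0S).1 hne
        ((Nat.lt_pow_succ_log_self one_lt_two u0).trans_le
          (Nat.pow_le_pow_right two_pos (Nat.succ_le_succ (le_max_left a b))))
        ((Nat.lt_pow_succ_log_self one_lt_two v0).trans_le
          (Nat.pow_le_pow_right two_pos (Nat.succ_le_succ (le_max_right a b))))
        hnear hη0
    set η0 : ℝ := (2 : ℝ) ^ b * (1 / 2) ^ (lq + 1) + (2 : ℝ) ^ a * (1 / 2) ^ (lr + 1) with hη0def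
    have hη0pos : 0 < η0 := by positivity
    set R := ratioSet γ η1 a b with hR
    set Sc := S.filter fun q => l q = lq with hSc
    set Sf := S.filter fun q => l q = lr with hSf
    set E' := pairSum (mu ψ) (fun q r' => if (uu q r', vv q r') ∈ R then 1 else 0) Sc Sf with hE'
    have hE'0 : 0 ≤ E' := Finset.sum_nonneg fun q _ => Finset.sum_nonneg fun r' _ => by
      have := hmu0 q
      have := hmu0 r'
      dsimp only
      split_ifs <;> positivity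
    have hfib : ∑ p ∈ Pr.filter (fun p => cls p = ((lq, lr), (a, b))),
        mu ψ p.1 * mu ψ p.2 / etaP ψ p.1 p.2 ≤ E' / η0 := by
      have e : E' = ∑ p ∈ (Sc ×ˢ Sf).filter (fun p => (uu p.1 p.2, vv p.1 p.2) ∈ R),
          mu ψ p.1 * mu ψ p.2 := by
        rw [hE', pairSum, ← Finset.sum_product', Finset.sum_filter]
        refine Finset.sum_congr rfl fun p _ => ?_
        split_ifs <;> ring
      rw [e, Finset.sum_div]
      refine (Finset.sum_le_sum fun p hp => ?_).trans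
        (Finset.sum_le_sum_of_subset_of_nonneg ?_ fun p _ _ =>
          div_nonneg (mul_nonneg (hmu0 _) (hmu0 _)) hη0pos.le)
      · obtain ⟨hp', hpc⟩ := mem_filter.1 hp
        obtain ⟨hpS, -⟩ := mem_filter.1 hp'
        obtain ⟨hpq, hpr⟩ := mem_product.1 hpS
        simp only [hcls, Prod.mk.injEq] at hpc
        obtain ⟨⟨e1, e2⟩, e3, e4⟩ := hpc
        refine div_le_div_of_nonneg_left (mul_nonneg (hmu0 _) (hmu0 _)) hη0pos ?_
        rw [hη0def, ← e1, ← e2, ← e3, ← e4]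
        unfold etaP
        refine add_le_add (mul_le_mul ?_ (hl1 _ hpq).le (by positivity) (Nat.cast_nonneg _))
          (mul_le_mul ?_ (hl1 _ hpr).le (by positivity) (Nat.cast_nonneg _))
        · exact_mod_cast Nat.pow_log_le_self 2 (vv_pos p.1 p.2 (hS _ hpr).1).ne'
        · exact_mod_cast Nat.pow_log_le_self 2 (uu_pos p.1 p.2 (hS _ hpq).1).ne'
      · intro p hp
        obtain ⟨hp', hpc⟩ := mem_filter.1 hp
        obtain ⟨hpS, -, hpn, hpt⟩ := mem_filter.1 hp'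
        obtain ⟨hpq, hpr⟩ := mem_product.1 hpS
        simp only [hcls, Prod.mk.injEq] at hpc
        obtain ⟨⟨e1, e2⟩, e3, e4⟩ := hpc
        have hu := uu_pos p.1 p.2 (hS _ hpq).1
        have hv := vv_pos p.1 p.2 (hS _ hpr).1
        refine mem_filter.2 ⟨mem_product.2 ⟨mem_filter.2 ⟨hpq, e1⟩, mem_filter.2 ⟨hpr, e2⟩⟩, ?_⟩
        refine mem_filter.2 ⟨mem_product.2 ⟨mem_Ico.2 ?_, mem_Ico.2 ?_⟩, ?_, ?_⟩
        · exact ⟨e3 ▸ Nat.pow_log_le_self 2 hu.ne',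
            e3 ▸ Nat.lt_pow_succ_log_self one_lt_two _⟩
        · exact ⟨e4 ▸ Nat.pow_log_le_self 2 hv.ne',
            e4 ▸ Nat.lt_pow_succ_log_self one_lt_two _⟩
        · exact Nat.coprime_div_gcd_div_gcd (Nat.gcd_pos_of_pos_left _ (hS _ hpq).1)
        · have ht := htopbound p.1 hpq p.2 hpr hpt
          rw [e1, e2] at ht
          have hn := lt_of_lt_of_le hpn ht
          refine lt_of_eq_of_lt ?_ hn
          congr 2
          simp [hh]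
    refine hfib.trans ?_
    have hη0sq := eta_sq a b lq lr
    rw [← hη0def] at hη0sq
    have hwc := hCw η1 a b (Real.rpow_pos_of_pos two_pos _) hη1L
    rw [show (1 - ρ' / μ * (m : ℝ) / 4) = -κ by rw [hκdef, hθdef]; ring] at hwc
    have hb' := class_bound (mu ψ) S R l lq lr a b j η0 M Cw κ θ E hmu0
      (fun q hq => ⟨(hS q hq).1, (hmule q).trans (hl2 q hq)⟩) (ratioSet_pos γ η1 a b) hM hη0pos
      hη0sq hCw0 hwc hκ hκ0 hLlow
    refine hb'.trans ?_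
    have hcnt : lq + lr + (a + b) ≤ 4 * max lq lr + 2 := by omega
    rw [← hm, ← hC1]
    have hdecay := class_decay m lq lr a b (max lq lr) hm1 hcnt
    rw [← hr] at hdecay
    calc C1 ^ (((2 * m : ℕ) : ℝ)⁻¹) * (M + M ^ 2)
          * (2 : ℝ) ^ (-(((max lq lr : ℕ) : ℝ) / (2 * m)))
        ≤ C1 ^ (((2 * m : ℕ) : ℝ)⁻¹) * (M + M ^ 2)
            * (2 * ((r ^ lq * r ^ lr) * (r ^ a * r ^ b))) :=
          mul_le_mul_of_nonneg_left hdecay
            (mul_nonneg (Real.rpow_nonneg hC10 _) (add_nonneg hM0 (sq_nonneg M)))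
      _ = C2 * (M + M ^ 2) * ((r ^ lq * r ^ lr) * (r ^ a * r ^ b)) := by rw [hC2]; ring
  have hgeo : ∀ f : (ℕ × ℕ) × (ℕ × ℕ) → ℕ,
      ∑ x ∈ (Pr.image cls).image f, r ^ x ≤ 1 / (1 - r) := fun f =>
    (geom_finset_le hr0 hr1 _ 0 fun x _ => Nat.zero_le x).trans (by rw [pow_zero])
  have hgeo0 : ∀ f : (ℕ × ℕ) × (ℕ × ℕ) → ℕ, 0 ≤ ∑ x ∈ (Pr.image cls).image f, r ^ x :=
    fun f => Finset.sum_nonneg fun x _ => pow_nonneg hr0 x
  rw [hsum, ← Finset.sum_fiberwise_of_maps_to (fun p hp => mem_image_of_mem cls hp)]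
  calc ∑ z ∈ Pr.image cls, ∑ p ∈ Pr.filter (fun p => cls p = z),
        mu ψ p.1 * mu ψ p.2 / etaP ψ p.1 p.2
      ≤ ∑ z ∈ Pr.image cls, C2 * (M + M ^ 2) * ((r ^ z.1.1 * r ^ z.1.2) * (r ^ z.2.1 * r ^ z.2.2)) :=
        Finset.sum_le_sum hclass
    _ ≤ C2 * (M + M ^ 2) * (1 / (1 - r)) ^ 4 := by
        rw [← Finset.mul_sum]
        refine mul_le_mul_of_nonneg_left ?_ (by positivity)
        refine le_trans (Finset.sum_le_sum_of_subset_of_nonneg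
          (t := (((Pr.image cls).image fun z => z.1.1) ×ˢ ((Pr.image cls).image fun z => z.1.2)) ×ˢ
            (((Pr.image cls).image fun z => z.2.1) ×ˢ ((Pr.image cls).image fun z => z.2.2)))
          ?_ fun z _ _ => by positivity) ?_
        · intro z hz
          exact mem_product.2 ⟨mem_product.2 ⟨mem_image_of_mem (fun z => z.1.1) hz,
            mem_image_of_mem (fun z => z.1.2) hz⟩, mem_product.2
            ⟨mem_image_of_mem (fun z => z.2.1) hz, mem_image_of_mem (fun z => z.2.2) hz⟩⟩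
        · rw [Finset.sum_product, Finset.sum_product]
          simp only [Finset.sum_product, ← Finset.mul_sum, ← Finset.sum_mul]
          have h1 := sub_pos.2 hr1
          calc _ ≤ (1 / (1 - r) * (1 / (1 - r))) * (1 / (1 - r) * (1 / (1 - r))) :=
                mul_le_mul (mul_le_mul (hgeo _) (hgeo _) (hgeo0 _) (by positivity))
                  (mul_le_mul (hgeo _) (hgeo _) (hgeo0 _) (by positivity))
                  (mul_nonneg (hgeo0 _) (hgeo0 _)) (by positivity)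
            _ = _ := by ring
    _ = _ := by ring

end Vale.Agent.P028X
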