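import Vale.Agent.P028X.Density
import Vale.Agent.P028X.Top
import Vale.Agent.P028.Cell

/-! P028X module GROUP: second moment on a set meeting `J` cells. -/

namespace Vale.Agent.P028X

open Finset Vale.Agent.P028 MeasureTheory

lemma distInt_neg (x : ℝ) : distInt (-x) = distInt x := by
  have h : ∀ z : ℝ, distInt (-z) ≤ distInt z := fun z => by
    refine (distInt_le_abs (-z) (-round z)).trans (le_of_eq ?_)
    unfold distInt
    rw [← abs_neg]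
    push_cast
    ring_nf
  refine le_antisymm (h x) ?_
  simpa only [neg_neg] using h (-x)

lemma near_swap (γ y : ℝ) (q r : ℕ) : Near γ y r q ↔ Near γ y q r := by
  unfold Near
  rw [hh_swap q r]
  push_cast
  rw [mul_neg, distInt_neg]

lemma Wn_one_le (q r : ℕ) (n : ℤ) : Wn 1 0 q r n ≤ 1 := by
  unfold Wn
  split_ifs
  · exact zero_le_one
  rw [Finset.filter_false_of_mem (fun p _ => not_not_intro (dvd_zero p)), Finset.prod_empty,
    one_mul]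
  refine le_trans (Finset.sum_le_sum_of_subset_of_nonneg (t := {1}) (fun D hD => ?_)
    (fun D _ _ => by positivity)) (by simp)
  obtain ⟨-, -, hcop⟩ := Finset.mem_filter.1 (Finset.mem_filter.1 hD).1
  rw [mul_zero, Nat.coprime_zero_right] at hcop
  exact Finset.mem_singleton.2 hcop

open Classical in
/-- The kernel `1 / η` on the coincidences with a property `P`. -/
noncomputable def kerP (γ : ℝ) (ψ : ℕ → ℝ) (P : ℕ → ℕ → Prop) (q r : ℕ) : ℝ :=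
  if q ≠ r ∧ Near γ (etaP ψ q r) q r ∧ P q r then 1 / etaP ψ q r else 0

lemma kerP_nonneg (γ : ℝ) (ψ : ℕ → ℝ) (hψ : ∀ q, 0 ≤ ψ q) (P : ℕ → ℕ → Prop) (q r : ℕ) :
    0 ≤ kerP γ ψ P q r := by
  unfold kerP
  split_ifs
  · have := hψ q
    have := hψ r
    unfold etaP
    positivity
  · exact le_rfl

lemma kerTop_nonneg (γ : ℝ) (ψ : ℕ → ℝ) (hψ : ∀ q, 0 ≤ ψ q) (ρ : ℝ) (q r : ℕ) :
    0 ≤ kerTop γ ψ ρ q r := by
  unfold kerTop
  split_ifs
  · have := hψ q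
    have := hψ r
    unfold etaP
    positivity
  · exact le_rfl

/-- The overlap of two sets, without exclusion. -/
lemma overlapX (γ : ℝ) (ψ : ℕ → ℝ) (hψ : ∀ q, 0 ≤ ψ q) (q r : ℕ) (hq : 0 < q) (hr : 0 < r)
    (hne : q ≠ r) (hq0 : 0 < ψ q) (hq1 : ψ q ≤ 1 / 2) (hr0 : 0 < ψ r) (hr1 : ψ r ≤ 1 / 2) :
    ∫ x in Set.Ico (0 : ℝ) 1, fq γ ψ 1 0 q x * fq γ ψ 1 0 r x
      ≤ 4 * (mu ψ q * mu ψ r) * (2 + kerP γ ψ (fun _ _ => True) q r) := by
  have hcop : IsCoprime (1 : ℤ) ((0 : ℕ) : ℤ) := isCoprime_one_left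
  refine (overlap_le' γ ψ 1 0 q r hcop hq hr hne hq0 hq1 hr0 hr1).trans ?_
  have hu : (0 : ℝ) < uu q r := by exact_mod_cast uu_pos q r hq
  have hv : (0 : ℝ) < vv q r := by exact_mod_cast vv_pos q r hr
  have hη : 0 < etaP ψ q r := by unfold etaP; positivity
  have hμ : 0 ≤ mu ψ q * mu ψ r := mul_nonneg (mu_nonneg' hψ q) (mu_nonneg' hψ r)
  set η := etaP ψ q r with hηd
  have hsum : ∑ n ∈ nWin γ η q r, Wn 1 0 q r n ≤ ((nWin γ η q r).card : ℝ) := by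
    refine (Finset.sum_le_sum fun n _ => Wn_one_le q r n).trans (le_of_eq ?_)
    simp
  have hcard : ((nWin γ η q r).card : ℝ) ≤ 2 * η + 1 := by
    have h := card_class γ η q r 1 0 1 hη one_pos isCoprime_one_left
    simp at h
    linarith [(abs_le.1 h).2]
  calc 4 * mu ψ q * mu ψ r / η * ∑ n ∈ nWin γ η q r, Wn 1 0 q r n
      ≤ 4 * mu ψ q * mu ψ r / η * ((nWin γ η q r).card : ℝ) :=
        mul_le_mul_of_nonneg_left hsum
          (div_nonneg (by linarith [show 4 * mu ψ q * mu ψ r = 4 * (mu ψ q * mu ψ r) by ring]) hη.le)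
    _ = 4 * (mu ψ q * mu ψ r) * (((nWin γ η q r).card : ℝ) / η) := by ring
    _ ≤ _ := by
        refine mul_le_mul_of_nonneg_left ?_ (by linarith)
        unfold kerP
        rw [← hηd]
        split_ifs with hN
        · rw [div_le_iff₀ hη, add_mul, one_div_mul_cancel hη.ne']
          exact hcard
        · have he : nWin γ η q r = ∅ := by
            refine Finset.eq_empty_of_forall_notMem fun n hn => hN ⟨hne, ?_, trivial⟩
            have hn' := (mem_nWin γ η q r n).1 hn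
            refine lt_of_le_of_lt (distInt_le_abs _ (-n)) ?_
            push_cast
            rwa [sub_neg_eq_add, add_comm]
          rw [he]; simp

/-- A sum over pairs is covered by the dyadic classes which it meets. -/
lemma groupCover (γ : ℝ) (ψ : ℕ → ℝ) (hψ : ∀ q, 0 ≤ ψ q) (V W : Finset ℕ)
    (hV : ∀ q ∈ V, 0 < q ∧ 0 < ψ q) (hW : ∀ q ∈ W, 0 < q ∧ 0 < ψ q) (P : ℕ → ℕ → Prop) :
    ∃ L : Finset (ℤ × ℤ),
      (∀ l ∈ L, ∃ q ∈ V, ∃ r ∈ W, P q r ∧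
        etaP ψ q r ≤ 2 * max ((2 : ℝ) ^ (l.1 : ℝ)) ((2 : ℝ) ^ (l.2 : ℝ)) ∧
        2 * max ((2 : ℝ) ^ (l.1 : ℝ)) ((2 : ℝ) ^ (l.2 : ℝ)) ≤ 4 * etaP ψ q r) ∧
      pairSum (mu ψ) (kerP γ ψ P) V W
        ≤ ∑ l ∈ L, 4 / (2 * max ((2 : ℝ) ^ (l.1 : ℝ)) ((2 : ℝ) ^ (l.2 : ℝ))) *
          pairSum (mu ψ) (fun q r => bb (Near γ (2 * max ((2 : ℝ) ^ (l.1 : ℝ))
              ((2 : ℝ) ^ (l.2 : ℝ))) q r) *
            clsI ψ ((2 : ℝ) ^ (l.1 : ℝ)) ((2 : ℝ) ^ (l.2 : ℝ)) q r) V W := by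
  classical
  set L := ((V ×ˢ W).filter (fun z => P z.1 z.2)).image
    (fun z => (midIdx ((vv z.1 z.2 : ℝ) * ψ z.1), midIdx ((uu z.1 z.2 : ℝ) * ψ z.2))) with hL
  have hin : ∀ q ∈ V, ∀ r ∈ W, InCls ψ ((2 : ℝ) ^ (midIdx ((vv q r : ℝ) * ψ q) : ℝ))
      ((2 : ℝ) ^ (midIdx ((uu q r : ℝ) * ψ r) : ℝ)) q r := by
    intro q hq r hr
    have := (hV q hq).2
    have := (hW r hr).2
    have : (0 : ℝ) < vv q r := by exact_mod_cast vv_pos q r (hW r hr).1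
    have : (0 : ℝ) < uu q r := by exact_mod_cast uu_pos q r (hV q hq).1
    exact ⟨midIdx_spec _ (by positivity), midIdx_spec _ (by positivity)⟩
  refine ⟨L, fun l hl => ?_, ?_⟩
  · obtain ⟨⟨q, r⟩, hz, rfl⟩ := Finset.mem_image.1 hl
    obtain ⟨hqr, hP⟩ := Finset.mem_filter.1 hz
    obtain ⟨hq, hr⟩ := Finset.mem_product.1 hqr
    exact ⟨q, hq, r, hr, hP, midCls ψ hψ _ _ q r (hin q hq r hr)⟩
  · simp only [← midPairSum_smul, ← midPairSum_sum]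
    refine pairSum_mono (mu_nonneg' hψ) fun q hq r hr => ?_
    have h0 : ∀ l ∈ L, 0 ≤ 4 / (2 * max ((2 : ℝ) ^ (l.1 : ℝ)) ((2 : ℝ) ^ (l.2 : ℝ))) *
        (bb (Near γ (2 * max ((2 : ℝ) ^ (l.1 : ℝ)) ((2 : ℝ) ^ (l.2 : ℝ))) q r) *
          clsI ψ ((2 : ℝ) ^ (l.1 : ℝ)) ((2 : ℝ) ^ (l.2 : ℝ)) q r) := fun l _ =>
      mul_nonneg (by positivity) (mul_nonneg (bb_nonneg _) (cls_mem ψ _ _ q r).1)
    unfold kerP
    split_ifs with h
    · refine le_trans ?_ (Finset.single_le_sum h0 (Finset.mem_image.2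
        ⟨(q, r), Finset.mem_filter.2 ⟨Finset.mem_product.2 ⟨hq, hr⟩, h.2.2⟩, rfl⟩))
      obtain ⟨hle, hge⟩ := midCls ψ hψ _ _ q r (hin q hq r hr)
      set Y := 2 * max ((2 : ℝ) ^ (midIdx ((vv q r : ℝ) * ψ q) : ℝ))
        ((2 : ℝ) ^ (midIdx ((uu q r : ℝ) * ψ r) : ℝ)) with hY
      have hY0 : 0 < Y := by positivity
      have hN : Near γ Y q r := lt_of_lt_of_le h.2.1 hle
      simp only [clsI, bb, if_pos (hin q hq r hr), if_pos hN, mul_one]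
      rw [div_le_div_iff₀ (by linarith) hY0]
      linarith
    · exact Finset.sum_nonneg h0

/-- `midDel` of a translated class. -/
lemma midDel_shift (κ a b s : ℝ) :
    midDel κ ((2 : ℝ) ^ (a - s)) ((2 : ℝ) ^ (b - s)) =
      ((2 : ℝ) ^ a * (2 : ℝ) ^ b / (2 * max ((2 : ℝ) ^ a) ((2 : ℝ) ^ b)) ^ 2) ^ (1 / 10 : ℝ) *
        Real.exp (-κ * |Real.log (2 * max ((2 : ℝ) ^ a) ((2 : ℝ) ^ b) / (2 : ℝ) ^ s)|) := by
  have h2 : (0 : ℝ) < (2 : ℝ) ^ s := by positivity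
  have hmax : max ((2 : ℝ) ^ (a - s)) ((2 : ℝ) ^ (b - s))
      = max ((2 : ℝ) ^ a) ((2 : ℝ) ^ b) / (2 : ℝ) ^ s := by
    rw [Real.rpow_sub two_pos, Real.rpow_sub two_pos, max_div_div_right h2.le]
  unfold midDel
  rw [hmax, Real.rpow_sub two_pos, Real.rpow_sub two_pos]
  congr 1
  · congr 1
    field_simp
  · rw [mul_div_assoc]

/-- The sum of `midDel` over translated classes. -/
lemma midDel_sum (κ : ℝ) (hκ : 0 < κ) (hκ1 : κ ≤ 1 / 100) :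
    ∃ C : ℝ, 0 ≤ C ∧ ∀ (L : Finset (ℤ × ℤ)) (m : ℤ),
      ∑ l ∈ L, midDel κ ((2 : ℝ) ^ ((l.1 : ℝ) - (m : ℝ))) ((2 : ℝ) ^ ((l.2 : ℝ) - (m : ℝ))) ≤ C := by
  refine ⟨4 * ((2 * ∑' n : ℕ, Real.exp (-(κ / 4)) ^ n) *
    (2 * ∑' n : ℕ, Real.exp (-(κ / 4)) ^ n)), by positivity, fun L m => ?_⟩
  calc ∑ l ∈ L, midDel κ ((2 : ℝ) ^ ((l.1 : ℝ) - (m : ℝ))) ((2 : ℝ) ^ ((l.2 : ℝ) - (m : ℝ)))
      ≤ ∑ l ∈ L, 4 * (Real.exp (-(κ / 4) * |((l.1 - m : ℤ) : ℝ)|) *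
          Real.exp (-(κ / 4) * |((l.2 - m : ℤ) : ℝ)|)) := by
        refine Finset.sum_le_sum fun l _ => ?_
        rw [← Int.cast_sub, ← Int.cast_sub, ← mul_assoc]
        exact midDecay κ hκ.le hκ1 _ _
    _ = 4 * ∑ l ∈ L.image (fun l => (l.1 - m, l.2 - m)),
          Real.exp (-(κ / 4) * |(l.1 : ℝ)|) * Real.exp (-(κ / 4) * |(l.2 : ℝ)|) := by
        rw [Finset.mul_sum, Finset.sum_image]
        intro x _ y _ h
        simp only [Prod.mk.injEq, sub_left_inj] at h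
        exact Prod.ext h.1 h.2
    _ ≤ _ := mul_le_mul_of_nonneg_left (midClassSum κ hκ _) (by norm_num)

/-- `midRatio` with parameter `ε`. -/
lemma ratioX {ε : ℝ} (hε : Small ε) (y1 y2 Y : ℝ) (hy1 : 0 < y1) (hy2 : 0 < y2)
    (hY : Y = 2 * max y1 y2) :
    0 < Y ∧ 0 < y1 * y2 / Y ^ 2 ∧
      (y1 * y2) ^ (1 / 2 - ε) = (y1 * y2 / Y ^ 2) ^ (1 / 2 - ε) * Y ^ (2 * (1 / 2 - ε)) ∧
      (y1 * y2 / Y ^ 2) ^ (1 / 2 - ε) ≤ (y1 * y2 / Y ^ 2) ^ (1 / 10 : ℝ) := by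
  obtain ⟨hY0, hr, -, -, hr1⟩ := midRatio y1 y2 Y hy1 hy2 hY
  exact ⟨hY0, hr, midProd_le Y _ _ _ y1 y2 hY0 hy1 hy2 rfl rfl,
    Real.rpow_le_rpow_of_exponent_ge hr (by exact hr1) (by linarith [hε.1, hε.2])⟩

/-- (a) `Λ ≤ η < 1`. -/
lemma union_range (γ ε : ℝ) (hε : Small ε) :
    ∃ C : ℝ, 0 ≤ C ∧ ∀ (ψ : ℕ → ℝ) (S : Finset ℕ) (m : ℤ),
      (∀ q, 0 ≤ ψ q) → (∀ q ∈ S, 0 < q ∧ 0 < ψ q) →
      pairSum (mu ψ) (kerP γ ψ (fun q r => (2 : ℝ) ^ (m : ℝ) ≤ etaP ψ q r)) S S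
        ≤ C * ((2 : ℝ) ^ (m : ℝ)) ^ (-(2 * ε)) * (msum (mu ψ) S * msum (mu ψ) S) ^ (aX ε) := by
  obtain ⟨Cc, hCc, hcls⟩ := cls_boundX hε
  obtain ⟨Cg, hCg, hgeom⟩ := midDel_sum (2 * ε) (by linarith [hε.1]) (by linarith [hε.1, hε.2])
  refine ⟨4 * Cc * Cg, by positivity, fun ψ S m hψ hS => ?_⟩
  obtain ⟨L, hL, hle⟩ := groupCover γ ψ hψ S S hS hS (fun q r => (2 : ℝ) ^ (m : ℝ) ≤ etaP ψ q r)
  set Λ := (2 : ℝ) ^ (m : ℝ) with hΛ
  set Ω := (msum (mu ψ) S * msum (mu ψ) S) ^ (aX ε) with hΩ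
  have hΩ0 : 0 ≤ Ω := Real.rpow_nonneg (mul_self_nonneg _) _
  have hΛ0 : 0 < Λ := by positivity
  refine hle.trans ?_
  calc _ ≤ ∑ l ∈ L, 4 * Cc * Λ ^ (-(2 * ε)) * Ω *
        midDel (2 * ε) ((2 : ℝ) ^ ((l.1 : ℝ) - (m : ℝ))) ((2 : ℝ) ^ ((l.2 : ℝ) - (m : ℝ))) := by
        refine Finset.sum_le_sum fun l hl => ?_
        obtain ⟨q, hq, r, hr, hP, hηY, -⟩ := hL l hl
        rw [midDel_shift, ← hΛ]
        set y1 := (2 : ℝ) ^ (l.1 : ℝ) with hy1d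
        set y2 := (2 : ℝ) ^ (l.2 : ℝ) with hy2d
        set Y := 2 * max y1 y2 with hY
        have hy1 : 0 < y1 := by positivity
        have hy2 : 0 < y2 := by positivity
        obtain ⟨hY0, hr0, hPeq, hrb⟩ := ratioX hε y1 y2 Y hy1 hy2 hY
        have hp : pairSum (mu ψ) (fun q r => bb (Near γ Y q r) * clsI ψ y1 y2 q r) S S
            ≤ Cc * (y1 * y2) ^ (1 / 2 - ε) * Ω :=
          (pairSum_mono (mu_nonneg' hψ) fun q _ r _ =>
            mul_le_of_le_one_left (cls_mem ψ y1 y2 q r).1 (bb_le_one _)).trans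
            (hcls ψ S S S y1 y2 hψ hS (subset_refl S) (subset_refl S) hy1 hy2)
        have hlog : Y ^ (-(2 * ε)) = Λ ^ (-(2 * ε)) *
            Real.exp (-(2 * ε) * |Real.log (Y / Λ)|) := by
          rw [abs_of_nonneg (Real.log_nonneg ((one_le_div hΛ0).2 (hP.trans hηY))),
            mul_comm (-(2 * ε)) (Real.log (Y / Λ)),
            ← Real.rpow_def_of_pos (div_pos hY0 hΛ0), ← Real.mul_rpow hΛ0.le (by positivity),
            mul_div_cancel₀ _ hΛ0.ne']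
        calc 4 / Y * pairSum (mu ψ) (fun q r => bb (Near γ Y q r) * clsI ψ y1 y2 q r) S S
            ≤ 4 / Y * (Cc * (y1 * y2) ^ (1 / 2 - ε) * Ω) :=
              mul_le_mul_of_nonneg_left hp (by positivity)
          _ = 4 * Cc * ((y1 * y2) ^ (1 / 2 - ε) / Y) * Ω := by ring
          _ = 4 * Cc * ((y1 * y2 / Y ^ 2) ^ (1 / 2 - ε) * Y ^ (-(2 * ε))) * Ω := by
              rw [hPeq, mul_div_assoc, ← Real.rpow_sub_one hY0.ne']; ring_nf
          _ ≤ 4 * Cc * ((y1 * y2 / Y ^ 2) ^ (1 / 10 : ℝ) * Y ^ (-(2 * ε))) * Ω := by gcongr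
          _ = _ := by rw [hlog]; ring
    _ ≤ 4 * Cc * Λ ^ (-(2 * ε)) * Ω * Cg := by
        rw [← Finset.mul_sum]
        exact mul_le_mul_of_nonneg_left (hgeom L m) (by positivity)
    _ = _ := by ring

/-- The trivial bound for a class between two sets. -/
lemma cls_bipartite {ε : ℝ} (hε : Small ε) :
    ∃ C : ℝ, 0 ≤ C ∧ ∀ (ψ : ℕ → ℝ) (S V : Finset ℕ) (y1 y2 : ℝ),
      (∀ q, 0 ≤ ψ q) → (∀ q ∈ S, 0 < q ∧ 0 < ψ q) → V ⊆ S → 0 < y1 → 0 < y2 →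
      pairSum (mu ψ) (clsI ψ y1 y2) V S
        ≤ C * (y1 * y2) ^ (1 / 2 - ε) * (msum (mu ψ) V * msum (mu ψ) S) ^ (aX ε) := by
  obtain ⟨C, hC, hf⟩ := cls_finalX hε
  obtain ⟨p0, K, hb⟩ := bilinear_stateX hε
  refine ⟨max K 0 * C, by positivity, fun ψ S V y1 y2 hψ hS hV hy1 hy2 => ?_⟩
  obtain ⟨h1, h2, h3⟩ := state_univ (P := S.biUnion Nat.primeFactors) (fun q hq => (hS q hq).1)
    (fun q hq p hp => Finset.mem_biUnion.2 ⟨q, hq, hp⟩)
  refine (hb (mu ψ) _ _ S (mu_nonneg' hψ) (fun q r => (cls_mem ψ y1 y2 q r).1) (by positivity)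
    (fun q hq => (hS q hq).1) (hf ψ S y1 y2 p0 hψ hS hy1 hy2) (S.biUnion Nat.primeFactors) V S 1 1
    hV (subset_refl _) (fun p hp => by
      obtain ⟨q, _, hq⟩ := Finset.mem_biUnion.1 hp
      exact Nat.prime_of_mem_primeFactors hq)
    ⟨fun q hq q' hq' => h1 q (hV hq) q' (hV hq'), h2, fun q hq => h3 q (hV hq)⟩).trans ?_
  have hM : 0 ≤ (msum (mu ψ) V * msum (mu ψ) S) ^ (aX ε) := Real.rpow_nonneg
    (mul_nonneg (Finset.sum_nonneg fun q _ => mu_nonneg' hψ q)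
      (Finset.sum_nonneg fun q _ => mu_nonneg' hψ q)) _
  simp only [mul_one, Nat.cast_one, Real.one_rpow]
  rw [← mul_assoc K]
  gcongr
  exact le_max_left _ _

/-- An imbalanced class gains a power of `e^{-t}`. -/
lemma imbal_gain (μ ε t y y1 y2 : ℝ) (hε : Small ε) (hμ : 1 ≤ μ) (ht : 0 ≤ t) (hy1 : 0 < y1) (hy2 : 0 < y2)
    (hY : y = 2 * max y1 y2) (hlo : Real.exp (-rhoX μ ε * t) ≤ y)
    (hbal : y1 ≤ y * Real.exp (-nuM * t)) :
    (y1 * y2 / y ^ 2) ^ (1 / 2 - ε) * y ^ (-(2 * ε))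
      ≤ (y1 * y2 / y ^ 2) ^ (1 / 10 : ℝ) * y ^ (gX - 2 * ε) := by
  obtain ⟨hy, hr0, -, -, hr1⟩ := midRatio y1 y2 y hy1 hy2 hY
  set r := y1 * y2 / y ^ 2 with hrd
  have hr : r ≤ Real.exp (-nuM * t) := by
    rw [hrd, div_le_iff₀ (by positivity)]
    have := mul_le_mul hbal (show y2 ≤ y by linarith [le_max_right y1 y2]) hy2.le (by positivity)
    linarith
  have hρ : 0 ≤ rhoX μ ε ∧ rhoX μ ε * gX ≤ 3 / 10 * nuM := by
    have := hε.1
    have := hε.2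
    unfold rhoX gX nuM
    refine ⟨by positivity, ?_⟩
    rw [div_mul_eq_mul_div, div_le_iff₀ (by positivity)]
    linarith
  have h1 : r ^ (3 / 10 : ℝ) ≤ y ^ gX := by
    calc r ^ (3 / 10 : ℝ) ≤ Real.exp (-nuM * t) ^ (3 / 10 : ℝ) :=
          Real.rpow_le_rpow hr0.le hr (by norm_num)
      _ ≤ Real.exp (-rhoX μ ε * t) ^ gX := by
          rw [← Real.exp_mul, ← Real.exp_mul]
          refine Real.exp_le_exp.2 ?_
          linarith [mul_le_mul_of_nonneg_right hρ.2 ht]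
      _ ≤ y ^ gX := Real.rpow_le_rpow (Real.exp_pos _).le hlo (by unfold gX; norm_num)
  calc r ^ (1 / 2 - ε) * y ^ (-(2 * ε)) ≤ r ^ (1 / 10 + 3 / 10 : ℝ) * y ^ (-(2 * ε)) :=
        mul_le_mul_of_nonneg_right (Real.rpow_le_rpow_of_exponent_ge hr0 hr1
          (by linarith [hε.1, hε.2])) (by positivity)
    _ = r ^ (1 / 10 : ℝ) * r ^ (3 / 10 : ℝ) * y ^ (-(2 * ε)) := by rw [Real.rpow_add hr0]
    _ ≤ r ^ (1 / 10 : ℝ) * y ^ gX * y ^ (-(2 * ε)) := by gcongr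
    _ = _ := by rw [mul_assoc, ← Real.rpow_add hy]; ring_nf

/-- (b) `e^{-ρ t} ≤ η < Λ`, where `t` is the scale of `q`. -/
lemma cell_range (γ μ c ε : ℝ) (h : Dioph γ μ c) (hε : Small ε) :
    ∃ C L0 : ℝ, 0 ≤ C ∧ 0 < L0 ∧ L0 ≤ 1 ∧
      ∀ (ψ : ℕ → ℝ) (S V : Finset ℕ) (t : ℝ) (m : ℤ),
      (∀ q, 0 ≤ ψ q) → (∀ q ∈ S, 0 < q ∧ 0 < ψ q) → V ⊆ S →
      (∀ q ∈ V, Real.exp (-(1 + zeta0) * t) ≤ ψ q ∧ ψ q ≤ Real.exp (-t)) → 0 ≤ t →
      (2 : ℝ) ^ (m : ℝ) ≤ L0 →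
      pairSum (mu ψ) (kerP γ ψ (fun q r => etaP ψ q r < (2 : ℝ) ^ (m : ℝ) ∧
          Real.exp (-rhoX μ ε * t) ≤ etaP ψ q r)) V S
        ≤ C * ((2 : ℝ) ^ (m : ℝ)) ^ (gX - 2 * ε) * (msum (mu ψ) V * msum (mu ψ) S) ^ (aX ε) := by
  obtain ⟨Cd, T0, t0, hCd, hT0, hdens⟩ := density_gain γ μ c ε h hε
  obtain ⟨Cb, hCb, hbip⟩ := cls_bipartite hε
  have hκ : 0 < gX - 2 * ε := by unfold gX; linarith [hε.1, hε.2]
  have hκ1 : gX - 2 * ε ≤ 1 / 100 := by unfold gX; linarith [hε.1, hε.2]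
  obtain ⟨Cg, hCg, hgeom⟩ := midDel_sum _ hκ hκ1
  have hρ : 0 < rhoX μ ε := by
    have := h.1
    have := hε.1
    unfold rhoX
    positivity
  refine ⟨4 * (Cd + Cb) * Cg * 4 ^ (gX - 2 * ε),
    min (1 / (4 * T0)) (Real.exp (-rhoX μ ε * t0)), by positivity,
    lt_min (by positivity) (Real.exp_pos _),
    (min_le_left _ _).trans (by rw [div_le_one (by positivity)]; linarith), ?_⟩
  intro ψ S V t m hψ hS hVS hV ht hΛL
  set P := fun q r => etaP ψ q r < (2 : ℝ) ^ (m : ℝ) ∧ Real.exp (-rhoX μ ε * t) ≤ etaP ψ q r with hP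
  obtain ⟨L, hL, hle⟩ := groupCover γ ψ hψ V S (fun q hq => hS q (hVS hq)) hS P
  set Λ := (2 : ℝ) ^ (m : ℝ) with hΛ
  set Ω := (msum (mu ψ) V * msum (mu ψ) S) ^ (aX ε) with hΩ
  have hΩ0 : 0 ≤ Ω := Real.rpow_nonneg (mul_nonneg
    (Finset.sum_nonneg fun q _ => mu_nonneg' hψ q)
    (Finset.sum_nonneg fun q _ => mu_nonneg' hψ q)) _
  have hΛ0 : 0 < Λ := by positivity
  have hm2 : (2 : ℝ) ^ ((m + 2 : ℤ) : ℝ) = 4 * Λ := by
    rw [Int.cast_add, Real.rpow_add two_pos, hΛ]; norm_num; ring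
  refine hle.trans ?_
  calc _ ≤ ∑ l ∈ L, 4 * (Cd + Cb) * (4 * Λ) ^ (gX - 2 * ε) * Ω *
        midDel (gX - 2 * ε) ((2 : ℝ) ^ ((l.1 : ℝ) - ((m + 2 : ℤ) : ℝ)))
          ((2 : ℝ) ^ ((l.2 : ℝ) - ((m + 2 : ℤ) : ℝ))) := by
        refine Finset.sum_le_sum fun l hl => ?_
        obtain ⟨q, hq, r, hr, ⟨hηΛ, hηlo⟩, hηY, hY4⟩ := hL l hl
        rw [midDel_shift, hm2]
        set y1 := (2 : ℝ) ^ (l.1 : ℝ) with hy1d
        set y2 := (2 : ℝ) ^ (l.2 : ℝ) with hy2d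
        set Y := 2 * max y1 y2 with hY
        have hy1 : 0 < y1 := by positivity
        have hy2 : 0 < y2 := by positivity
        obtain ⟨hY0, hr0, hPeq, hrb⟩ := ratioX hε y1 y2 Y hy1 hy2 hY
        have hY4Λ : Y ≤ 4 * Λ := by linarith
        have hT : Y * T0 ≤ 1 := by
          have h1 := hΛL.trans (min_le_left _ _)
          rw [le_div_iff₀ (by positivity)] at h1
          have := mul_le_mul_of_nonneg_right hY4Λ (show 0 ≤ T0 by linarith)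
          linarith
        have htt : t0 ≤ t := by
          have h1 : Real.exp (-rhoX μ ε * t) < Real.exp (-rhoX μ ε * t0) :=
            (hηlo.trans_lt hηΛ).trans_le (hΛL.trans (min_le_right _ _))
          rw [Real.exp_lt_exp] at h1
          refine le_of_mul_le_mul_left ?_ hρ
          linarith
        set b := (y1 * y2 / Y ^ 2) ^ (1 / 10 : ℝ) with hb
        have hpair : 4 / Y *
            pairSum (mu ψ) (fun q r => bb (Near γ Y q r) * clsI ψ y1 y2 q r) V S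
            ≤ 4 * (Cd + Cb) * (b * Y ^ (gX - 2 * ε)) * Ω := by
          rcases le_or_gt (Y * Real.exp (-nuM * t)) y1 with hbal | hbal
          · calc _ ≤ 4 / Y * (Cd * Y ^ gX * (y1 * y2) ^ (1 / 2 - ε) * Ω) :=
                mul_le_mul_of_nonneg_left (hdens ψ S V t Y y1 y2 htt hψ hS hVS hV
                  (hηlo.trans hηY) hT hy2 hbal (by linarith [le_max_left y1 y2])) (by positivity)
              _ = 4 * Cd * ((y1 * y2 / Y ^ 2) ^ (1 / 2 - ε) *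
                  (Y ^ gX * Y ^ (2 * (1 / 2 - ε) - 1))) * Ω := by
                  rw [hPeq, Real.rpow_sub_one hY0.ne']; ring
              _ = 4 * Cd * ((y1 * y2 / Y ^ 2) ^ (1 / 2 - ε) * Y ^ (gX - 2 * ε)) * Ω := by
                  rw [← Real.rpow_add hY0]; ring_nf
              _ ≤ _ := by
                  gcongr
                  linarith
          · calc _ ≤ 4 / Y * (Cb * (y1 * y2) ^ (1 / 2 - ε) * Ω) :=
                mul_le_mul_of_nonneg_left ((pairSum_mono (mu_nonneg' hψ) fun q _ r _ =>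
                  mul_le_of_le_one_left (cls_mem ψ y1 y2 q r).1 (bb_le_one _)).trans
                  (hbip ψ S V y1 y2 hψ hS hVS hy1 hy2)) (by positivity)
              _ = 4 * Cb * ((y1 * y2 / Y ^ 2) ^ (1 / 2 - ε) * Y ^ (2 * (1 / 2 - ε) - 1)) * Ω := by
                  rw [hPeq, Real.rpow_sub_one hY0.ne']; ring
              _ = 4 * Cb * ((y1 * y2 / Y ^ 2) ^ (1 / 2 - ε) * Y ^ (-(2 * ε))) * Ω := by ring_nf
              _ ≤ _ := by
                  refine mul_le_mul_of_nonneg_right (mul_le_mul (by linarith)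
                    (imbal_gain μ ε t Y y1 y2 hε h.1 ht hy1 hy2 hY (hηlo.trans hηY) hbal.le)
                    (by positivity) (by positivity)) hΩ0
        have hlog : Y ^ (gX - 2 * ε) = (4 * Λ) ^ (gX - 2 * ε) *
            Real.exp (-(gX - 2 * ε) * |Real.log (Y / (4 * Λ))|) := by
          rw [abs_of_nonpos (Real.log_nonpos (by positivity) ((div_le_one (by positivity)).2 hY4Λ)),
            neg_mul_neg, mul_comm (gX - 2 * ε) (Real.log (Y / (4 * Λ))),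
            ← Real.rpow_def_of_pos (div_pos hY0 (by positivity)),
            ← Real.mul_rpow (by positivity) (by positivity), mul_div_cancel₀ _ (by positivity)]
        refine hpair.trans (le_of_eq ?_)
        rw [hlog]; ring
    _ ≤ 4 * (Cd + Cb) * (4 * Λ) ^ (gX - 2 * ε) * Ω * Cg := by
        rw [← Finset.mul_sum]
        exact mul_le_mul_of_nonneg_left (hgeom L _) (by positivity)
    _ = _ := by rw [Real.mul_rpow (by norm_num) hΛ0.le]; ring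

/-- The bound of `cell_range` summed over the cells. -/
lemma cell_range_sum (γ μ c ε : ℝ) (h : Dioph γ μ c) (hε : Small ε) :
    ∃ C L0 : ℝ, 0 ≤ C ∧ 0 < L0 ∧ L0 ≤ 1 ∧
      ∀ (ψ : ℕ → ℝ) (S : Finset ℕ) (cl : ℕ → ℕ) (J : ℕ) (m : ℤ),
      (∀ q, 0 ≤ ψ q) → (∀ q ∈ S, 0 < q ∧ 0 < ψ q) →
      (∀ q ∈ S, (1 + zeta0) ^ cl q ≤ -Real.log (ψ q) ∧
        -Real.log (ψ q) ≤ (1 + zeta0) * (1 + zeta0) ^ cl q) →
      (S.image cl).card ≤ J → 0 < J →
      (2 : ℝ) ^ (m : ℝ) ≤ L0 → (2 : ℝ) ^ (m : ℝ) ≤ (J : ℝ) ^ (-424 : ℝ) →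
      pairSum (mu ψ) (kerP γ ψ (fun q r => etaP ψ q r < (2 : ℝ) ^ (m : ℝ) ∧
          Real.exp (-rhoX μ ε * (1 + zeta0) ^ cl q) ≤ etaP ψ q r)) S S
        ≤ C * (msum (mu ψ) S * msum (mu ψ) S) ^ (aX ε) := by
  obtain ⟨C, L0, hC, hL0, hL1, hcell⟩ := cell_range γ μ c ε h hε
  refine ⟨C, L0, hC, hL0, hL1, fun ψ S cl J m hψ hS hcl hJ hJ0 hΛ hΛJ => ?_⟩
  set Λ := (2 : ℝ) ^ (m : ℝ) with hΛd
  set P := fun q r => etaP ψ q r < Λ ∧ Real.exp (-rhoX μ ε * (1 + zeta0) ^ cl q) ≤ etaP ψ q r with hP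
  set M := msum (mu ψ) S with hM
  set V := fun j => S.filter (fun q => cl q = j) with hVd
  have hμ : ∀ q, 0 ≤ mu ψ q := mu_nonneg' hψ
  have hM0 : 0 ≤ M := Finset.sum_nonneg fun q _ => hμ q
  have hV0 : ∀ j, 0 ≤ msum (mu ψ) (V j) := fun j => Finset.sum_nonneg fun q _ => hμ q
  have hsplit : pairSum (mu ψ) (kerP γ ψ P) S S
      = ∑ j ∈ S.image cl, pairSum (mu ψ) (kerP γ ψ P) (V j) S := by
    unfold pairSum
    rw [← Finset.sum_fiberwise_of_maps_to (g := cl) (t := S.image cl)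
      (fun q hq => Finset.mem_image_of_mem _ hq)]
  have hsum : ∑ j ∈ S.image cl, msum (mu ψ) (V j) = M :=
    Finset.sum_fiberwise_of_maps_to (fun q hq => Finset.mem_image_of_mem _ hq) _
  have hcellj : ∀ j ∈ S.image cl, pairSum (mu ψ) (kerP γ ψ P) (V j) S
      ≤ C * Λ ^ (gX - 2 * ε) * (msum (mu ψ) (V j) * M) ^ (aX ε) := by
    intro j _
    have hz : (0 : ℝ) ≤ (1 + zeta0) ^ j := by unfold zeta0; positivity
    refine le_trans (le_of_eq ?_) (hcell ψ S (V j) ((1 + zeta0) ^ j) m hψ hS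
      (Finset.filter_subset _ _) (fun q hq => ?_) hz hΛ)
    · refine Finset.sum_congr rfl fun q hq => Finset.sum_congr rfl fun r _ => ?_
      obtain ⟨-, rfl⟩ := Finset.mem_filter.1 hq
      rfl
    · obtain ⟨hqS, rfl⟩ := Finset.mem_filter.1 hq
      obtain ⟨h1, h2⟩ := hcl q hqS
      constructor
      · rw [← Real.exp_log (hS q hqS).2]; exact Real.exp_le_exp.2 (by linarith)
      · rw [← Real.exp_log (hS q hqS).2]; exact Real.exp_le_exp.2 (by linarith)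
  have hJR : (0 : ℝ) < J := by exact_mod_cast hJ0
  have hmean : ∑ j ∈ S.image cl, msum (mu ψ) (V j) ^ (aX ε) ≤ (J : ℝ) ^ (1 - (aX ε)) * M ^ (aX ε) := by
    rcases (S.image cl).eq_empty_or_nonempty with he | hne
    · rw [he, Finset.sum_empty]
      positivity
    have hn : (0 : ℝ) < (S.image cl).card := by exact_mod_cast hne.card_pos
    have ha0 := (aX_pos hε)
    have ha1 : (aX ε) ≤ 1 := by unfold aX; linarith [hε.1, hε.2]
    have key := Real.rpow_arith_mean_le_arith_mean_rpow (S.image cl)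
      (fun _ => 1 / ((S.image cl).card : ℝ)) (fun j => msum (mu ψ) (V j) ^ (aX ε))
      (fun _ _ => by positivity) (by rw [Finset.sum_const, nsmul_eq_mul]; field_simp)
      (fun j _ => Real.rpow_nonneg (hV0 j) _) (p := 1 / (aX ε)) ((one_le_div ha0).2 ha1)
    rw [← Finset.mul_sum, ← Finset.mul_sum] at key
    have e : ∑ j ∈ S.image cl, (msum (mu ψ) (V j) ^ (aX ε)) ^ (1 / (aX ε)) = M := by
      rw [← hsum]
      refine Finset.sum_congr rfl fun j _ => ?_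
      rw [← Real.rpow_mul (hV0 j), mul_one_div, div_self ha0.ne', Real.rpow_one]
    rw [e] at key
    have h1 := Real.rpow_le_rpow (Real.rpow_nonneg (mul_nonneg (by positivity)
      (Finset.sum_nonneg fun j _ => Real.rpow_nonneg (hV0 j) _)) _) key ha0.le
    rw [← Real.rpow_mul (mul_nonneg (by positivity)
      (Finset.sum_nonneg fun j _ => Real.rpow_nonneg (hV0 j) _)), one_div_mul_cancel ha0.ne',
      Real.rpow_one, Real.mul_rpow (by positivity) hM0, one_div_mul_eq_div,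
      div_le_iff₀ hn, Real.div_rpow zero_le_one hn.le, Real.one_rpow] at h1
    refine h1.trans ?_
    calc 1 / ((S.image cl).card : ℝ) ^ (aX ε) * M ^ (aX ε) * ((S.image cl).card : ℝ)
        = ((S.image cl).card : ℝ) ^ (1 - (aX ε)) * M ^ (aX ε) := by
          rw [Real.rpow_sub hn, Real.rpow_one]; ring
      _ ≤ _ := by
          gcongr
  have hgain : Λ ^ (gX - 2 * ε) * (J : ℝ) ^ (1 - (aX ε)) ≤ 1 := by
    calc Λ ^ (gX - 2 * ε) * (J : ℝ) ^ (1 - (aX ε))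
        ≤ ((J : ℝ) ^ (-424 : ℝ)) ^ (gX - 2 * ε) * (J : ℝ) ^ (1 - (aX ε)) :=
          mul_le_mul_of_nonneg_right (Real.rpow_le_rpow (by positivity) hΛJ
            (by unfold gX; linarith [hε.1, hε.2])) (by positivity)
      _ = (J : ℝ) ^ (-424 * (gX - 2 * ε) + (1 - (aX ε))) := by
          rw [← Real.rpow_mul hJR.le, ← Real.rpow_add hJR]
      _ ≤ 1 := Real.rpow_le_one_of_one_le_of_nonpos (by exact_mod_cast hJ0)
          (by unfold gX aX; linarith [hε.1, hε.2])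
  rw [hsplit]
  calc _ ≤ ∑ j ∈ S.image cl, C * Λ ^ (gX - 2 * ε) * (msum (mu ψ) (V j) * M) ^ (aX ε) :=
        Finset.sum_le_sum hcellj
    _ = C * Λ ^ (gX - 2 * ε) * (M ^ (aX ε) * ∑ j ∈ S.image cl, msum (mu ψ) (V j) ^ (aX ε)) := by
        rw [Finset.mul_sum, Finset.mul_sum]
        refine Finset.sum_congr rfl fun j _ => ?_
        rw [Real.mul_rpow (hV0 j) hM0]; ring
    _ ≤ C * Λ ^ (gX - 2 * ε) * (M ^ (aX ε) * ((J : ℝ) ^ (1 - (aX ε)) * M ^ (aX ε))) := by gcongr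
    _ = C * (Λ ^ (gX - 2 * ε) * (J : ℝ) ^ (1 - (aX ε))) * (M * M) ^ (aX ε) := by
        rw [Real.mul_rpow hM0 hM0]; ring
    _ ≤ C * 1 * (M * M) ^ (aX ε) := by gcongr
    _ = _ := by ring

/-- The pointwise bound for one pair. -/
lemma pair_bound (γ μ ε Λ : ℝ) (hμ : 1 ≤ μ) (hε : Small ε) (ψ : ℕ → ℝ) (hψ : ∀ q, 0 ≤ ψ q)
    (S : Finset ℕ) (cl : ℕ → ℕ) (hS : ∀ q ∈ S, 0 < q ∧ 0 < ψ q)
    (hcl : ∀ q ∈ S, -Real.log (ψ q) ≤ (1 + zeta0) * (1 + zeta0) ^ cl q)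
    (q : ℕ) (hq : q ∈ S) (r : ℕ) (hr : r ∈ S) :
    kerP γ ψ (fun _ _ => True) q r ≤ 1 + kerP γ ψ (fun q r => Λ ≤ etaP ψ q r) q r
      + kerP γ ψ (fun q r => etaP ψ q r < Λ ∧
          Real.exp (-rhoX μ ε * (1 + zeta0) ^ cl q) ≤ etaP ψ q r) q r
      + kerP γ ψ (fun q r => etaP ψ q r < Λ ∧
          Real.exp (-rhoX μ ε * (1 + zeta0) ^ cl q) ≤ etaP ψ q r) r q
      + kerTop γ ψ (rhoX μ ε / (1 + zeta0)) q r := by
  have a1 := kerP_nonneg γ ψ hψ (fun q r => Λ ≤ etaP ψ q r) q r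
  set PB := fun q r => etaP ψ q r < Λ ∧
    Real.exp (-rhoX μ ε * (1 + zeta0) ^ cl q) ≤ etaP ψ q r with hPB
  have a2 := kerP_nonneg γ ψ hψ PB q r
  have a3 := kerP_nonneg γ ψ hψ PB r q
  have a4 := kerTop_nonneg γ ψ hψ (rhoX μ ε / (1 + zeta0)) q r
  by_cases hN : q ≠ r ∧ Near γ (etaP ψ q r) q r
  swap
  · have h0 : kerP γ ψ (fun _ _ => True) q r = 0 := if_neg fun h => hN ⟨h.1, h.2.1⟩
    linarith
  obtain ⟨hne, hnear⟩ := hN
  have h0 : kerP γ ψ (fun _ _ => True) q r = 1 / etaP ψ q r := if_pos ⟨hne, hnear, trivial⟩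
  rw [h0]
  by_cases c1 : Λ ≤ etaP ψ q r
  · have h1 : kerP γ ψ (fun q r => Λ ≤ etaP ψ q r) q r = 1 / etaP ψ q r :=
      if_pos ⟨hne, hnear, c1⟩
    linarith
  rw [not_le] at c1
  by_cases c2 : Real.exp (-rhoX μ ε * (1 + zeta0) ^ cl q) ≤ etaP ψ q r
  · have h1 : kerP γ ψ PB q r = 1 / etaP ψ q r := if_pos ⟨hne, hnear, c1, c2⟩
    linarith
  by_cases c3 : Real.exp (-rhoX μ ε * (1 + zeta0) ^ cl r) ≤ etaP ψ q r
  · have h1 : kerP γ ψ PB r q = 1 / etaP ψ r q := if_pos ⟨hne.symm, by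
      rw [etaP_swap ψ q r]; exact (near_swap γ _ q r).2 hnear, by
      rw [etaP_swap ψ q r]; exact c1, by
      rw [etaP_swap ψ q r]; exact c3⟩
    rw [etaP_swap ψ q r] at h1
    linarith
  rw [not_le] at c2 c3
  have key : ∀ p ∈ S, etaP ψ q r < Real.exp (-rhoX μ ε * (1 + zeta0) ^ cl p) →
      etaP ψ q r ≤ ψ p ^ (rhoX μ ε / (1 + zeta0)) := by
    intro p hp hlt
    have hz : (0 : ℝ) < 1 + zeta0 := by unfold zeta0; norm_num
    have hρ : 0 ≤ rhoX μ ε := by (have := hε.1; unfold rhoX; positivity)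
    refine hlt.le.trans ?_
    rw [Real.rpow_def_of_pos (hS p hp).2]
    refine Real.exp_le_exp.2 ?_
    rw [← mul_div_assoc, le_div_iff₀ hz]
    linarith [mul_le_mul_of_nonneg_left (hcl p hp) hρ]
  have h1 : kerTop γ ψ (rhoX μ ε / (1 + zeta0)) q r = 1 / etaP ψ q r := by
    refine if_pos ⟨hne, hnear, ?_⟩
    rcases min_choice (ψ q) (ψ r) with e | e <;> rw [e]
    · exact key q hq c2
    · exact key r hr c3
  linarith

/-- A power of two below `J^-424` and below `L0`. -/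
lemma exists_cut {ε : ℝ} (hε : Small ε) (J : ℕ) (hJ : 0 < J) (L0 : ℝ) (hL0 : 0 < L0) (hL1 : L0 ≤ 1) :
    ∃ m : ℤ, (2 : ℝ) ^ (m : ℝ) ≤ L0 ∧ (2 : ℝ) ^ (m : ℝ) ≤ (J : ℝ) ^ (-424 : ℝ) ∧
      ((2 : ℝ) ^ (m : ℝ)) ^ (-(2 * ε)) ≤ 2 / L0 * (J : ℝ) ^ (848 * ε) := by
  have hJR : (0 : ℝ) < J := by exact_mod_cast hJ
  set X := min ((J : ℝ) ^ (-424 : ℝ)) L0 with hX
  have hX0 : 0 < X := lt_min (by positivity) hL0
  refine ⟨⌊Real.logb 2 X⌋, ?_⟩
  have h1 : (2 : ℝ) ^ ((⌊Real.logb 2 X⌋ : ℤ) : ℝ) ≤ X :=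
    (Real.le_logb_iff_rpow_le one_lt_two hX0).1 (Int.floor_le _)
  refine ⟨h1.trans (min_le_right _ _), h1.trans (min_le_left _ _), ?_⟩
  have he := hε.1
  have hY : (J : ℝ) ^ (-424 : ℝ) * L0 / 2 ≤ (2 : ℝ) ^ ((⌊Real.logb 2 X⌋ : ℤ) : ℝ) := by
    have h2 : X < (2 : ℝ) ^ (((⌊Real.logb 2 X⌋ : ℤ) : ℝ) + 1) :=
      (Real.logb_lt_iff_lt_rpow one_lt_two hX0).1 (Int.lt_floor_add_one _)
    rw [Real.rpow_add two_pos, Real.rpow_one] at h2
    have h3 : (J : ℝ) ^ (-424 : ℝ) * L0 ≤ X := le_min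
      (mul_le_of_le_one_right (by positivity) hL1)
      (mul_le_of_le_one_left hL0.le
        (Real.rpow_le_one_of_one_le_of_nonpos (by exact_mod_cast hJ) (by norm_num)))
    linarith
  refine (Real.rpow_le_rpow_of_nonpos (by positivity) hY (by linarith)).trans ?_
  rw [mul_div_assoc, Real.mul_rpow (by positivity) (by positivity), ← Real.rpow_mul hJR.le,
    mul_comm, show (-424 : ℝ) * -(2 * ε) = 848 * ε by ring]
  refine mul_le_mul_of_nonneg_right ?_ (by positivity)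
  rw [Real.rpow_neg (by positivity), ← Real.inv_rpow (by positivity), inv_div]
  exact Real.rpow_le_self_of_one_le ((one_le_div hL0).2 (by linarith))
    (by linarith [hε.1, hε.2])

/-- Second moment on a set meeting `J` cells. -/
theorem group_bound (γ μ c ε : ℝ) (h : Dioph γ μ c) (hε : Small ε) :
    ∃ C : ℝ, 0 ≤ C ∧ ∀ (ψ : ℕ → ℝ) (S : Finset ℕ) (cl : ℕ → ℕ) (J : ℕ),
      (∀ q, 0 ≤ ψ q) →
      (∀ q ∈ S, 0 < q ∧ 0 < ψ q ∧ ψ q ≤ Real.exp (-1)) →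
      (∀ q ∈ S, (1 + zeta0) ^ cl q ≤ -Real.log (ψ q) ∧
        -Real.log (ψ q) ≤ (1 + zeta0) * (1 + zeta0) ^ cl q) →
      (S.image cl).card ≤ J →
      ∫ x in Set.Ico (0 : ℝ) 1, (∑ q ∈ S, fq γ ψ 1 0 q x) ^ 2
        ≤ C * (msum (mu ψ) S + msum (mu ψ) S ^ 2
          + (J : ℝ) ^ (848 * ε) * (msum (mu ψ) S * msum (mu ψ) S) ^ (aX ε)) := by
  obtain ⟨Cu, hCu, hunion⟩ := union_range γ ε hε
  obtain ⟨Cc, L0, hCc, hL0, hL1, hcell⟩ := cell_range_sum γ μ c ε h hε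
  have hμ1 := h.1
  have hρ : 0 < rhoX μ ε / (1 + zeta0) := by have := hε.1; unfold rhoX zeta0; positivity
  obtain ⟨Ct, hCt, htop⟩ := top_pairs γ μ c _ h hρ
  refine ⟨2 + 12 + 4 * Ct + 8 * Cc + 4 * Cu * (2 / L0), by positivity, ?_⟩
  intro ψ S cl J hψ hS hcl hJ
  rcases Nat.eq_zero_or_pos J with hJ0 | hJ0
  · have : S = ∅ := by
      rcases S.eq_empty_or_nonempty with he | hne
      · exact he
      · have := (hne.image cl).card_pos
        omega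
    subst this
    simp [msum, hJ0, Real.zero_rpow (show 848 * ε ≠ 0 by linarith [hε.1]), Finset.sum_empty]
  obtain ⟨m, hm1, hm2, hm3⟩ := exists_cut hε J hJ0 L0 hL0 hL1
  set Λ := (2 : ℝ) ^ (m : ℝ) with hΛ
  set M := msum (mu ψ) S with hM
  have hμ : ∀ q, 0 ≤ mu ψ q := mu_nonneg' hψ
  have hM0 : 0 ≤ M := Finset.sum_nonneg fun q _ => hμ q
  have hhalf : ∀ q ∈ S, 0 < q ∧ 0 < ψ q ∧ ψ q ≤ 1 / 2 := fun q hq => by
    refine ⟨(hS q hq).1, (hS q hq).2.1, (hS q hq).2.2.trans ?_⟩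
    rw [Real.exp_neg, one_div]
    exact inv_anti₀ two_pos (by linarith [Real.add_one_le_exp (1 : ℝ)])
  have hpos : ∀ q ∈ S, 0 < q ∧ 0 < ψ q := fun q hq => ⟨(hS q hq).1, (hS q hq).2.1⟩
  set KU := kerP γ ψ (fun q r => Λ ≤ etaP ψ q r) with hKU
  set KB := kerP γ ψ (fun q r => etaP ψ q r < Λ ∧
    Real.exp (-rhoX μ ε * (1 + zeta0) ^ cl q) ≤ etaP ψ q r) with hKB
  set KT := kerTop γ ψ (rhoX μ ε / (1 + zeta0)) with hKT
  set I := fun q r => ∫ x in Set.Ico (0 : ℝ) 1, fq γ ψ 1 0 q x * fq γ ψ 1 0 r x with hI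
  have hpair : ∀ q ∈ S, ∀ r ∈ S, I q r ≤ (if q = r then 2 * mu ψ q else 0) +
      4 * (mu ψ q * mu ψ r * (3 + KU q r + KB q r + KB r q + KT q r)) := by
    intro q hq r hr
    have hμμ : 0 ≤ mu ψ q * mu ψ r := mul_nonneg (hμ q) (hμ r)
    by_cases hqr : q = r
    · subst hqr
      rw [if_pos rfl]
      refine le_add_of_le_of_nonneg ?_ (mul_nonneg (by norm_num) (mul_nonneg hμμ ?_))
      · rw [← integral_fq γ ψ 1 0 q isCoprime_one_left (hhalf q hq).1 (hψ q) (hhalf q hq).2.2]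
        refine integral_mono_of_nonneg (Filter.Eventually.of_forall fun x =>
          mul_nonneg (fq_nonneg _ _ _ _ _ _) (fq_nonneg _ _ _ _ _ _)) ?_
          (Filter.Eventually.of_forall fun x => mul_le_of_le_one_left (fq_nonneg _ _ _ _ _ _)
            (fq_le_one _ _ _ _ _ _))
        refine Integrable.mono' (g := fun _ => (1 : ℝ)) (integrableOn_const (by simp))
          (fq_measurable γ ψ 1 0 q).aestronglyMeasurable (Filter.Eventually.of_forall fun x => ?_)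
        rw [Real.norm_eq_abs, abs_of_nonneg (fq_nonneg _ _ _ _ _ _)]
        exact fq_le_one _ _ _ _ _ _
      · rw [hKU, hKB, hKT]
        linarith [kerP_nonneg γ ψ hψ (fun q r => Λ ≤ etaP ψ q r) q q,
          kerP_nonneg γ ψ hψ (fun q r => etaP ψ q r < Λ ∧
            Real.exp (-rhoX μ ε * (1 + zeta0) ^ cl q) ≤ etaP ψ q r) q q,
          kerTop_nonneg γ ψ hψ (rhoX μ ε / (1 + zeta0)) q q]
    · rw [if_neg hqr, zero_add]
      have h1 := overlapX γ ψ hψ q r (hhalf q hq).1 (hhalf r hr).1 hqr (hhalf q hq).2.1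
        (hhalf q hq).2.2 (hhalf r hr).2.1 (hhalf r hr).2.2
      refine h1.trans ?_
      rw [mul_assoc (4 : ℝ)]
      refine mul_le_mul_of_nonneg_left (mul_le_mul_of_nonneg_left ?_ hμμ) (by norm_num)
      linarith [pair_bound γ μ ε Λ hμ1 hε ψ hψ S cl hpos (fun q hq => (hcl q hq).2)
        q hq r hr]
  have hexp : ∫ x in Set.Ico (0 : ℝ) 1, (∑ q ∈ S, fq γ ψ 1 0 q x) ^ 2
      = ∑ q ∈ S, ∑ r ∈ S, I q r := by
    simp_rw [sq, Finset.sum_mul_sum]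
    rw [integral_finsetSum _ fun q _ => integrable_finsetSum _ fun r _ =>
      integrableOn_fq_mul γ ψ 1 0 q r]
    exact Finset.sum_congr rfl fun q _ =>
      integral_finsetSum _ fun r _ => integrableOn_fq_mul γ ψ 1 0 q r
  have htot : pairSum (mu ψ) (fun _ _ => (1 : ℝ)) S S = M * M := by
    simp only [pairSum, mul_one, hM, msum, Finset.sum_mul_sum]
  set Ω := (M * M) ^ (aX ε) with hΩ
  have hΩ0 : 0 ≤ Ω := Real.rpow_nonneg (mul_self_nonneg _) _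
  have bU : pairSum (mu ψ) KU S S ≤ Cu * (2 / L0) * ((J : ℝ) ^ (848 * ε) * Ω) := by
    refine (hunion ψ S m hψ hpos).trans ?_
    rw [← mul_assoc]
    refine mul_le_mul_of_nonneg_right ?_ hΩ0
    rw [mul_assoc]
    exact mul_le_mul_of_nonneg_left hm3 hCu
  have bB : pairSum (mu ψ) KB S S ≤ Cc * Ω := hcell ψ S cl J m hψ hpos hcl hJ hJ0 hm1 hm2
  have bT : pairSum (mu ψ) KT S S ≤ Ct * (M + M ^ 2) := htop ψ S hψ hhalf
  have hdiag : ∑ q ∈ S, ∑ r ∈ S, (if q = r then 2 * mu ψ q else 0) = 2 * M := by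
    rw [hM, msum, Finset.mul_sum]
    exact Finset.sum_congr rfl fun q hq => by rw [Finset.sum_ite_eq, if_pos hq]
  rw [hexp]
  calc ∑ q ∈ S, ∑ r ∈ S, I q r
      ≤ ∑ q ∈ S, ∑ r ∈ S, ((if q = r then 2 * mu ψ q else 0) +
          4 * (mu ψ q * mu ψ r * (3 + KU q r + KB q r + KB r q + KT q r))) :=
        Finset.sum_le_sum fun q hq => Finset.sum_le_sum fun r hr => hpair q hq r hr
    _ = 2 * M + 4 * (3 * (M * M) + pairSum (mu ψ) KU S S + pairSum (mu ψ) KB S S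
          + pairSum (mu ψ) KB S S + pairSum (mu ψ) KT S S) := by
        have e : pairSum (mu ψ) (fun q r => 3 * 1 + KU q r + KB q r + KB r q + KT q r) S S
            = 3 * (M * M) + pairSum (mu ψ) KU S S + pairSum (mu ψ) KB S S
              + pairSum (mu ψ) KB S S + pairSum (mu ψ) KT S S := by
          rw [pairSum_add, pairSum_add, pairSum_add, pairSum_add, midPairSum_smul, htot,
            pairSum_swap (mu ψ) KB S]
        rw [← e, ← hdiag]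
        simp only [pairSum, Finset.sum_add_distrib, Finset.mul_sum, mul_one]
    _ ≤ _ := by
        have hΩle : Ω ≤ M + M ^ 2 := omegaX hε M hM0
        have h8 : (0 : ℝ) ≤ (J : ℝ) ^ (848 * ε) * Ω := by positivity
        have h9 : Cc * Ω ≤ Cc * (M + M ^ 2) := mul_le_mul_of_nonneg_left hΩle hCc
        have h10 : 0 ≤ (12 + 4 * Ct + 8 * Cc) * ((J : ℝ) ^ (848 * ε) * Ω) := by positivity
        have h11 : 0 ≤ Cu * (2 / L0) * (M + M ^ 2) := by positivity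
        have hM2 : M * M = M ^ 2 := (sq M).symm
        have h12 : 0 ≤ M ^ 2 := sq_nonneg M
        linarith

end Vale.Agent.P028X
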