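import Vale.Agent.P028X.Group
import Vale.Agent.P028.Main

/-! P028X module MAIN: the extra-divergence criterion (see BLUEPRINT.md). -/

namespace Vale.Agent.P028X

open Finset MeasureTheory Filter Topology
open Vale.Agent.P028
open Vale.Agent.P028.MainAux (cls scale cls_spec exists_block pairs_bound exists_residue)

/-- The extra divergence weight `log (3 + log q / max 1 (-log ψ q)) ^ δ`. -/
noncomputable def lossD (δ : ℝ) (ψ : ℕ → ℝ) (q : ℕ) : ℝ :=
  Real.log (3 + Real.log q / max 1 (-Real.log (ψ q))) ^ δ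

/-- The summand of the criterion. -/
noncomputable def wD (δ : ℝ) (ψ : ℕ → ℝ) (q : ℕ) : ℝ := mu ψ q / lossD δ ψ q

/-- The slice `8 ^ k ≤ log q < 8 ^ (k+1)`. -/
noncomputable def slice (q : ℕ) : ℕ := ⌊Real.log (Real.log q) / Real.log 8⌋₊

/-- An upper bound for the scale classes of a slice. -/
noncomputable def mTop (k : ℕ) : ℕ :=
  ⌊Real.log (16 * (8 : ℝ) ^ k) / Real.log (1 + zeta0)⌋₊

/-- The group of `q`: the binary order of the distance from the top class of its slice. -/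
noncomputable def grp (ψ : ℕ → ℝ) (q : ℕ) : ℕ :=
  Nat.log 2 (mTop (slice q) - cls ψ q + 2)

/-- The weight exponent of a group. -/
noncomputable def e2 (ε : ℝ) : ℝ := 848 * ε / (1 - 2 * ε)

/-- The weight of a group. -/
noncomputable def sW (ε : ℝ) (k : ℕ) : ℝ := ((2 : ℝ) ^ k) ^ (-e2 ε)

lemma lossD_arg (q : ℕ) (ψ : ℕ → ℝ) :
    (3 : ℝ) ≤ 3 + Real.log q / max 1 (-Real.log (ψ q)) := by
  have h0 : (0 : ℝ) ≤ max 1 (-Real.log (ψ q)) := le_trans zero_le_one (le_max_left _ _)
  linarith [div_nonneg (Real.log_natCast_nonneg q) h0]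

lemma one_le_log_three : 1 ≤ Real.log 3 := by
  have h := Real.exp_one_lt_d9
  rw [Real.le_log_iff_exp_le (by norm_num)]
  linarith

lemma one_le_lossD {δ : ℝ} (hδ : 0 ≤ δ) (ψ : ℕ → ℝ) (q : ℕ) : 1 ≤ lossD δ ψ q :=
  Real.one_le_rpow (one_le_log_three.trans
    (Real.log_le_log (by norm_num) (lossD_arg q ψ))) hδ

lemma mu_nonneg_X {ψ : ℕ → ℝ} (hψ : ∀ q, 0 ≤ ψ q) (q : ℕ) : 0 ≤ mu ψ q :=
  mul_nonneg (th_nonneg q) (hψ q)

lemma wD_nonneg {δ : ℝ} (hδ' : 0 ≤ δ) {ψ : ℕ → ℝ} (hψ : ∀ q, 0 ≤ ψ q) (q : ℕ) : 0 ≤ wD δ ψ q :=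
  div_nonneg (mu_nonneg_X hψ q) (le_trans zero_le_one (one_le_lossD hδ' ψ q))

lemma wD_le_mu {δ : ℝ} (hδ' : 0 ≤ δ) {ψ : ℕ → ℝ} (hψ : ∀ q, 0 ≤ ψ q) (q : ℕ) : wD δ ψ q ≤ mu ψ q :=
  div_le_self (mu_nonneg_X hψ q) (one_le_lossD hδ' ψ q)

lemma sW_mem {ε : ℝ} (hε : Small ε) (k : ℕ) : 0 < sW ε k ∧ sW ε k ≤ 1 :=
  ⟨Real.rpow_pos_of_pos (by positivity) _, Real.rpow_le_one_of_one_le_of_nonpos
    (one_le_pow₀ one_le_two) (by
    have := hε.1
    have := hε.2
    exact neg_nonpos.2 (div_nonneg (by linarith) (by linarith)))⟩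

/-- Only large `q` with `q^{-2} ≤ ψ q` matter. -/
lemma not_summable_good {δ : ℝ} (hδ' : 0 ≤ δ) (ψ : ℕ → ℝ) (hψ : ∀ q, 0 ≤ ψ q) (h : ¬ Summable (wD δ ψ)) (q1 : ℕ) :
    ¬ Summable ((MainAux.Good ψ q1).indicator (wD δ ψ)) := by
  intro hs
  apply h
  have hmaj : Summable (fun q : ℕ => (MainAux.Good ψ q1).indicator (wD δ ψ) q + ((q : ℝ) ^ 2)⁻¹
      + (↑(range q1) : Set ℕ).indicator (wD δ ψ) q) :=
    (hs.add (Real.summable_nat_pow_inv.2 one_lt_two)).add
      (summable_of_ne_finset_zero (s := range q1) fun q hq =>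
        Set.indicator_of_notMem (by simpa using hq) _)
  refine hmaj.of_nonneg_of_le (wD_nonneg hδ' hψ) fun q => ?_
  have h1 : 0 ≤ (MainAux.Good ψ q1).indicator (wD δ ψ) q :=
    Set.indicator_nonneg (fun q _ => wD_nonneg hδ' hψ q) q
  have h2 : 0 ≤ (↑(range q1) : Set ℕ).indicator (wD δ ψ) q :=
    Set.indicator_nonneg (fun q _ => wD_nonneg hδ' hψ q) q
  have h3 : (0 : ℝ) ≤ ((q : ℝ) ^ 2)⁻¹ := by positivity
  by_cases hq : q ∈ MainAux.Good ψ q1
  · rw [Set.indicator_of_mem hq]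
    linarith
  by_cases hq1 : q1 ≤ q
  · have hsm : ψ q < ((q : ℝ) ^ 2)⁻¹ := not_le.1 fun hn => hq ⟨hq1, hn⟩
    have hle : mu ψ q ≤ ψ q := mul_le_of_le_one_left (hψ q) (th_le_one q)
    linarith [wD_le_mu hδ' hψ q]
  · rw [Set.indicator_of_mem (show q ∈ (↑(range q1) : Set ℕ) by simpa using hq1)]
    linarith

lemma slice_spec (q : ℕ) (hq : 1 ≤ Real.log q) :
    (8 : ℝ) ^ slice q ≤ Real.log q ∧ Real.log q ≤ 8 * (8 : ℝ) ^ slice q := by
  have hl8 : 0 < Real.log 8 := Real.log_pos (by norm_num)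
  have hL0 : 0 < Real.log q := by linarith
  have h1 := Nat.floor_le (div_nonneg (Real.log_nonneg hq) hl8.le)
  have h2 := Nat.lt_floor_add_one (Real.log (Real.log q) / Real.log 8)
  rw [le_div_iff₀ hl8] at h1
  rw [div_lt_iff₀ hl8] at h2
  constructor
  · rw [← Real.log_le_log_iff (by positivity) hL0, Real.log_pow]
    exact h1
  · rw [← pow_succ', ← Real.log_le_log_iff hL0 (by positivity), Real.log_pow]
    push_cast
    exact h2.le

lemma slice_far {q r : ℕ} (hq : 2 ≤ q) (hr : 2 ≤ r) (hq1 : 1 ≤ Real.log q) (hr1 : 1 ≤ Real.log r)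
    (h : slice q + 3 ≤ slice r) : q ^ 8 ≤ r := by
  have key : (8 : ℝ) * Real.log q ≤ Real.log r := by
    calc (8 : ℝ) * Real.log q ≤ 8 * (8 * (8 : ℝ) ^ slice q) := by
          linarith [(slice_spec q hq1).2]
      _ ≤ (8 : ℝ) ^ (slice q + 3) := by
          rw [pow_add]
          nlinarith [pow_nonneg (show (0 : ℝ) ≤ 8 by norm_num) (slice q)]
      _ ≤ (8 : ℝ) ^ slice r := pow_le_pow_right₀ (by norm_num) h
      _ ≤ _ := (slice_spec r hr1).1
  have h8 : ((8 : ℕ) : ℝ) * Real.log q ≤ Real.log r := by push_cast; exact key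
  rw [← Real.log_pow, Real.log_le_log_iff (by positivity) (by positivity)] at h8
  exact_mod_cast h8

/-- The position of the class of `q` inside its slice, and the loss of its group. -/
lemma grp_spec :
    ∃ C : ℝ, 1 ≤ C ∧ ∀ (ψ : ℕ → ℝ) (q : ℕ), 1 ≤ Real.log q → 1 ≤ -Real.log (ψ q) →
      -Real.log (ψ q) ≤ 2 * Real.log q →
      cls ψ q ≤ mTop (slice q) ∧
        (2 : ℝ) ^ grp ψ q ≤ C * Real.log (3 + Real.log q / max 1 (-Real.log (ψ q))) := by
  have hlb : 0 < Real.log (1 + zeta0) := Real.log_pos (by unfold zeta0; norm_num)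
  refine ⟨4 / Real.log (1 + zeta0) + 3, le_add_of_nonneg_of_le (by positivity) (by norm_num),
    fun ψ q hq hL hLq => ?_⟩
  set L := -Real.log (ψ q) with hLdef
  have hL0 : 0 < L := by linarith
  obtain ⟨hlo, hhi⟩ := slice_spec q hq
  have h8 : (0 : ℝ) < (8 : ℝ) ^ slice q := by positivity
  have hle : cls ψ q ≤ mTop (slice q) := Nat.floor_le_floor
    ((div_le_div_iff_of_pos_right hlb).2 (Real.log_le_log hL0 (by linarith)))
  refine ⟨hle, ?_⟩
  rw [max_eq_right hL]
  set R := Real.log (3 + Real.log q / L) with hR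
  have hR1 : 1 ≤ R := one_le_log_three.trans (Real.log_le_log (by norm_num)
    (le_add_of_nonneg_right (div_nonneg (Real.log_natCast_nonneg q) hL0.le)))
  have h1 : (mTop (slice q) : ℝ) ≤ Real.log (16 * (8 : ℝ) ^ slice q) / Real.log (1 + zeta0) :=
    Nat.floor_le (div_nonneg (Real.log_nonneg (one_le_mul_of_one_le_of_one_le (by norm_num)
      (one_le_pow₀ (by norm_num)))) hlb.le)
  have h2 : Real.log L / Real.log (1 + zeta0) < (cls ψ q : ℝ) + 1 := Nat.lt_floor_add_one _
  have hnum : Real.log (16 * (8 : ℝ) ^ slice q) - Real.log L ≤ 4 * R := by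
    have h16 : Real.log 16 ≤ 3 := by
      rw [show (16 : ℝ) = 2 ^ 4 by norm_num, Real.log_pow]
      have := Real.log_two_lt_d9
      push_cast
      linarith
    have h3 : Real.log ((8 : ℝ) ^ slice q / L) ≤ R := Real.log_le_log (by positivity)
      (le_trans ((div_le_div_iff_of_pos_right hL0).2 hlo) (le_add_of_nonneg_left (by norm_num)))
    rw [Real.log_div h8.ne' hL0.ne'] at h3
    rw [Real.log_mul (by norm_num) h8.ne']
    linarith
  have hdiv : (mTop (slice q) : ℝ) - cls ψ q ≤ 4 * R / Real.log (1 + zeta0) + 1 := by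
    have := (div_le_div_iff_of_pos_right hlb).2 hnum
    rw [sub_div] at this
    linarith
  have h4 : (2 : ℝ) ^ grp ψ q ≤ ((mTop (slice q) - cls ψ q + 2 : ℕ) : ℝ) := by
    exact_mod_cast Nat.pow_log_le_self 2 (by omega)
  refine h4.trans ?_
  push_cast [Nat.cast_sub hle]
  rw [add_mul, div_mul_eq_mul_div]
  linarith

/-- A group meets at most `2 ^ (k+1)` classes. -/
lemma grp_card (ψ : ℕ → ℝ) (S : Finset ℕ) (l k : ℕ)
    (h : ∀ q ∈ S, slice q = l ∧ grp ψ q = k ∧ cls ψ q ≤ mTop l) :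
    (S.image (cls ψ)).card ≤ 2 ^ (k + 1) := by
  refine le_trans (Finset.card_le_card_of_injOn (fun m => mTop l - m) ?_ ?_)
    (Finset.card_range _).le
  · intro m hm
    obtain ⟨q, hq, rfl⟩ := Finset.mem_image.1 hm
    obtain ⟨rfl, rfl, -⟩ := h q hq
    refine Finset.mem_range.2 ?_
    show mTop (slice q) - cls ψ q < _
    have := Nat.lt_pow_succ_log_self (b := 2) one_lt_two (mTop (slice q) - cls ψ q + 2)
    unfold grp
    omega
  · intro a ha b hb hab
    obtain ⟨q, hq, rfl⟩ := Finset.mem_image.1 ha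
    obtain ⟨r, hr, rfl⟩ := Finset.mem_image.1 hb
    have := (h q hq).2.2
    have := (h r hr).2.2
    simp only at hab
    omega

/-- In every slice keep the best group. -/
lemma select (T : Finset ℕ) (sl gr : ℕ → ℕ) (v : ℕ → ℝ) (d : ℕ → ℝ) (G : ℝ)
    (hv : ∀ q, 0 ≤ v q) (hd : ∀ k, 0 ≤ d k) (hG : ∀ K : Finset ℕ, ∑ k ∈ K, d k ≤ G) :
    ∃ T' : Finset ℕ, T' ⊆ T ∧ (∀ q ∈ T', ∀ r ∈ T', sl q = sl r → gr q = gr r) ∧
      ∑ q ∈ T, v q * d (gr q) ≤ G * ∑ q ∈ T', v q := by
  classical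
  have hmax : ∀ l, ∃ k, ∀ k' ∈ T.image gr, (∑ q ∈ T.filter (fun q => sl q = l ∧ gr q = k'), v q)
      ≤ ∑ q ∈ T.filter (fun q => sl q = l ∧ gr q = k), v q := by
    intro l
    rcases (T.image gr).eq_empty_or_nonempty with h | h
    · exact ⟨0, by simp [h]⟩
    · obtain ⟨k, -, hk⟩ := Finset.exists_max_image (T.image gr)
        (fun k' => ∑ q ∈ T.filter (fun q => sl q = l ∧ gr q = k'), v q) h
      exact ⟨k, hk⟩
  choose best hbest using hmax
  refine ⟨T.filter (fun q => gr q = best (sl q)), Finset.filter_subset _ _,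
    fun q hq r hr h => by rw [(mem_filter.1 hq).2, (mem_filter.1 hr).2, h], ?_⟩
  have hG0 : 0 ≤ G := le_trans (by simp) (hG ∅)
  rw [← Finset.sum_fiberwise_of_maps_to (fun q hq => mem_image_of_mem sl hq)
    (fun q => v q * d (gr q)), ← Finset.sum_fiberwise_of_maps_to (t := T.image sl)
    (fun q hq => mem_image_of_mem sl (mem_filter.1 hq).1) v, Finset.mul_sum]
  refine Finset.sum_le_sum fun l _ => ?_
  rw [← Finset.sum_fiberwise_of_maps_to (s := T.filter (sl · = l)) (t := T.image gr)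
    (fun q hq => mem_image_of_mem gr (mem_filter.1 hq).1) (fun q => v q * d (gr q))]
  set B := ∑ q ∈ T.filter (fun q => sl q = l ∧ gr q = best l), v q with hB
  calc ∑ k ∈ T.image gr, ∑ q ∈ (T.filter (sl · = l)).filter (gr · = k), v q * d (gr q)
      ≤ ∑ k ∈ T.image gr, d k * B := by
        refine Finset.sum_le_sum fun k hk => ?_
        rw [Finset.filter_filter]
        calc ∑ q ∈ T.filter (fun q => sl q = l ∧ gr q = k), v q * d (gr q)
            = d k * ∑ q ∈ T.filter (fun q => sl q = l ∧ gr q = k), v q := by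
              rw [Finset.mul_sum]
              exact Finset.sum_congr rfl fun q hq => by rw [(mem_filter.1 hq).2.2, mul_comm]
          _ ≤ _ := mul_le_mul_of_nonneg_left (hbest l k hk) (hd k)
    _ ≤ G * B := by
        rw [← Finset.sum_mul]
        exact mul_le_mul_of_nonneg_right (hG _) (Finset.sum_nonneg fun q _ => hv q)
    _ = _ := by
        rw [hB, Finset.filter_filter]
        congr 1
        refine Finset.sum_congr (Finset.ext fun q => ?_) fun _ _ => rfl
        simp only [mem_filter]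
        constructor
        · rintro ⟨h1, h2, h3⟩; exact ⟨h1, by rw [h3, h2], h2⟩
        · rintro ⟨h1, h2, h3⟩; exact ⟨h1, h3, by rw [h2, h3]⟩

/-- The weights absorb the loss of a group. -/
lemma weight_absorb {ε : ℝ} (hε : Small ε) (k : ℕ) (M : ℝ) (hM : 0 ≤ M) :
    sW ε k ^ 2 * (((2 ^ (k + 1) : ℕ) : ℝ) ^ (848 * ε) * (M * M) ^ aX ε)
      ≤ 2 * (sW ε k * M + (sW ε k * M) ^ 2) := by
  obtain ⟨hs0, hs1⟩ := sW_mem hε k
  set s := sW ε k with hs
  have hX0 : (0 : ℝ) ≤ 2 ^ k := by positivity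
  have key : s ^ 2 * ((2 ^ (k + 1) : ℕ) : ℝ) ^ (848 * ε) ≤ 2 * (s * s) ^ aX ε := by
    have e : ((2 ^ (k + 1) : ℕ) : ℝ) = 2 * 2 ^ k := by push_cast; ring
    have hexp : s ^ (1 - 2 * ε) = ((2 : ℝ) ^ k) ^ (-(848 * ε)) := by
      rw [hs, sW, ← Real.rpow_mul hX0]
      congr 1
      rw [e2, neg_mul, div_mul_cancel₀ _ (by linarith [hε.2])]
    have h2 : s ^ 2 = (s * s) ^ aX ε * s ^ (1 - 2 * ε) := by
      rw [Real.mul_rpow hs0.le hs0.le, ← Real.rpow_add hs0, ← Real.rpow_add hs0,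
        ← Real.rpow_two]
      congr 1
      unfold aX; ring
    rw [h2, hexp, e, Real.mul_rpow (by norm_num) hX0]
    have hc : ((2 : ℝ) ^ k) ^ (-(848 * ε)) * ((2 : ℝ) ^ k) ^ (848 * ε) = 1 := by
      rw [← Real.rpow_add (by positivity), neg_add_cancel, Real.rpow_zero]
    calc (s * s) ^ aX ε * ((2 : ℝ) ^ k) ^ (-(848 * ε))
          * ((2 : ℝ) ^ (848 * ε) * ((2 : ℝ) ^ k) ^ (848 * ε))
        = (s * s) ^ aX ε * (2 : ℝ) ^ (848 * ε)
            * (((2 : ℝ) ^ k) ^ (-(848 * ε)) * ((2 : ℝ) ^ k) ^ (848 * ε)) := by ring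
      _ ≤ (s * s) ^ aX ε * (2 : ℝ) ^ (1 : ℝ) * 1 := by
          rw [hc]
          gcongr
          · norm_num
          · linarith [hε.1, hε.2]
      _ = _ := by rw [Real.rpow_one]; ring
  calc s ^ 2 * (((2 ^ (k + 1) : ℕ) : ℝ) ^ (848 * ε) * (M * M) ^ aX ε)
      ≤ 2 * (s * s) ^ aX ε * (M * M) ^ aX ε := by
        rw [← mul_assoc]
        exact mul_le_mul_of_nonneg_right key (Real.rpow_nonneg (mul_self_nonneg M) _)
    _ = 2 * ((s * M) * (s * M)) ^ aX ε := by
        rw [mul_assoc, ← Real.mul_rpow (mul_self_nonneg s) (mul_self_nonneg M)]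
        ring_nf
    _ ≤ _ := mul_le_mul_of_nonneg_left (omegaX hε _ (mul_nonneg hs0.le hM)) (by norm_num)

/-- The criterion for `ψ ≤ 1/e`. -/
lemma extra_core (γ μ c δ : ℝ) (hγ : Dioph γ μ c) (hδ : 0 < δ) (ψ : ℕ → ℝ) (hψ : ∀ q, 0 ≤ ψ q)
    (hb : ∀ q, ψ q ≤ Real.exp (-1)) (hdiv : ¬ Summable (wD δ ψ)) :
    ∀ᵐ x : ℝ, {q : ℕ | 0 < q ∧ distInt ((q : ℝ) * x - γ) < ψ q}.Infinite := by
  classical
  have hδ' : 0 ≤ δ := hδ.le
  set ε := min (1 / 100000) (δ / 2000) with hεdef
  have hε : Small ε := ⟨lt_min (by norm_num) (by linarith), min_le_left _ _⟩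
  have hεδ : ε ≤ δ / 2000 := min_le_right _ _
  obtain ⟨C1, hC10, hgroup⟩ := group_bound γ μ c ε hγ hε
  obtain ⟨C2, q0, hcross⟩ := cross_bound
  obtain ⟨C3, hfirst⟩ := integral_fq_interval
  obtain ⟨C4, hdivb⟩ := card_divisors_le (1 / 4) (by norm_num)
  obtain ⟨C0, hC0, hgrp⟩ := grp_spec
  have hhalf : ∀ q, ψ q ≤ 1 / 2 := fun q => (hb q).trans (by
    rw [Real.exp_neg, one_div]
    exact inv_anti₀ two_pos (by linarith [Real.add_one_le_exp (1 : ℝ)]))
  obtain ⟨i, hi⟩ := exists_residue (wD δ ψ) _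
    (not_summable_good hδ' ψ hψ hdiv (max 3 q0)) slice 3 (by norm_num)
  set P : Set ℕ := {q | q ∈ MainAux.Good ψ (max 3 q0) ∧ slice q % 3 = i} with hP
  have hgood : ∀ q ∈ P, 3 ≤ q ∧ q0 ≤ q ∧ 0 < ψ q ∧ 1 ≤ Real.log q ∧ 1 ≤ -Real.log (ψ q) ∧
      -Real.log (ψ q) ≤ 2 * Real.log q ∧ cls ψ q ≤ mTop (slice q) := by
    rintro q ⟨⟨hqq, hq2⟩, -⟩
    have h3 : 3 ≤ q := (le_max_left _ _).trans hqq
    have hqR : (3 : ℝ) ≤ q := by exact_mod_cast h3
    have hpos : 0 < ψ q := lt_of_lt_of_le (by positivity) hq2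
    have hlq : 1 ≤ Real.log q :=
      one_le_log_three.trans (Real.log_le_log (by norm_num) hqR)
    have hL : 1 ≤ -Real.log (ψ q) := by
      have := Real.log_le_log hpos (hb q)
      rw [Real.log_exp] at this
      linarith
    have hl2 := Real.log_le_log (by positivity) hq2
    rw [Real.log_inv, Real.log_pow] at hl2
    push_cast at hl2
    exact ⟨h3, (le_max_right _ _).trans hqq, hpos, hlq, hL, by linarith,
      (hgrp ψ q hlq hL (by linarith)).1⟩
  set v : ℕ → ℝ := fun q => sW ε (grp ψ q) * mu ψ q with hv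
  set f : ℕ → ℝ → ℝ := fun q x => sW ε (grp ψ q) * fq γ ψ 1 0 q x with hf
  have hv0 : ∀ q, 0 ≤ v q := fun q => mul_nonneg (sW_mem hε _).1.le (mu_nonneg_X hψ q)
  have hfn : ∀ q x, 0 ≤ f q x := fun q x =>
    mul_nonneg (sW_mem hε _).1.le (fq_nonneg γ ψ _ _ q x)
  have hcop : IsCoprime (1 : ℤ) ((0 : ℕ) : ℤ) := isCoprime_one_left
  -- the summand against the weights
  set κ : ℝ := δ - e2 ε with hκ
  have hκ0 : 0 < κ := by
    have h1 : e2 ε ≤ 850 * ε := by
      rw [e2, div_le_iff₀ (by linarith [hε.2])]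
      nlinarith [hε.1, hε.2]
    rw [hκ]
    linarith
  set d : ℕ → ℝ := fun k => ((2 : ℝ) ^ k) ^ (-κ) with hd
  have hd0 : ∀ k, 0 ≤ d k := fun k => Real.rpow_nonneg (by positivity) _
  set G := ∑' k : ℕ, ((2 : ℝ) ^ (-κ)) ^ k with hGdef
  have hG : ∀ K : Finset ℕ, ∑ k ∈ K, d k ≤ G := by
    intro K
    have hr0 : (0 : ℝ) ≤ (2 : ℝ) ^ (-κ) := by positivity
    have hr1 : (2 : ℝ) ^ (-κ) < 1 := Real.rpow_lt_one_of_one_lt_of_neg one_lt_two (by linarith)
    have e : ∀ k, d k = ((2 : ℝ) ^ (-κ)) ^ k := fun k => by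
      simp only [hd]
      rw [← Real.rpow_natCast, ← Real.rpow_natCast, ← Real.rpow_mul (by norm_num),
        ← Real.rpow_mul (by norm_num), mul_comm]
    simp only [e]
    exact (summable_geometric_of_lt_one hr0 hr1).sum_le_tsum K fun k _ => pow_nonneg hr0 k
  have hG0 : 0 < G := lt_of_lt_of_le (Real.rpow_pos_of_pos (by positivity) _)
    ((Finset.single_le_sum (fun k _ => hd0 k) (Finset.mem_singleton_self 0)).trans (hG {0}))
  set D := C0 ^ δ with hD
  have hD0 : 0 < D := by positivity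
  have hwv : ∀ q ∈ P, wD δ ψ q ≤ D * (v q * d (grp ψ q)) := by
    intro q hq
    obtain ⟨-, -, -, hlq, hL, hLo, -⟩ := hgood q hq
    have hR := (hgrp ψ q hlq hL hLo).2
    set X := (2 : ℝ) ^ grp ψ q with hX
    have hX0 : 0 < X := by positivity
    set R := Real.log (3 + Real.log q / max 1 (-Real.log (ψ q)))
    have hR0 : 0 < R := lt_of_lt_of_le one_pos
      (one_le_log_three.trans (Real.log_le_log (by norm_num) (lossD_arg q ψ)))
    have h1 : X ^ δ ≤ D * R ^ δ := by
      rw [hD, ← Real.mul_rpow (by linarith) hR0.le]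
      exact Real.rpow_le_rpow hX0.le hR hδ'
    have h2 : sW ε (grp ψ q) * d (grp ψ q) = (X ^ δ)⁻¹ := by
      simp only [sW, hd, ← hX]
      rw [← Real.rpow_neg hX0.le, ← Real.rpow_add hX0, hκ]
      ring_nf
    have h3 : D * (v q * d (grp ψ q)) = mu ψ q * (D / X ^ δ) := by
      rw [div_eq_mul_inv, ← h2, hv]; ring
    rw [h3, wD, lossD, div_eq_mul_inv]
    refine mul_le_mul_of_nonneg_left ?_ (mu_nonneg_X hψ q)
    rw [le_div_iff₀ (by positivity), inv_mul_le_iff₀ (by positivity), mul_comm _ D]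
    exact h1
  -- the blocks
  choose T hT hTsum using exists_block (wD δ ψ) P (wD_nonneg hδ' hψ) hi
  choose T' hT'sub hT'one hT'sum using
    fun k => select (T k) slice (grp ψ) v d G hv0 hd0 hG
  set M : ℕ → ℝ := fun k => ∑ q ∈ T' k, v q with hMdef
  set η0 := 1 / (D * G) with hη0
  have hη00 : 0 < η0 := by positivity
  have hM : ∀ k : ℕ, η0 * ((k : ℝ) + 1) ≤ M k := by
    intro k
    rw [hη0, one_div_mul_eq_div, div_le_iff₀ (by positivity)]
    calc (k : ℝ) + 1 ≤ ∑ q ∈ T k, wD δ ψ q := hTsum k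
      _ ≤ ∑ q ∈ T k, D * (v q * d (grp ψ q)) :=
          Finset.sum_le_sum fun q hq => hwv q (hT k q hq).1
      _ = D * ∑ q ∈ T k, v q * d (grp ψ q) := (Finset.mul_sum ..).symm
      _ ≤ D * (G * M k) := mul_le_mul_of_nonneg_left (hT'sum k) hD0.le
      _ = _ := by ring
  have hMη : ∀ k, η0 ≤ M k := fun k =>
    (le_mul_of_one_le_right hη00.le (by linarith [Nat.cast_nonneg (α := ℝ) k])).trans (hM k)
  have hT'P : ∀ k, ∀ q ∈ T' k, q ∈ P ∧ k ≤ q := fun k q hq => hT k q (hT'sub k hq)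
  -- quasi-independence across slices
  have hX : ∀ q ∈ P, ∀ r ∈ P, slice q ≠ slice r →
      ∫ x in Set.Ico (0 : ℝ) 1, f q x * f r x ≤ max C2 0 * v q * v r := by
    have main : ∀ q ∈ P, ∀ r ∈ P, slice q < slice r →
        ∫ x in Set.Ico (0 : ℝ) 1, f q x * f r x ≤ max C2 0 * v q * v r := by
      intro q hq r hr hlt
      obtain ⟨h3, hq0, -, hlq, -⟩ := hgood q hq
      obtain ⟨h3', -, -, hlr, -⟩ := hgood r hr
      have h8 : q ^ 8 ≤ r := slice_far (by omega) (by omega) hlq hlr (by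
        have h1 := hq.2
        have h2 := hr.2
        omega)
      have h := hcross γ ψ 1 1 0 0 q r hcop hcop hq0 (by omega) h8 hq.1.2 (hhalf q) (hψ r)
        (hhalf r)
      have e : ∀ x, f q x * f r x
          = sW ε (grp ψ q) * sW ε (grp ψ r) * (fq γ ψ 1 0 q x * fq γ ψ 1 0 r x) := fun x => by
        simp only [hf]; ring
      simp only [e]
      rw [integral_const_mul]
      refine (mul_le_mul_of_nonneg_left (h.trans (mul_le_mul_of_nonneg_right
        (mul_le_mul_of_nonneg_right (le_max_left C2 0) (mu_nonneg_X hψ q))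
        (mu_nonneg_X hψ r))) (mul_nonneg (sW_mem hε _).1.le (sW_mem hε _).1.le)).trans_eq ?_
      simp only [hv]; ring
    intro q hq r hr hne
    rcases lt_or_gt_of_ne hne with h | h
    · exact main q hq r hr h
    · simp only [mul_comm (f q _) (f r _)]
      refine (main r hr q hq h).trans_eq ?_
      ring
  have hint2 : ∀ q r, IntegrableOn (fun x => f q x * f r x) (Set.Ico 0 1) := fun q r => by
    have e : (fun x => f q x * f r x)
        = fun x => sW ε (grp ψ q) * sW ε (grp ψ r) * (fq γ ψ 1 0 q x * fq γ ψ 1 0 r x) :=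
      funext fun x => by simp only [hf]; ring
    rw [e]
    exact (integrableOn_fq_mul γ ψ 1 0 q r).const_mul _
  have hexp : ∀ U : Finset ℕ, ∫ x in Set.Ico (0 : ℝ) 1, (∑ q ∈ U, f q x) ^ 2
      = ∑ q ∈ U, ∑ r ∈ U, ∫ x in Set.Ico (0 : ℝ) 1, f q x * f r x := fun U => by
    simp only [sq, Finset.sum_mul_sum]
    rw [integral_finsetSum _ fun q _ => integrable_finsetSum _ fun r _ => hint2 q r]
    exact Finset.sum_congr rfl fun q _ => integral_finsetSum _ fun r _ => hint2 q r
  set Tot := 3 * C1 * (1 + 1 / η0) + max C2 0 with hTot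
  have hsq : ∀ k, ∫ x in Set.Ico (0 : ℝ) 1, (∑ q ∈ T' k, f q x) ^ 2 ≤ Tot * M k ^ 2 := by
    intro k
    rw [hexp]
    refine (pairs_bound (T' k) slice v _ (3 * C1) (max C2 0) hv0 (by positivity)
      (le_max_right _ _) ?_
      fun q hq r hr hne => hX q (hT'P k q hq).1 r (hT'P k r hr).1 hne).trans ?_
    · intro j hj
      obtain ⟨q', hq', rfl⟩ := mem_image.1 hj
      set S := (T' k).filter (slice · = slice q') with hS
      set g := grp ψ q' with hg
      have hSm : ∀ q ∈ S, q ∈ P ∧ slice q = slice q' ∧ grp ψ q = g := fun q hq => by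
        obtain ⟨h1, h2⟩ := mem_filter.1 hq
        exact ⟨(hT'P k q h1).1, h2, hT'one k q h1 q' hq' h2⟩
      have hcard : (S.image (cls ψ)).card ≤ 2 ^ (g + 1) :=
        grp_card ψ S (slice q') g fun q hq => by
          obtain ⟨h1, h2, h3⟩ := hSm q hq
          obtain ⟨-, -, -, -, -, -, h4⟩ := hgood q h1
          exact ⟨h2, h3, h2 ▸ h4⟩
      have h := hgroup ψ S (cls ψ) (2 ^ (g + 1)) hψ (fun q hq => by
          obtain ⟨h3, -, hp, -⟩ := hgood q (hSm q hq).1
          exact ⟨by omega, hp, hb q⟩)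
        (fun q hq => cls_spec ψ q (hgood q (hSm q hq).1).2.2.2.2.1) hcard
      have e : ∀ x, ∑ q ∈ S, f q x = sW ε g * ∑ q ∈ S, fq γ ψ 1 0 q x := fun x => by
        rw [Finset.mul_sum]
        exact Finset.sum_congr rfl fun q hq => by simp only [hf]; rw [(hSm q hq).2.2]
      have ev : ∑ q ∈ S, v q = sW ε g * msum (mu ψ) S := by
        rw [msum, Finset.mul_sum]
        exact Finset.sum_congr rfl fun q hq => by simp only [hv]; rw [(hSm q hq).2.2]
      rw [← hexp, ev]
      simp only [e, mul_pow]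
      rw [integral_const_mul]
      refine (mul_le_mul_of_nonneg_left h (sq_nonneg _)).trans ?_
      obtain ⟨hs0, hs1⟩ := sW_mem hε g
      set m := msum (mu ψ) S with hm
      have hm0 : 0 ≤ m := Finset.sum_nonneg fun q _ => mu_nonneg_X hψ q
      have hw := mul_le_mul_of_nonneg_left (weight_absorb hε g m hm0) hC10
      have hsm : sW ε g ^ 2 * m ≤ sW ε g * m := by
        rw [sq]
        exact mul_le_mul_of_nonneg_right (mul_le_of_le_one_right hs0.le hs1) hm0
      have hsm' := mul_le_mul_of_nonneg_left hsm hC10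
      rw [mul_pow] at hw
      nlinarith [mul_nonneg hC10 (mul_nonneg hs0.le hm0)]
    · have h1 : M k ≤ 1 / η0 * M k ^ 2 := by
        rw [one_div_mul_eq_div, le_div_iff₀ hη00, sq]
        exact mul_le_mul_of_nonneg_left (hMη k) (hη00.le.trans (hMη k))
      have h2 := mul_le_mul_of_nonneg_left h1 (show 0 ≤ 3 * C1 by positivity)
      rw [hTot]
      simp only [hMdef] at h2 ⊢
      linarith
  set F : ℕ → ℝ → ℝ := fun k x => (∑ q ∈ T' k, f q x) / (2 * M k) with hF
  have hMpos : ∀ k, 0 < M k := fun k => hη00.trans_le (hMη k)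
  have hfm : ∀ q, Measurable (f q) := fun q => (fq_measurable γ ψ 1 0 q).const_mul _
  have hf1 : ∀ q x, f q x ≤ 1 := fun q x =>
    mul_le_one₀ (sW_mem hε _).2 (fq_nonneg γ ψ 1 0 q x) (fq_le_one γ ψ 1 0 q x)
  refine full_measure_of_blocks γ ψ F (Tot / 4)
    (fun k => (Finset.measurable_sum _ fun q _ => hfm q).div_const _)
    (fun k x => div_nonneg (sum_nonneg fun q _ => hfn q x) (by linarith [hMpos k]))
    (fun k => ⟨((T' k).card : ℝ) / (2 * M k), fun x => ?_⟩) ?_ ?_ ?_
  · refine div_le_div_of_nonneg_right ?_ (by linarith [hMpos k])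
    calc ∑ q ∈ T' k, f q x ≤ ∑ q ∈ T' k, (1 : ℝ) := sum_le_sum fun q _ => hf1 q x
      _ = ((T' k).card : ℝ) := by simp
  · intro k x hne
    obtain ⟨q, hq, hq'⟩ := exists_ne_zero_of_sum_ne_zero (left_ne_zero_of_mul hne)
    obtain ⟨hqP, hkq⟩ := hT'P k q hq
    exact ⟨q, hkq, by have := (hgood q hqP).1; omega,
      fq_ne_zero γ ψ _ _ q x (right_ne_zero_of_mul hq')⟩
  · intro k
    have hpos := hMpos k
    simp only [hF, div_pow]
    rw [integral_div, div_le_iff₀ (by positivity)]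
    exact (hsq k).trans_eq (by ring)
  · intro a b ha hab hb1
    rw [← tendsto_sub_nhds_zero_iff]
    set C5 := max C3 0 * max C4 0 ^ 2 * 2 with hC5
    refine squeeze_zero_norm (a := fun k : ℕ => C5 / ((k : ℝ) + 1) ^ (1 / 2 : ℝ)) (fun k => ?_) ?_
    · have hpos := hMpos k
      have hfi : ∀ q ∈ T' k, IntegrableOn (f q) (Set.Ioc a b) := fun q _ =>
        IntegrableOn.of_bound (by simp [Real.volume_Ioc]) (hfm q).aestronglyMeasurable
          1 (Eventually.of_forall fun x => by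
            rw [Real.norm_of_nonneg (hfn q x)]; exact hf1 q x)
      have e : (∫ x in Set.Ioc a b, F k x) - (b - a)
          = (∑ q ∈ T' k, ((∫ x in Set.Ioc a b, f q x) - (b - a) * (2 * v q))) / (2 * M k) := by
        simp only [hF]
        rw [integral_div, integral_finsetSum _ hfi, sum_sub_distrib, ← mul_sum, ← mul_sum]
        simp only [hMdef] at hpos ⊢
        field_simp
      rw [Real.norm_eq_abs, e, abs_div, abs_of_pos (by linarith : (0 : ℝ) < 2 * M k),
        div_le_iff₀ (by linarith)]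
      refine (abs_sum_le_sum_abs _ _).trans ?_
      calc ∑ q ∈ T' k, |(∫ x in Set.Ioc a b, f q x) - (b - a) * (2 * v q)|
          ≤ ∑ q ∈ T' k, 2 * (C5 / ((k : ℝ) + 1) ^ (1 / 2 : ℝ)) * v q := by
            refine sum_le_sum fun q hq => ?_
            obtain ⟨hqP, hkq⟩ := hT'P k q hq
            obtain ⟨h3, -⟩ := hgood q hqP
            have hqR : (0 : ℝ) < q := by exact_mod_cast (by omega : 0 < q)
            have hI := hfirst γ ψ 1 0 q a b hcop (by omega) (hψ q) (hhalf q) ha hab hb1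
            have e1 : (∫ x in Set.Ioc a b, f q x) - (b - a) * (2 * v q) = sW ε (grp ψ q)
                * ((∫ x in Set.Ioc a b, fq γ ψ 1 0 q x) - (b - a) * (2 * mu ψ q)) := by
              simp only [hf, hv]
              rw [integral_const_mul]
              ring
            rw [e1, abs_mul, abs_of_pos (sW_mem hε _).1]
            refine (mul_le_mul_of_nonneg_left hI (sW_mem hε _).1.le).trans ?_
            have hτ : (q.divisors.card : ℝ) ≤ max C4 0 * (q : ℝ) ^ (1 / 4 : ℝ) :=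
              (hdivb q (by omega)).trans
                (mul_le_mul_of_nonneg_right (le_max_left _ _) (by positivity))
            have hμ : ψ q ≤ (q.divisors.card : ℝ) * mu ψ q := by
              have hth : 1 ≤ (q.divisors.card : ℝ) * th q := by
                refine le_trans ?_ (mul_le_mul_of_nonneg_right
                  (Ph_le_card_divisors q (by omega)) (th_nonneg q))
                have hne : (q.totient : ℝ) ≠ 0 := by
                  exact_mod_cast (Nat.totient_pos.2 (by omega : 0 < q)).ne'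
                rw [Ph, th]
                field_simp
                rfl
              calc ψ q ≤ (q.divisors.card : ℝ) * th q * ψ q :=
                    le_mul_of_one_le_left (hψ q) hth
                _ = _ := by rw [mu]; ring
            have hμ0 := mu_nonneg_X hψ q
            have hs0 := (sW_mem hε (grp ψ q)).1.le
            have hk : ((k : ℝ) + 1) ^ (1 / 2 : ℝ) ≤ 2 * (q : ℝ) ^ (1 / 2 : ℝ) := by
              calc ((k : ℝ) + 1) ^ (1 / 2 : ℝ) ≤ ((4 : ℝ) * q) ^ (1 / 2 : ℝ) := by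
                    refine Real.rpow_le_rpow (by positivity) ?_ (by norm_num)
                    have : (k : ℝ) ≤ q := by exact_mod_cast hkq
                    have : (1 : ℝ) ≤ q := by exact_mod_cast (by omega : 1 ≤ q)
                    linarith
                _ = _ := by
                    rw [Real.mul_rpow (by norm_num) hqR.le, show (4 : ℝ) = 2 ^ (2 : ℝ) by norm_num,
                      ← Real.rpow_mul (by norm_num)]
                    norm_num
            calc sW ε (grp ψ q) * (C3 * ψ q * (q.divisors.card : ℝ) / q)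
                ≤ sW ε (grp ψ q) * (max C3 0
                    * ((max C4 0 * (q : ℝ) ^ (1 / 4 : ℝ)) * mu ψ q)
                    * (max C4 0 * (q : ℝ) ^ (1 / 4 : ℝ)) / q) := by
                  refine mul_le_mul_of_nonneg_left (div_le_div_of_nonneg_right ?_ hqR.le) hs0
                  exact mul_le_mul (mul_le_mul (le_max_left _ _)
                    (hμ.trans (mul_le_mul_of_nonneg_right hτ hμ0)) (hψ q) (le_max_right _ _))
                    hτ (Nat.cast_nonneg _) (by positivity)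
              _ = max C3 0 * max C4 0 ^ 2 * v q / (q : ℝ) ^ (1 / 2 : ℝ) := by
                  have e2 : (q : ℝ) ^ (1 / 4 : ℝ) * (q : ℝ) ^ (1 / 4 : ℝ)
                      = (q : ℝ) ^ (1 / 2 : ℝ) := by
                    rw [← Real.rpow_add hqR]; norm_num
                  have e3 : (q : ℝ) ^ (1 / 2 : ℝ) * (q : ℝ) ^ (1 / 2 : ℝ) = q := by
                    rw [← Real.rpow_add hqR]; norm_num
                  simp only [hv]
                  rw [eq_div_iff (by positivity), mul_div_assoc', div_mul_eq_mul_div,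
                    div_eq_iff hqR.ne']
                  linear_combination (sW ε (grp ψ q) * max C3 0 * max C4 0 ^ 2 * mu ψ q) *
                    ((q : ℝ) ^ (1 / 2 : ℝ) * e2 + e3)
              _ ≤ 2 * (C5 / ((k : ℝ) + 1) ^ (1 / 2 : ℝ)) * v q := by
                  rw [hC5, div_le_iff₀ (by positivity), mul_comm (2 : ℝ), div_mul_eq_mul_div,
                    div_mul_eq_mul_div, div_mul_eq_mul_div, le_div_iff₀ (by positivity)]
                  have := mul_le_mul_of_nonneg_left hk (show 0 ≤ max C3 0 * max C4 0 ^ 2 * v q by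
                    have := hv0 q; positivity)
                  have h0 : 0 ≤ max C3 0 * max C4 0 ^ 2 * v q * (q : ℝ) ^ (1 / 2 : ℝ) := by
                    have := hv0 q; positivity
                  linarith
        _ = _ := by rw [← mul_sum]; simp only [hMdef]; ring
    · exact tendsto_const_nhds.div_atTop ((tendsto_rpow_atTop (by norm_num)).comp
        (tendsto_natCast_atTop_atTop.atTop_add tendsto_const_nhds))

/-- Q1 with the extra divergence, for every irrational non-Liouville shift and every `ψ`. -/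
theorem weak_inhom_DS_extra (γ μ c δ : ℝ) (hγ : Dioph γ μ c) (hδ : 0 < δ) (ψ : ℕ → ℝ) (hψ : ∀ q, 0 ≤ ψ q)
    (hdiv : ¬ Summable (wD δ ψ)) :
    ∀ᵐ x : ℝ, {q : ℕ | 0 < q ∧ distInt ((q : ℝ) * x - γ) < ψ q}.Infinite := by
  classical
  have hδ' : 0 ≤ δ := hδ.le
  by_cases hbig : {q : ℕ | 1 / 2 < ψ q}.Infinite
  · refine Eventually.of_forall fun x => ((hbig.sdiff (Set.finite_singleton 0))).mono ?_
    rintro q ⟨hq, hq0⟩
    exact ⟨Nat.pos_of_ne_zero (by simpa using hq0), lt_of_le_of_lt (abs_sub_round _) hq⟩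
  set ψ' : ℕ → ℝ := fun q => if ψ q ≤ 1 / 2 then min (ψ q) (Real.exp (-1)) else 0 with hψ'
  have h0 : ∀ q, 0 ≤ ψ' q := fun q => by
    simp only [hψ']; split_ifs
    · exact le_min (hψ q) (Real.exp_pos _).le
    · exact le_rfl
  have hle : ∀ q, ψ' q ≤ ψ q := fun q => by
    simp only [hψ']; split_ifs
    · exact min_le_left _ _
    · exact hψ q
  have hb : ∀ q, ψ' q ≤ Real.exp (-1) := fun q => by
    simp only [hψ']; split_ifs
    · exact min_le_right _ _
    · exact (Real.exp_pos _).le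
  have hd : ¬ Summable (wD δ ψ') := by
    intro hs
    apply hdiv
    obtain hfin : {q : ℕ | 1 / 2 < ψ q}.Finite := Set.not_infinite.1 hbig
    refine (((hs.mul_left 2)).add (summable_of_ne_finset_zero (s := hfin.toFinset)
      (f := fun q => ({q : ℕ | 1 / 2 < ψ q}).indicator (wD δ ψ) q) fun q hq =>
        Set.indicator_of_notMem (fun h => hq (hfin.mem_toFinset.2 h)) _)).of_nonneg_of_le
      (wD_nonneg hδ' hψ) fun q => ?_
    by_cases hq : ψ q ≤ 1 / 2
    swap
    · rw [Set.indicator_of_mem (show q ∈ {q : ℕ | 1 / 2 < ψ q} from not_le.1 hq)]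
      linarith [wD_nonneg hδ' h0 q]
    rw [Set.indicator_of_notMem (show q ∉ {q : ℕ | 1 / 2 < ψ q} from not_lt.2 hq), add_zero]
    have he : ψ' q = min (ψ q) (Real.exp (-1)) := if_pos hq
    rcases le_or_gt (ψ q) (Real.exp (-1)) with h | h
    · have hh : ψ' q = ψ q := by rw [he, min_eq_left h]
      have : wD δ ψ' q = wD δ ψ q := by simp only [wD, lossD, mu, hh]
      rw [this]
      linarith [wD_nonneg hδ' hψ q]
    · have hh : ψ' q = Real.exp (-1) := by rw [he, min_eq_right h.le]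
      have hlog : lossD δ ψ' q = lossD δ ψ q := by
        have := Real.log_le_log (Real.exp_pos _) h.le
        rw [Real.log_exp] at this
        simp only [lossD, hh, Real.log_exp, neg_neg, max_self]
        rw [max_eq_left (by linarith)]
      have hmu : mu ψ q ≤ 2 * mu ψ' q := by
        simp only [mu, hh]
        rw [mul_left_comm]
        refine mul_le_mul_of_nonneg_left (hq.trans ?_) (th_nonneg q)
        rw [Real.exp_neg]
        have h3 : (1 / 4 : ℝ) ≤ (Real.exp 1)⁻¹ := by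
          rw [one_div]
          exact inv_anti₀ (Real.exp_pos _) (by linarith [Real.exp_one_lt_d9])
        linarith
      simp only [wD, hlog]
      rw [← mul_div_assoc]
      exact div_le_div_of_nonneg_right hmu (le_trans zero_le_one (one_le_lossD hδ' ψ q))
  filter_upwards [extra_core γ μ c δ hγ hδ ψ' h0 hb hd] with x hx
  exact hx.mono fun q hq => ⟨hq.1, hq.2.trans_le (hle q)⟩

end Vale.Agent.P028X
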