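import Vale.Agent.P028X.TopCount

/-! P028X module TOP, counting: the bound for tuples with equal products. -/

namespace Vale.Agent.P028X

open Finset Vale.Agent.P028

namespace TopAux

lemma succ_pow_le (m : ℕ) :
    ∃ C : ℝ, 0 ≤ C ∧ ∀ L : ℕ, ((L : ℝ) + 1) ^ m ≤ C * (2 : ℝ) ^ ((L : ℝ) / 2) := by
  set a : ℝ := 1 / (2 * ((m : ℝ) + 1)) with ha
  have ha0 : 0 < a := by positivity
  have hl : 0 < Real.log 2 := Real.log_pos one_lt_two
  set D := (2 : ℝ) ^ a / (a * Real.log 2) with hD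
  refine ⟨D ^ m, by positivity, fun L => ?_⟩
  have h1 : (L : ℝ) + 1 ≤ D * (2 : ℝ) ^ ((L : ℝ) * a) := by
    rw [hD, div_mul_eq_mul_div, le_div_iff₀ (by positivity), ← Real.rpow_add two_pos,
      Real.rpow_def_of_pos two_pos]
    calc ((L : ℝ) + 1) * (a * Real.log 2) ≤ Real.exp (((L : ℝ) + 1) * (a * Real.log 2)) := by
          linarith [Real.add_one_le_exp (((L : ℝ) + 1) * (a * Real.log 2))]
      _ = _ := by congr 1; ring
  calc ((L : ℝ) + 1) ^ m ≤ (D * (2 : ℝ) ^ ((L : ℝ) * a)) ^ m := by gcongr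
    _ = D ^ m * (2 : ℝ) ^ ((L : ℝ) * a * m) := by
        rw [mul_pow, ← Real.rpow_natCast ((2 : ℝ) ^ _), ← Real.rpow_mul two_pos.le]
    _ ≤ _ := by
        refine mul_le_mul_of_nonneg_left (Real.rpow_le_rpow_of_exponent_le one_le_two ?_)
          (by positivity)
        rw [mul_assoc, div_eq_mul_inv (L : ℝ)]
        refine mul_le_mul_of_nonneg_left ?_ (Nat.cast_nonneg _)
        rw [ha, div_mul_eq_mul_div, one_mul, div_le_iff₀ (by positivity)]
        linarith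

lemma two_pow_real (m : ℕ) : ((2 ^ m : ℕ) : ℝ) = (2 : ℝ) ^ (m : ℝ) := by
  rw [Real.rpow_natCast]; norm_num

/-- Few multiples of `γ` up to `2 ^ (n + L)` are within `2 η` of an integer. -/
def Sparse (γ θ D0 : ℝ) (n L : ℕ) (η : ℝ) : Prop :=
  ∀ N : ℕ, (N : ℝ) ≤ (2 : ℝ) ^ n * (2 : ℝ) ^ (L : ℝ) →
    (((Icc 1 N).filter fun m : ℕ => distInt ((m : ℝ) * γ) < 2 * η).card : ℝ)
      ≤ (2 : ℝ) ^ n * (D0 * ((2 : ℝ) ^ (L : ℝ) * (2 : ℝ) ^ (-(θ * L))))

/-- A Diophantine shift is sparse at every scale. -/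
lemma sparse_dioph {γ μ c ρ K : ℝ} (h : Dioph γ μ c) (hK : 0 < K) {n L : ℕ} {η : ℝ} (hη : 0 < η)
    (hηK : η ≤ K * (2 : ℝ) ^ (-(ρ * L))) :
    Sparse γ (ρ / μ) ((4 * K / c) ^ (1 / μ)) n L η := by
  obtain ⟨hμ, hc, -⟩ := id h
  intro N hN
  refine (near_count h N (by linarith : 0 < 2 * η)).trans ?_
  have h3 : (2 * (2 * η) / c) ^ (1 / μ)
      ≤ (4 * K / c) ^ (1 / μ) * (2 : ℝ) ^ (-(ρ / μ * L)) := by
    calc (2 * (2 * η) / c) ^ (1 / μ)
        ≤ (4 * K / c * (2 : ℝ) ^ (-(ρ * L))) ^ (1 / μ) := by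
          refine Real.rpow_le_rpow (by positivity) ?_ (by positivity)
          rw [div_mul_eq_mul_div]
          exact div_le_div_of_nonneg_right (by linarith) hc.le
      _ = _ := by
          rw [Real.mul_rpow (by positivity) (by positivity), ← Real.rpow_mul two_pos.le]
          congr 2
          ring
  calc (N : ℝ) * (2 * (2 * η) / c) ^ (1 / μ)
      ≤ ((2 : ℝ) ^ n * (2 : ℝ) ^ (L : ℝ)) * ((4 * K / c) ^ (1 / μ) * (2 : ℝ) ^ (-(ρ / μ * L))) :=
        mul_le_mul hN h3 (by positivity) (by positivity)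
    _ = _ := by ring

variable {ι : Type*} [Fintype ι] [DecidableEq ι]

/-- The bound of one box. -/
lemma box_real {θ D0 : ℝ} (hθ : 0 < θ) (hθ1 : θ ≤ 1) (hD00 : 0 ≤ D0) :
    ∃ C : ℝ, 0 ≤ C ∧ ∀ (γ η : ℝ) (e : ι → ℕ) (L : ℕ) (T : Finset ι) (k : ι → ι → ℕ),
      Sparse γ θ D0 (Fintype.card ι) L η → (∀ i, e i ≤ L) → (∀ i ∈ T, e i = L) →
      (∀ i, k i i = 0) → (∀ i, ∑ j, k i j ≤ e i) →
      (∀ i ∈ T, L ≤ ∑ j, k i j + Fintype.card ι) →
      ∃ S : Finset ι,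
      (((Fintype.piFinset fun i => rbox (k i)).filter fun a => ∀ i ∈ T ∩ S,
          distInt (γ * (((∏ j, a i j : ℕ) : ℝ) - ((∏ l, a l i : ℕ) : ℝ))) < η).card : ℝ)
        ≤ C * (2 : ℝ) ^ ((∑ i, e i : ℕ) : ℝ)
          * (2 : ℝ) ^ ((1 / 2 - θ * T.card / 4) * L) := by
  classical
  set n := Fintype.card ι with hn
  set δ : ℝ := 1 / (2 * ((n : ℝ) * (2 * n + 1) + 1)) with hδ
  have hδ0 : 0 < δ := by positivity
  obtain ⟨Cd, hCd⟩ := card_divisors_le δ hδ0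
  set Cd' := max Cd 1 with hCd'
  have hCd1 : 1 ≤ Cd' := le_max_right _ _
  set Rc : ℝ := (2 : ℝ) ^ n * (1 + D0) with hRc
  refine ⟨(Rc * Cd' ^ (2 * n + 1)) ^ n * (2 : ℝ) ^ ((n : ℝ) + (n : ℝ) * n), by positivity,
    fun γ η e L T k hsp heL heT hdiag hk hkT => ?_⟩
  obtain ⟨S, hS⟩ := exists_split T k
  refine ⟨S, ?_⟩
  set H := T ∩ S with hH
  set Tn : ℕ := max 1 ((Icc 1 (2 ^ (L + n))).sup fun D : ℕ => D.divisors.card) with hTn
  have hTn1 : 1 ≤ Tn := le_max_left _ _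
  have hTnR : (Tn : ℝ) ≤ Cd' * (2 : ℝ) ^ (((L : ℝ) + n) * δ) := by
    have h1 : (1 : ℝ) ≤ (2 : ℝ) ^ (((L : ℝ) + n) * δ) :=
      Real.one_le_rpow one_le_two (by positivity)
    have h2 : ∀ D ∈ Icc 1 (2 ^ (L + n)),
        (D.divisors.card : ℝ) ≤ Cd' * (2 : ℝ) ^ (((L : ℝ) + n) * δ) := by
      intro D hD
      obtain ⟨hD1, hD2⟩ := mem_Icc.1 hD
      refine (hCd D hD1).trans ((mul_le_mul_of_nonneg_right (le_max_left _ 1)
        (Real.rpow_nonneg (Nat.cast_nonneg D) _)).trans ?_)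
      refine mul_le_mul_of_nonneg_left ?_ (by linarith)
      rw [Real.rpow_mul two_pos.le, ← Nat.cast_add, ← two_pow_real]
      exact Real.rpow_le_rpow (Nat.cast_nonneg _) (by exact_mod_cast hD2) hδ0.le
    obtain ⟨D, hD, hDeq⟩ := exists_mem_eq_sup _ (nonempty_Icc.2 Nat.one_le_two_pow)
      (fun D : ℕ => D.divisors.card)
    rw [hTn, hDeq, Nat.cast_max, Nat.cast_one]
    exact max_le (by nlinarith) (h2 D hD)
  have hbox := box_count γ η S H inter_subset_right k Tn (fun i hi D hD1 hD2 => by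
    refine le_trans ?_ (le_max_right _ _)
    refine le_sup (f := fun D : ℕ => D.divisors.card) (mem_Icc.2 ⟨hD1, hD2.trans ?_⟩)
    refine Nat.pow_le_pow_right two_pos ?_
    simp only [sum_add_distrib, sum_const, card_univ, smul_eq_mul, mul_one]
    exact Nat.add_le_add_right ((hk i).trans (heL i)) _)
  set Kw : ι → ℕ := fun i => ∑ j ∈ univ \ S, k i j with hKw
  set R : ℝ := (2 : ℝ) ^ n * (1 + D0) * (Tn : ℝ) ^ (2 * n + 1) with hR
  have hR1 : 1 ≤ R := by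
    have h1 : (1 : ℝ) ≤ (2 : ℝ) ^ n := one_le_pow₀ one_le_two
    have h2 : (1 : ℝ) ≤ (Tn : ℝ) ^ (2 * n + 1) := one_le_pow₀ (by exact_mod_cast hTn1)
    exact one_le_mul_of_one_le_of_one_le (one_le_mul_of_one_le_of_one_le h1 (by linarith)) h2
  have hrow : ∀ i, ((if i ∈ H then Tn ^ (2 * n) * (2 ^ (∑ j ∈ S, (k i j + 1)) +
          Tn * ((Icc 1 (2 ^ ∑ j, (k i j + 1))).filter
            fun m : ℕ => distInt ((m : ℝ) * γ) < 2 * η).card) else 2 ^ ∑ j, k i j : ℕ) : ℝ)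
      ≤ R * (2 : ℝ) ^ (e i : ℝ) * (if i ∈ H then (2 : ℝ) ^ (-(θ * Kw i)) else 1) := by
    intro i
    split_ifs with hi
    · have heiL : e i = L := heT i (mem_inter.1 hi).1
      have hKL : Kw i ≤ ∑ j, k i j := sum_le_sum_of_subset sdiff_subset
      have hKL' : (Kw i : ℝ) ≤ L := by exact_mod_cast hKL.trans ((hk i).trans (heL i))
      set N := 2 ^ ∑ j, (k i j + 1) with hN
      have hNle : (N : ℝ) ≤ (2 : ℝ) ^ n * (2 : ℝ) ^ (L : ℝ) := by
        rw [← two_pow_real, ← Nat.cast_ofNat, ← Nat.cast_pow, ← Nat.cast_mul, hN]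
        refine Nat.cast_le.2 ?_
        rw [← pow_add]
        refine Nat.pow_le_pow_right two_pos ?_
        simp only [sum_add_distrib, sum_const, card_univ, smul_eq_mul, mul_one]
        have := (hk i).trans (heL i)
        omega
      have h1 : ((2 ^ (∑ j ∈ S, (k i j + 1)) : ℕ) : ℝ)
          ≤ (2 : ℝ) ^ n * ((2 : ℝ) ^ (L : ℝ) * (2 : ℝ) ^ (-(θ * Kw i))) := by
        rw [← Real.rpow_natCast 2 n, ← Real.rpow_add two_pos, ← Real.rpow_add two_pos, two_pow_real]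
        refine Real.rpow_le_rpow_of_exponent_le one_le_two ?_
        have hcs : S.card ≤ n := card_le_univ S
        have hsp : ∑ j ∈ S, (k i j + 1) + Kw i ≤ L + n := by
          have e1 : ∑ j ∈ univ \ S, k i j + ∑ j ∈ S, k i j = ∑ j, k i j :=
            sum_sdiff (subset_univ S)
          have := (hk i).trans (heL i)
          simp only [sum_add_distrib, sum_const, smul_eq_mul, mul_one, hKw]
          omega
        have hsp' : ((∑ j ∈ S, (k i j + 1) : ℕ) : ℝ) + Kw i ≤ L + n := by exact_mod_cast hsp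
        have hθK : θ * (Kw i : ℝ) ≤ Kw i := mul_le_of_le_one_left (Nat.cast_nonneg _) hθ1
        linarith
      have h2 : (((Icc 1 N).filter fun m : ℕ => distInt ((m : ℝ) * γ) < 2 * η).card : ℝ)
          ≤ (2 : ℝ) ^ n * (D0 * ((2 : ℝ) ^ (L : ℝ) * (2 : ℝ) ^ (-(θ * Kw i)))) := by
        refine (hsp N hNle).trans ?_
        gcongr
        norm_num
      rw [heiL, Nat.cast_mul, Nat.cast_add, Nat.cast_mul (Tn), Nat.cast_pow (Tn)]
      set Y := (2 : ℝ) ^ (L : ℝ) * (2 : ℝ) ^ (-(θ * Kw i))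
      have hT1 : (1 : ℝ) ≤ Tn := by exact_mod_cast hTn1
      calc (Tn : ℝ) ^ (2 * n) * (((2 ^ (∑ j ∈ S, (k i j + 1)) : ℕ) : ℝ) + (Tn : ℝ) *
            (((Icc 1 N).filter fun m : ℕ => distInt ((m : ℝ) * γ) < 2 * η).card : ℝ))
          ≤ (Tn : ℝ) ^ (2 * n) * ((Tn : ℝ) * ((2 : ℝ) ^ n * Y) + (Tn : ℝ) *
              ((2 : ℝ) ^ n * (D0 * Y))) := by
            have hY : 0 ≤ (2 : ℝ) ^ n * Y := by positivity
            gcongr
            exact h1.trans (le_mul_of_one_le_left hY hT1)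
        _ = _ := by rw [hR, pow_succ]; ring
    · rw [mul_one, two_pow_real]
      refine le_trans ?_ (le_mul_of_one_le_left (by positivity) hR1)
      exact Real.rpow_le_rpow_of_exponent_le one_le_two (by exact_mod_cast hk i)
  have hsumK : (T.card : ℝ) * L ≤ 4 * (∑ i ∈ H, (Kw i : ℝ)) + (n : ℝ) * n := by
    have h1 : ∑ _i ∈ T, L ≤ ∑ i ∈ T, (∑ j ∈ univ.erase i, k i j + n) := by
      refine sum_le_sum fun i hi => ?_
      rw [sum_erase _ (hdiag i)]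
      exact hkT i hi
    rw [sum_add_distrib, sum_const, smul_eq_mul, sum_const, smul_eq_mul] at h1
    have h3 : T.card * n ≤ n * n := Nat.mul_le_mul_right _ (card_le_univ T)
    have h4 : T.card * L ≤ 4 * ∑ i ∈ H, Kw i + n * n := by
      have hS' : ∑ i ∈ T, ∑ j ∈ univ.erase i, k i j ≤ 4 * ∑ i ∈ H, Kw i := hS
      omega
    exact_mod_cast h4
  calc _ ≤ ((∏ i, if i ∈ H then Tn ^ (2 * n) * (2 ^ (∑ j ∈ S, (k i j + 1)) +
          Tn * ((Icc 1 (2 ^ ∑ j, (k i j + 1))).filter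
            fun m : ℕ => distInt ((m : ℝ) * γ) < 2 * η).card) else 2 ^ ∑ j, k i j : ℕ) : ℝ) :=
        Nat.cast_le.2 hbox
    _ ≤ ∏ i, R * (2 : ℝ) ^ (e i : ℝ) * (if i ∈ H then (2 : ℝ) ^ (-(θ * Kw i)) else 1) := by
        rw [Nat.cast_prod]
        exact prod_le_prod (fun i _ => Nat.cast_nonneg _) fun i _ => hrow i
    _ = R ^ n * (2 : ℝ) ^ ((∑ i, e i : ℕ) : ℝ) * (2 : ℝ) ^ (-(θ * ∑ i ∈ H, (Kw i : ℝ))) := by
        rw [prod_mul_distrib, prod_mul_distrib, prod_const, card_univ, Nat.cast_sum,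
          Real.rpow_sum_of_pos two_pos, ← prod_filter, filter_mem_eq_inter, univ_inter, mul_sum,
          ← sum_neg_distrib, Real.rpow_sum_of_pos two_pos]
    _ ≤ _ := by
        have hRn : R ^ n ≤ (Rc * Cd' ^ (2 * n + 1)) ^ n
            * (2 : ℝ) ^ (((L : ℝ) + n) * δ * ((2 * n + 1) * n : ℕ)) := by
          calc R ^ n ≤ (Rc * (Cd' * (2 : ℝ) ^ (((L : ℝ) + n) * δ)) ^ (2 * n + 1)) ^ n := by
                rw [hR, hRc]; gcongr
            _ = _ := by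
                rw [mul_pow Cd', ← mul_assoc, mul_pow, ← pow_mul,
                  ← Real.rpow_natCast ((2 : ℝ) ^ _), ← Real.rpow_mul two_pos.le]
        have hexp : ((L : ℝ) + n) * δ * ((2 * n + 1) * n : ℕ) - θ * ∑ i ∈ H, (Kw i : ℝ)
            ≤ (n : ℝ) + (n : ℝ) * n + (1 / 2 - θ * T.card / 4) * L := by
          have h1 : δ * ((2 * n + 1) * n : ℕ) ≤ 1 / 2 := by
            rw [hδ, div_mul_eq_mul_div, div_le_iff₀ (by positivity)]
            push_cast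
            nlinarith
          have h2 : ((L : ℝ) + n) * (δ * ((2 * n + 1) * n : ℕ)) ≤ ((L : ℝ) + n) * (1 / 2) :=
            mul_le_mul_of_nonneg_left h1 (by positivity)
          have h3 := mul_le_mul_of_nonneg_left hsumK hθ.le
          have h4 : θ * ((n : ℝ) * n) ≤ (n : ℝ) * n := mul_le_of_le_one_left (by positivity) hθ1
          have h5 : (0 : ℝ) ≤ n := Nat.cast_nonneg n
          have h6 : (0 : ℝ) ≤ (n : ℝ) * n := mul_nonneg h5 h5
          linarith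
        calc R ^ n * (2 : ℝ) ^ ((∑ i, e i : ℕ) : ℝ) * (2 : ℝ) ^ (-(θ * ∑ i ∈ H, (Kw i : ℝ)))
            ≤ (Rc * Cd' ^ (2 * n + 1)) ^ n
                * (2 : ℝ) ^ (((L : ℝ) + n) * δ * ((2 * n + 1) * n : ℕ))
                * (2 : ℝ) ^ ((∑ i, e i : ℕ) : ℝ)
                * (2 : ℝ) ^ (-(θ * ∑ i ∈ H, (Kw i : ℝ))) := by gcongr
          _ = (Rc * Cd' ^ (2 * n + 1)) ^ n * (2 : ℝ) ^ ((∑ i, e i : ℕ) : ℝ)
                * (2 : ℝ) ^ (((L : ℝ) + n) * δ * ((2 * n + 1) * n : ℕ)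
                    - θ * ∑ i ∈ H, (Kw i : ℝ)) := by
              rw [sub_eq_add_neg, Real.rpow_add two_pos]; ring
          _ ≤ (Rc * Cd' ^ (2 * n + 1)) ^ n * (2 : ℝ) ^ ((∑ i, e i : ℕ) : ℝ)
                * (2 : ℝ) ^ ((n : ℝ) + (n : ℝ) * n + (1 / 2 - θ * T.card / 4) * L) :=
              mul_le_mul_of_nonneg_left (Real.rpow_le_rpow_of_exponent_le one_le_two hexp)
                (by positivity)
          _ = _ := by rw [Real.rpow_add two_pos]; ring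

/-- Tuples with equal products, coprime coordinates and hits on `T`. -/
theorem tuple_count {θ D0 : ℝ} (hθ : 0 < θ) (hθ1 : θ ≤ 1) (hD00 : 0 ≤ D0) :
    ∃ C : ℝ, 0 ≤ C ∧ ∀ (γ η : ℝ) (e : ι → ℕ) (L : ℕ) (T : Finset ι)
      (P : Finset ((ι → ℕ) × (ι → ℕ))),
      Sparse γ θ D0 (Fintype.card ι) L η → (∀ i, e i ≤ L) → (∀ i ∈ T, e i = L) →
      (∀ p ∈ P, ∏ i, p.1 i = ∏ i, p.2 i ∧
        (∀ i, 0 < p.1 i ∧ p.1 i < 2 ^ (e i + 1) ∧ 0 < p.2 i ∧ Nat.Coprime (p.1 i) (p.2 i)) ∧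
        ∀ i ∈ T, 2 ^ L ≤ p.1 i ∧ distInt (γ * ((p.1 i : ℝ) - (p.2 i : ℝ))) < η) →
      (P.card : ℝ) ≤ C * (2 : ℝ) ^ ((∑ i, e i : ℕ) : ℝ)
          * (2 : ℝ) ^ ((1 - θ * T.card / 4) * L) := by
  classical
  obtain ⟨Cb, hCb0, hCb⟩ := box_real (ι := ι) hθ hθ1 hD00
  set n := Fintype.card ι with hn
  obtain ⟨Cp, hCp0, hCp⟩ := succ_pow_le (n * n)
  refine ⟨Cp * Cb, mul_nonneg hCp0 hCb0, fun γ η e L T P hsp heL heT hP => ?_⟩
  have hex : ∀ p ∈ P, ∃ a : ι → ι → ℕ,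
      (∀ i, ∏ j, a i j = p.1 i) ∧ ∀ j, ∏ i, a i j = p.2 j := by
    intro p hp
    obtain ⟨h1, h2, -⟩ := hP p hp
    obtain ⟨a, ha1, ha2⟩ :=
      refine_prod univ p.1 p.2 (fun i => (h2 i).1) (fun i => (h2 i).2.2.1) h1
    exact ⟨a, fun i => ha1 i (mem_univ i), ha2⟩
  choose! A hA1 hA2 using hex
  set kk : (ι → ℕ) × (ι → ℕ) → ι → ι → ℕ := fun p i j => Nat.log 2 (A p i j) with hkk
  have hpos : ∀ p ∈ P, ∀ i j, 0 < A p i j := by
    intro p hp i j
    refine Nat.pos_of_ne_zero fun h0 => ?_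
    have := ((hP p hp).2.1 i).1
    rw [← hA1 p hp i, prod_eq_zero (mem_univ j) h0] at this
    exact lt_irrefl _ this
  have hmem : ∀ p ∈ P, A p ∈ Fintype.piFinset fun i => rbox (kk p i) := by
    intro p hp
    exact Fintype.mem_piFinset.2 fun i => Fintype.mem_piFinset.2 fun j => mem_Ico.2
      ⟨Nat.pow_log_le_self 2 (hpos p hp i j).ne', Nat.lt_pow_succ_log_self one_lt_two _⟩
  have hdiag : ∀ p ∈ P, ∀ i, kk p i i = 0 := by
    intro p hp i
    have h1 : A p i i ∣ p.1 i := hA1 p hp i ▸ dvd_prod_of_mem _ (mem_univ i)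
    have h2 : A p i i ∣ p.2 i := hA2 p hp i ▸ dvd_prod_of_mem (fun l => A p l i) (mem_univ i)
    have := Nat.eq_one_of_dvd_coprimes ((hP p hp).2.1 i).2.2.2 h1 h2
    simp [hkk, this]
  have hsum : ∀ p ∈ P, ∀ i, ∑ j, kk p i j ≤ e i := by
    intro p hp i
    have h1 : 2 ^ ∑ j, kk p i j ≤ p.1 i := by
      rw [← hA1 p hp i, ← prod_pow_eq_pow_sum]
      exact prod_le_prod' fun j _ => Nat.pow_log_le_self 2 (hpos p hp i j).ne'
    exact Nat.lt_succ_iff.1 ((Nat.pow_lt_pow_iff_right one_lt_two).1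
      (h1.trans_lt ((hP p hp).2.1 i).2.1))
  have hsumT : ∀ p ∈ P, ∀ i ∈ T, L ≤ ∑ j, kk p i j + n := by
    intro p hp i hi
    have h1 : p.1 i ≤ 2 ^ (∑ j, kk p i j + n) := by
      rw [← hA1 p hp i, hn, ← card_univ, card_eq_sum_ones, ← sum_add_distrib,
        ← prod_pow_eq_pow_sum]
      exact prod_le_prod' fun j _ => (Nat.lt_pow_succ_log_self one_lt_two _).le
    exact (Nat.pow_le_pow_iff_right one_lt_two).1 (((hP p hp).2.2 i hi).1.trans h1)
  set Ks := Fintype.piFinset fun _ : ι => Fintype.piFinset fun _ : ι => range (L + 1)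
  have hKs : ∀ p ∈ P, kk p ∈ Ks := fun p hp =>
    Fintype.mem_piFinset.2 fun i => Fintype.mem_piFinset.2 fun j => mem_range.2 <|
      Nat.lt_succ_of_le ((single_le_sum (fun j _ => Nat.zero_le (kk p i j)) (mem_univ j)).trans
        ((hsum p hp i).trans (heL i)))
  set B := Cb * (2 : ℝ) ^ ((∑ i, e i : ℕ) : ℝ) * (2 : ℝ) ^ ((1 / 2 - θ * T.card / 4) * L)
    with hB
  have hfib : ∀ k ∈ Ks, ((P.filter fun p => kk p = k).card : ℝ) ≤ B := by
    intro k _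
    rcases (P.filter fun p => kk p = k).eq_empty_or_nonempty with h0 | ⟨p0, hp0⟩
    · rw [h0, card_empty, Nat.cast_zero]
      positivity
    obtain ⟨hp0P, hpk0⟩ := mem_filter.1 hp0
    subst hpk0
    obtain ⟨S, hS⟩ := hCb γ η e L T (kk p0) hsp heL heT (hdiag p0 hp0P) (hsum p0 hp0P)
      (hsumT p0 hp0P)
    refine le_trans (Nat.cast_le.2 (Finset.card_le_card_of_injOn A ?_ ?_)) hS
    · intro p hp
      obtain ⟨hpP, hpk⟩ := mem_filter.1 hp
      refine mem_coe.2 (mem_filter.2 ⟨hpk ▸ hmem p hpP, fun i hi => ?_⟩)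
      rw [hA1 p hpP i, hA2 p hpP i]
      exact ((hP p hpP).2.2 i (mem_inter.1 hi).1).2
    · intro p hp p' hp' he
      have hpP := (mem_filter.1 hp).1
      have hpP' := (mem_filter.1 hp').1
      refine Prod.ext (funext fun i => ?_) (funext fun i => ?_)
      · rw [← hA1 p hpP i, ← hA1 p' hpP' i, he]
      · rw [← hA2 p hpP i, ← hA2 p' hpP' i, he]
  have hKcard : (Ks.card : ℝ) ≤ Cp * (2 : ℝ) ^ ((L : ℝ) / 2) := by
    refine le_trans (le_of_eq ?_) (hCp L)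
    simp only [Ks, Fintype.card_piFinset, prod_const, card_range, card_univ, ← pow_mul]
    push_cast
    rfl
  calc (P.card : ℝ) = ∑ k ∈ Ks, ((P.filter fun p => kk p = k).card : ℝ) := by
        exact_mod_cast card_eq_sum_card_fiberwise hKs
    _ ≤ ∑ _k ∈ Ks, B := sum_le_sum hfib
    _ = Ks.card * B := by rw [sum_const, nsmul_eq_mul]
    _ ≤ Cp * (2 : ℝ) ^ ((L : ℝ) / 2) * B := mul_le_mul_of_nonneg_right hKcard (by positivity)
    _ = _ := by
        rw [hB, show (1 - θ * (T.card : ℝ) / 4) * L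
          = (L : ℝ) / 2 + (1 / 2 - θ * T.card / 4) * L by ring, Real.rpow_add two_pos]
        ring

end TopAux

end Vale.Agent.P028X
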