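import Vale.Agent.P028.DensityAux

/-! P028X module BILINEAR: the prime-by-prime bilinear bound of `P028/Bilinear.lean`, with the
exponent excess `ε` as a parameter. -/

namespace Vale.Agent.P028X

open Finset Vale.Agent.P028

/-- The range of the parameter. -/
def Small (ε : ℝ) : Prop := 0 < ε ∧ ε ≤ 1 / 100000

/-- `1/2 + ε`. -/
noncomputable def aX (ε : ℝ) : ℝ := 1 / 2 + ε

/-- `1/2 - ε - ε/4`. -/
noncomputable def tX (ε : ℝ) : ℝ := 1 / 2 - ε - ε / 4

lemma aX_pos {ε : ℝ} (hε : Small ε) : 0 < aX ε := by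
  obtain ⟨h1, h2⟩ := hε; unfold aX; linarith

/-- The estimate required for good states. -/
def FinalX (ε : ℝ) (p0 : ℕ) (μ : ℕ → ℝ) (G : ℕ → ℕ → ℝ) (δ : ℝ) (S : Finset ℕ) : Prop :=
  ∀ (P V W : Finset ℕ) (k : ℕ → ℕ) (c d : ℕ), V ⊆ S → W ⊆ S →
    (∀ p ∈ P, p.Prime ∧ p0 ≤ p) → IsState P V W c d →
    pairSum μ (goodG P k G) V W
      ≤ δ * ((c * d : ℕ) : ℝ) ^ (-tX ε) * (msum μ V * msum μ W) ^ aX ε

set_option linter.unusedSectionVars false
set_option linter.unusedSimpArgs false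

variable {ε : ℝ} (hε : Small ε)
include hε

/-- The loss of one split: `∑ r^|i-j| (m i * n j)^a`. -/
noncomputable def wsumX (ε r : ℝ) (T : Finset (ℕ × ℕ)) (m n : ℕ → ℝ) : ℝ :=
  ∑ z ∈ T, r ^ ((z.1 - z.2) + (z.2 - z.1)) * (m z.1 * n z.2) ^ (aX ε)

lemma sum_fiberX_le {r : ℝ} {T : Finset (ℕ × ℕ)} {m n : ℕ → ℝ} {B : ℝ}
    (hr0 : 0 ≤ r) (hB : ∀ d : ℤ, ∑ z ∈ T.filter (fun z => (z.2 : ℤ) - z.1 = d),
      (m z.1 * n z.2) ^ (aX ε) ≤ B) :
    wsumX ε r T m n ≤ (∑ d ∈ T.image (fun z => (z.2 : ℤ) - z.1), r ^ d.natAbs) * B := by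
  unfold wsumX
  rw [← Finset.sum_fiberwise_of_maps_to (g := fun z : ℕ × ℕ => (z.2 : ℤ) - z.1)
    (t := T.image fun z => (z.2 : ℤ) - z.1) (fun z hz => Finset.mem_image_of_mem _ hz),
    Finset.sum_mul]
  refine Finset.sum_le_sum fun d _ => ?_
  refine le_trans (le_of_eq ?_) (mul_le_mul_of_nonneg_left (hB d) (pow_nonneg hr0 _))
  rw [Finset.mul_sum]
  refine Finset.sum_congr rfl fun z hz => ?_
  have := (Finset.mem_filter.1 hz).2
  congr 2
  omega

lemma sum_rpowX_le_of_sqrt {ι : Type*} (s : Finset ι) (f : ι → ℝ) (hf : ∀ i ∈ s, 0 ≤ f i) {B : ℝ}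
    (hB0 : 0 ≤ B) (hB : ∑ i ∈ s, √(f i) ≤ √B) : ∑ i ∈ s, f i ^ (aX ε) ≤ B ^ (aX ε) := by
  have hsplit : ∀ x : ℝ, 0 ≤ x → x ^ (aX ε) = x ^ ε * √x := by
    intro x hx
    rw [Real.sqrt_eq_rpow, ← Real.rpow_add' hx (by (have h1 := hε.1; have h2 := hε.2; norm_num [aX, tX]; all_goals first | linarith | exact ne_of_gt (by linarith)))]
    congr 1
    (have h1 := hε.1; have h2 := hε.2; norm_num [aX, tX]; all_goals first | linarith | exact ne_of_gt (by linarith))
  have hle : ∀ i ∈ s, f i ≤ B := by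
    intro i hi
    have := (Finset.single_le_sum (f := fun j => √(f j)) (fun j _ => Real.sqrt_nonneg _) hi).trans hB
    exact (Real.sqrt_le_sqrt_iff hB0).1 this
  calc ∑ i ∈ s, f i ^ (aX ε) ≤ ∑ i ∈ s, B ^ ε * √(f i) := by
        refine Finset.sum_le_sum fun i hi => ?_
        rw [hsplit _ (hf i hi)]
        exact mul_le_mul_of_nonneg_right (Real.rpow_le_rpow (hf i hi) (hle i hi) hε.1.le)
          (Real.sqrt_nonneg _)
    _ ≤ B ^ ε * √B := by
        rw [← Finset.mul_sum]
        exact mul_le_mul_of_nonneg_left hB (Real.rpow_nonneg hB0 _)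
    _ = _ := (hsplit B hB0).symm

lemma wsumX_le {r : ℝ} (hr0 : 0 ≤ r) {I : Finset ℕ} {T : Finset (ℕ × ℕ)} (hT : T ⊆ I ×ˢ I)
    {m n : ℕ → ℝ} (hm : ∀ i, 0 ≤ m i) (hn : ∀ i, 0 ≤ n i) :
    wsumX ε r T m n ≤ (∑ d ∈ T.image (fun z => (z.2 : ℤ) - z.1), r ^ d.natAbs) *
      ((∑ i ∈ I, m i) * ∑ i ∈ I, n i) ^ (aX ε) :=
  sum_fiberX_le hε hr0 fun d => sum_rpowX_le_of_sqrt hε _ _ (fun _ _ => mul_nonneg (hm _) (hn _))
    (mul_nonneg (Finset.sum_nonneg fun i _ => hm i) (Finset.sum_nonneg fun i _ => hn i))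
    (sqrt_fiber_le hT hm hn d)

/-- If a split loses, the masses concentrate at one common exponent. -/
lemma concX {r : ℝ} (hr0 : 0 ≤ r) (hr : r ≤ 3 / 4) {I : Finset ℕ} {m n : ℕ → ℝ}
    (hm : ∀ i, 0 ≤ m i) (hn : ∀ i, 0 ≤ n i)
    (hbig : ((∑ i ∈ I, m i) * ∑ i ∈ I, n i) ^ (aX ε) < wsumX ε r (I ×ˢ I) m n) :
    ∃ k, wsumX ε r ((I.erase k) ×ˢ (I.erase k)) m n ≤
      9 * ((32 / ε * r) ^ (1 / (1 - (aX ε)))) ^ (2 * (aX ε)) *
        ((∑ i ∈ I, m i) * ∑ i ∈ I, n i) ^ (aX ε) := by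
  set M := ∑ i ∈ I, m i with hM
  set N := ∑ i ∈ I, n i with hN
  have hM0 : 0 ≤ M := Finset.sum_nonneg fun i _ => hm i
  have hN0 : 0 ≤ N := Finset.sum_nonneg fun i _ => hn i
  have hMN0 := mul_nonneg hM0 hN0
  have hMN : 0 < M * N := by
    rcases hMN0.lt_or_eq with h | h
    · exact h
    · exfalso
      have := wsumX_le hε hr0 (subset_refl (I ×ˢ I)) hm hn
      rw [← hM, ← hN, ← h, Real.zero_rpow (aX_pos hε).ne', mul_zero] at this
      rw [← h, Real.zero_rpow (aX_pos hε).ne'] at hbig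
      linarith
  have hMp : 0 < M := pos_of_mul_pos_left hMN hN0
  have hNp : 0 < N := pos_of_mul_pos_right hMN hM0
  have hne : I.Nonempty := by
    rcases I.eq_empty_or_nonempty with h | h
    · simp [hM, h] at hMp
    · exact h
  obtain ⟨k, hk, hmax⟩ := I.exists_max_image (fun i => m i * n i) hne
  refine ⟨k, ?_⟩
  have hmk : m k ≤ M := Finset.single_le_sum (fun i _ => hm i) hk
  have hnk : n k ≤ N := Finset.single_le_sum (fun i _ => hn i) hk
  set u := m k / M with hu
  set v := n k / N with hv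
  have hu0 : 0 ≤ u := div_nonneg (hm k) hM0
  have hv0 : 0 ≤ v := div_nonneg (hn k) hN0
  have hu1 : u ≤ 1 := (div_le_one hMp).2 hmk
  have hv1 : v ≤ 1 := (div_le_one hNp).2 hnk
  set Z := 1 - min u v with hZ
  have hZ0 : 0 ≤ Z := by rw [hZ]; linarith [min_le_left u v]
  have hZ1 : Z ≤ 1 := by rw [hZ]; linarith [le_min hu0 hv0]
  have hx : ∑ i ∈ I.erase k, m i ≤ Z * M := by
    have h := Finset.add_sum_erase I m hk
    have h' : (1 - u) * M ≤ Z * M :=
      mul_le_mul_of_nonneg_right (by rw [hZ]; linarith [min_le_left u v]) hM0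
    have : u * M = m k := by rw [hu]; field_simp
    linarith
  have hy : ∑ i ∈ I.erase k, n i ≤ Z * N := by
    have h := Finset.add_sum_erase I n hk
    have h' : (1 - v) * N ≤ Z * N :=
      mul_le_mul_of_nonneg_right (by rw [hZ]; linarith [min_le_right u v]) hN0
    have : v * N = n k := by rw [hv]; field_simp
    linarith
  -- bad pairs
  have hbad : wsumX ε r ((I.erase k) ×ˢ (I.erase k)) m n ≤ 9 * Z ^ (2 * (aX ε)) * (M * N) ^ (aX ε) := by
    refine (wsumX_le hε hr0 (subset_refl _) hm hn).trans ?_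
    calc _ ≤ 9 * ((Z * M) * (Z * N)) ^ (aX ε) := by
          refine mul_le_mul (geom_nine hr0 hr _) ?_
            (Real.rpow_nonneg (mul_nonneg (Finset.sum_nonneg fun i _ => hm i)
              (Finset.sum_nonneg fun i _ => hn i)) _) (by norm_num)
          exact Real.rpow_le_rpow (mul_nonneg (Finset.sum_nonneg fun i _ => hm i)
              (Finset.sum_nonneg fun i _ => hn i))
            (mul_le_mul hx hy (Finset.sum_nonneg fun i _ => hn i) (mul_nonneg hZ0 hM0)) (aX_pos hε).le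
      _ = _ := by
          rw [show Z * M * (Z * N) = Z * Z * (M * N) by ring,
            Real.mul_rpow (mul_nonneg hZ0 hZ0) hMN0, Real.mul_rpow hZ0 hZ0,
            ← Real.rpow_add' hZ0 (by have := (aX_pos hε); linarith), ← two_mul]
          ring
  -- diagonal
  have hdiag : wsumX ε r ((I ×ˢ I).filter fun z => z.1 = z.2) m n ≤ (1 - ε * Z) * (M * N) ^ (aX ε) := by
    set Td := (I ×ˢ I).filter fun z : ℕ × ℕ => z.1 = z.2
    have hsplit : ∀ x : ℝ, 0 ≤ x → x ^ (aX ε) = x ^ ε * √x := by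
      intro x hx
      rw [Real.sqrt_eq_rpow, ← Real.rpow_add' hx (by (have h1 := hε.1; have h2 := hε.2; norm_num [aX, tX]; all_goals first | linarith | exact ne_of_gt (by linarith)))]
      congr 1
      (have h1 := hε.1; have h2 := hε.2; norm_num [aX, tX]; all_goals first | linarith | exact ne_of_gt (by linarith))
    have hsq : ∑ z ∈ Td, √(m z.1 * n z.2) ≤ √(M * N) := by
      have h := sqrt_fiber_le (Finset.filter_subset (fun z : ℕ × ℕ => z.1 = z.2) (I ×ˢ I)) hm hn 0
      rwa [Finset.filter_true_of_mem (fun z hz => by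
        have := (Finset.mem_filter.1 hz).2; omega)] at h
    calc wsumX ε r Td m n = ∑ z ∈ Td, (m z.1 * n z.2) ^ ε * √(m z.1 * n z.2) := by
          refine Finset.sum_congr rfl fun z hz => ?_
          rw [(Finset.mem_filter.1 hz).2, Nat.sub_self, pow_zero, one_mul,
            hsplit _ (mul_nonneg (hm _) (hn _))]
      _ ≤ ∑ z ∈ Td, (m k * n k) ^ ε * √(m z.1 * n z.2) := by
          refine Finset.sum_le_sum fun z hz => mul_le_mul_of_nonneg_right
            (Real.rpow_le_rpow (mul_nonneg (hm _) (hn _)) ?_ hε.1.le) (Real.sqrt_nonneg _)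
          obtain ⟨hz1, hz2⟩ := Finset.mem_filter.1 hz
          rw [← hz2]
          exact hmax _ (Finset.mem_product.1 hz1).1
      _ ≤ (m k * n k) ^ ε * √(M * N) := by
          rw [← Finset.mul_sum]
          exact mul_le_mul_of_nonneg_left hsq (Real.rpow_nonneg (mul_nonneg (hm _) (hn _)) _)
      _ = (u * v) ^ ε * (M * N) ^ (aX ε) := by
          rw [hsplit _ hMN0, ← mul_assoc, ← Real.mul_rpow (mul_nonneg hu0 hv0) hMN0]
          congr 2
          rw [hu, hv]; field_simp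
      _ ≤ _ := by
          refine mul_le_mul_of_nonneg_right ?_ (Real.rpow_nonneg hMN0 _)
          calc (u * v) ^ ε ≤ (1 + -Z) ^ ε := by
                refine Real.rpow_le_rpow (mul_nonneg hu0 hv0) ?_ hε.1.le
                rw [hZ]
                rcases le_total u v with h | h
                · rw [min_eq_left h]; nlinarith
                · rw [min_eq_right h]; nlinarith
            _ ≤ 1 + ε * -Z := rpow_one_add_le_one_add_mul_self (by linarith) hε.1.le
                  (by (have h1 := hε.1; have h2 := hε.2; norm_num [aX, tX]; all_goals first | linarith | exact ne_of_gt (by linarith)))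
            _ = _ := by ring
  -- off the diagonal
  have hoff : wsumX ε r ((I ×ˢ I).filter fun z => ¬ z.1 = z.2) m n ≤
      32 * r * Z ^ (aX ε) * (M * N) ^ (aX ε) := by
    set To := (I ×ˢ I).filter fun z : ℕ × ℕ => ¬ z.1 = z.2
    have hTo : To ⊆ I ×ˢ I := Finset.filter_subset _ _
    let m' : ℕ → ℝ := fun i => if i = k then 0 else m i
    let n' : ℕ → ℝ := fun i => if i = k then 0 else n i
    have hm' : ∀ i, 0 ≤ m' i := fun i => by simp only [m']; split <;> simp [hm]
    have hn' : ∀ i, 0 ≤ n' i := fun i => by simp only [n']; split <;> simp [hn]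
    have hsm : ∑ i ∈ I, m' i ≤ Z * M := by
      rw [← Finset.add_sum_erase I m' hk]
      simp only [m', if_true, zero_add]
      rwa [Finset.sum_congr rfl fun i hi => if_neg (Finset.ne_of_mem_erase hi)]
    have hsn : ∑ i ∈ I, n' i ≤ Z * N := by
      rw [← Finset.add_sum_erase I n' hk]
      simp only [n', if_true, zero_add]
      rwa [Finset.sum_congr rfl fun i hi => if_neg (Finset.ne_of_mem_erase hi)]
    have hfib : ∀ d : ℤ, ∑ z ∈ To.filter (fun z => (z.2 : ℤ) - z.1 = d),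
        √(m z.1 * n z.2) ≤ √(4 * Z * (M * N)) := by
      intro d
      have h1 := (sqrt_fiber_le hTo hm' hn d).trans
        (Real.sqrt_le_sqrt (mul_le_mul_of_nonneg_right hsm hN0))
      have h2 := (sqrt_fiber_le hTo hm hn' d).trans
        (Real.sqrt_le_sqrt (mul_le_mul_of_nonneg_left hsn hM0))
      have h4 : √(4 * Z * (M * N)) = √(Z * M * N) + √(M * (Z * N)) := by
        rw [show 4 * Z * (M * N) = 2 ^ 2 * (Z * M * N) by ring, Real.sqrt_mul (by norm_num),
          Real.sqrt_sq (by norm_num), show M * (Z * N) = Z * M * N by ring]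
        ring
      rw [h4]
      refine le_trans ?_ (add_le_add h1 h2)
      rw [← Finset.sum_add_distrib]
      refine Finset.sum_le_sum fun z hz => ?_
      have hne : z.1 ≠ z.2 := (Finset.mem_filter.1 (Finset.mem_filter.1 hz).1).2
      by_cases h : z.1 = k
      · have : n' z.2 = n z.2 := if_neg (fun e => hne (h.trans e.symm))
        rw [this]
        exact le_add_of_nonneg_left (Real.sqrt_nonneg _)
      · have : m' z.1 = m z.1 := if_neg h
        rw [this]
        exact le_add_of_nonneg_right (Real.sqrt_nonneg _)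
    refine (sum_fiberX_le hε (B := (4 * Z * (M * N)) ^ (aX ε)) hr0 fun d =>
      sum_rpowX_le_of_sqrt hε _ _ (fun z _ => mul_nonneg (hm _) (hn _))
        (by positivity) (hfib d)).trans ?_
    have h0 : (0 : ℤ) ∉ To.image fun z => (z.2 : ℤ) - z.1 := by
      intro h
      obtain ⟨z, hz, hz0⟩ := Finset.mem_image.1 h
      exact (Finset.mem_filter.1 hz).2 (by omega)
    calc _ ≤ 8 * r * (4 * (Z ^ (aX ε) * (M * N) ^ (aX ε))) := by
          refine mul_le_mul (((diff_geom hr0 (by linarith) _).2 h0).trans ?_) ?_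
            (Real.rpow_nonneg (by positivity) _) (by positivity)
          · rw [div_le_iff₀ (by linarith)]; nlinarith
          · rw [Real.mul_rpow (by positivity) hMN0, Real.mul_rpow (by norm_num) hZ0, mul_assoc]
            refine mul_le_mul_of_nonneg_right ?_
              (mul_nonneg (Real.rpow_nonneg hZ0 _) (Real.rpow_nonneg hMN0 _))
            calc (4 : ℝ) ^ (aX ε) ≤ (4 : ℝ) ^ (1 : ℝ) :=
                  Real.rpow_le_rpow_of_exponent_le (by norm_num) (by (have h1 := hε.1; have h2 := hε.2; norm_num [aX, tX]; all_goals first | linarith | exact ne_of_gt (by linarith)))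
              _ = 4 := Real.rpow_one _
      _ = _ := by ring
  have hMNa : 0 < (M * N) ^ (aX ε) := Real.rpow_pos_of_pos hMN _
  have key : ε * Z < 32 * r * Z ^ (aX ε) := by
    have hs : wsumX ε r (I ×ˢ I) m n = wsumX ε r ((I ×ˢ I).filter fun z => z.1 = z.2) m n +
        wsumX ε r ((I ×ˢ I).filter fun z => ¬ z.1 = z.2) m n :=
      (Finset.sum_filter_add_sum_filter_not _ _ _).symm
    nlinarith
  have hZp : 0 < Z := by
    rcases hZ0.lt_or_eq with h | h
    · exact h
    · rw [← h, Real.zero_rpow (aX_pos hε).ne'] at key; simp at key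
  have hZle : Z ≤ (32 / ε * r) ^ (1 / (1 - (aX ε))) := by
    have h1a : (0 : ℝ) < 1 - (aX ε) := by (have h1 := hε.1; have h2 := hε.2; norm_num [aX, tX]; all_goals first | linarith | exact ne_of_gt (by linarith))
    rw [one_div]
    refine (Real.le_rpow_inv_iff_of_pos hZ0 (mul_nonneg (div_nonneg (by norm_num) hε.1.le) hr0)
      h1a).2 ?_
    have h2 : Z ^ (1 - (aX ε)) * Z ^ (aX ε) = Z := by rw [← Real.rpow_add hZp]; simp
    have h3 : ε * Z ^ (1 - (aX ε)) * Z ^ (aX ε) < 32 * r * Z ^ (aX ε) := by rw [mul_assoc, h2]; exact key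
    have h4 := lt_of_mul_lt_mul_right h3 (Real.rpow_nonneg hZ0 _)
    rw [div_mul_eq_mul_div, le_div_iff₀ hε.1]
    linarith
  refine hbad.trans (mul_le_mul_of_nonneg_right (mul_le_mul_of_nonneg_left ?_ (by norm_num))
    hMNa.le)
  exact Real.rpow_le_rpow hZ0 hZle (by have := (aX_pos hε); linarith)

/-- The weight of the exponent pair `(i, j)`. -/
noncomputable def rrX (ε : ℝ) (p : ℕ) : ℝ := ((p : ℕ) : ℝ) ^ (-(tX ε))

lemma rrX_nonneg (p : ℕ) : 0 ≤ rrX ε p := Real.rpow_nonneg (Nat.cast_nonneg p) _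

lemma rrX_le_five {p : ℕ} (hp : p.Prime) : rrX ε p ≤ 5 / 7 := by
  have h2 : (2 : ℝ) ≤ (p : ℝ) := by exact_mod_cast hp.two_le
  have hτ : (0 : ℝ) < (tX ε) := by (have h1 := hε.1; have h2 := hε.2; norm_num [aX, tX]; all_goals first | linarith | exact ne_of_gt (by linarith))
  calc rrX ε p ≤ (2 : ℝ) ^ (-(tX ε)) :=
        Real.rpow_le_rpow_of_nonpos (by norm_num) h2 (by linarith)
    _ ≤ 5 / 7 := by
      rw [Real.rpow_neg (by norm_num), inv_le_comm₀ (by positivity) (by norm_num)]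
      have h49 : (2 : ℝ) ^ (-(1 : ℝ) / 500) * (2 : ℝ) ^ ((1 : ℝ) / 2) ≤ (2 : ℝ) ^ (tX ε) := by
        rw [← Real.rpow_add (by norm_num)]
        exact Real.rpow_le_rpow_of_exponent_le (by norm_num) (by (have h1 := hε.1; have h2 := hε.2; norm_num [aX, tX]; all_goals first | linarith | exact ne_of_gt (by linarith)))
      refine le_trans ?_ h49
      have ha : (995 / 1000 : ℝ) ≤ (2 : ℝ) ^ (-(1 : ℝ) / 500) := by
        rw [show (-(1 : ℝ) / 500) = -((1 : ℝ) / 500) by ring, Real.rpow_neg (by norm_num)]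
        rw [le_inv_comm₀ (by norm_num) (by positivity)]
        refine le_of_pow_le_pow_left₀ (n := 500) (by norm_num) (by norm_num) ?_
        rw [← Real.rpow_natCast, ← Real.rpow_mul (by norm_num)]
        refine le_trans ?_ (le_trans (show (2 : ℝ) ≤ (995 / 1000 : ℝ)⁻¹ ^ 200 by norm_num)
          (pow_le_pow_right₀ (by norm_num) (by norm_num : 200 ≤ 500)))
        norm_num
      have hb : (141 / 100 : ℝ) ≤ (2 : ℝ) ^ ((1 : ℝ) / 2) := by
        rw [← Real.sqrt_eq_rpow]
        exact Real.le_sqrt_of_sq_le (by norm_num)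
      calc (5 / 7 : ℝ)⁻¹ ≤ 995 / 1000 * (141 / 100) := by norm_num
        _ ≤ _ := mul_le_mul ha hb (by norm_num) (by positivity)

lemma rrX_le {p : ℕ} (hp : p.Prime) : rrX ε p ≤ 3 / 4 := (rrX_le_five hε hp).trans (by norm_num)

lemma cd_splitX (c d p i j : ℕ) :
    (((c * p ^ (i - j)) * (d * p ^ (j - i)) : ℕ) : ℝ) ^ (-(tX ε)) =
      ((c * d : ℕ) : ℝ) ^ (-(tX ε)) * rrX ε p ^ ((i - j) + (j - i)) := by
  rw [show c * p ^ (i - j) * (d * p ^ (j - i)) = c * d * p ^ ((i - j) + (j - i)) by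
    rw [pow_add]; ring, Nat.cast_mul _ (p ^ _), Real.mul_rpow (Nat.cast_nonneg _) (Nat.cast_nonneg _),
    Nat.cast_pow, rrX, ← Real.rpow_natCast, ← Real.rpow_natCast, ← Real.rpow_mul (Nat.cast_nonneg p),
    ← Real.rpow_mul (Nat.cast_nonneg p), mul_comm (-(tX ε))]

lemma split_leX {μ : ℕ → ℝ} {G : ℕ → ℕ → ℝ} {K : ℝ} {P V W : Finset ℕ} {c d p : ℕ}
    (hV : ∀ q ∈ V, 0 < q) (hW : ∀ q ∈ W, 0 < q) (hst : IsState P V W c d) (hp : p ∈ P)
    {I : Finset ℕ} (hVI : ∀ q ∈ V, q.factorization p ∈ I) (hWI : ∀ q ∈ W, q.factorization p ∈ I)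
    (T : Finset (ℕ × ℕ)) (hTsub : T ⊆ I ×ˢ I)
    (hzero : ∀ z ∈ I ×ˢ I, z ∉ T → pairSum μ G (expFib p z.1 V) (expFib p z.2 W) = 0)
    (hIH : ∀ V' W' c' d', V' ⊆ V → W' ⊆ W → IsState (P.erase p) V' W' c' d' →
      pairSum μ G V' W' ≤ K * ((c' * d' : ℕ) : ℝ) ^ (-(tX ε)) * (msum μ V' * msum μ W') ^ (aX ε)) :
    pairSum μ G V W ≤ K * ((c * d : ℕ) : ℝ) ^ (-(tX ε)) *
      wsumX ε (rrX ε p) T (fun i => msum μ (expFib p i V)) (fun i => msum μ (expFib p i W)) := by
  rw [pairSum_split hVI hWI, ← Finset.sum_subset hTsub hzero, wsumX, Finset.mul_sum]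
  refine Finset.sum_le_sum fun z _ => ?_
  refine (hIH (expFib p z.1 V) (expFib p z.2 W) _ _ (Finset.filter_subset _ _) (Finset.filter_subset _ _)
    (state_split hV hW hst hp z.1 z.2)).trans (le_of_eq ?_)
  rw [cd_splitX hε]
  ring

/-- The bound on the mass of pairs exceptional at `p`. -/
noncomputable def excBX (ε : ℝ) (p : ℕ) : ℝ := 9 * ((32 / ε * rrX ε p) ^ (1 / (1 - (aX ε)))) ^ (2 * (aX ε))

lemma exists_tailX :
    ∃ p0 : ℕ, ∀ P : Finset ℕ, (∀ p ∈ P, p0 ≤ p) → ∑ p ∈ P, excBX ε p ≤ 1 / 2 := by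
  have hs : Summable (excBX ε) := by
    have he : ∀ p : ℕ, excBX ε p = 9 * ((32 / ε) ^ (1 / (1 - (aX ε)))) ^ (2 * (aX ε)) *
        (p : ℝ) ^ (-(tX ε) * (1 / (1 - (aX ε))) * (2 * (aX ε))) := by
      intro p
      have hε' : (0 : ℝ) ≤ 32 / ε := div_nonneg (by norm_num) hε.1.le
      rw [excBX, Real.mul_rpow hε' (rrX_nonneg hε p),
        Real.mul_rpow (Real.rpow_nonneg hε' _) (Real.rpow_nonneg (rrX_nonneg hε p) _), rrX,
        ← Real.rpow_mul (Nat.cast_nonneg p), ← Real.rpow_mul (Nat.cast_nonneg p)]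
      ring
    rw [funext he]
    refine Summable.mul_left _ (Real.summable_nat_rpow.2 ?_)
    have h1 := hε.1
    have h2 := hε.2
    unfold aX tX
    have hpos : (0 : ℝ) < 1 - (1 / 2 + ε) := by linarith
    rw [mul_one_div, div_mul_eq_mul_div, div_lt_iff₀ hpos]
    nlinarith
  obtain ⟨s, hs'⟩ := summable_iff_vanishing.1 hs (Set.Iic (1 / 2)) (Iic_mem_nhds (by norm_num))
  refine ⟨s.sup id + 1, fun P hP => hs' P ?_⟩
  rw [Finset.disjoint_left]
  intro p hp hps
  have := hP p hp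
  have : p ≤ s.sup id := Finset.le_sup (f := id) hps
  omega

open Classical in
lemma state_auxX {p0 : ℕ} (hp0 : ∀ P : Finset ℕ, (∀ p ∈ P, p0 ≤ p) → ∑ p ∈ P, excBX ε p ≤ 1 / 2)
    {μ : ℕ → ℝ} {G : ℕ → ℕ → ℝ} {δ : ℝ} {S : Finset ℕ} (hμ : ∀ q, 0 ≤ μ q)
    (hG : ∀ q r, 0 ≤ G q r) (hδ : 0 ≤ δ) (hS : ∀ q ∈ S, 0 < q) (hfin : FinalX ε p0 μ G δ S)
    (P : Finset ℕ) : ∀ (V W : Finset ℕ) (c d : ℕ), V ⊆ S → W ⊆ S → (∀ p ∈ P, p.Prime) →
      IsState P V W c d →
      pairSum μ G V W ≤ 2 * 9 ^ (P.filter (· < p0)).card * δ *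
        ((c * d : ℕ) : ℝ) ^ (-(tX ε)) * (msum μ V * msum μ W) ^ (aX ε) := by
  induction P using Finset.strongInduction with
  | _ P ih =>
    intro V W c d hVS hWS hP hst
    set m : ℕ → ℕ → ℝ := fun p i => msum μ (expFib p i V) with hm
    set n : ℕ → ℕ → ℝ := fun p i => msum μ (expFib p i W) with hn
    have hm0 : ∀ p i, 0 ≤ m p i := fun p i => Finset.sum_nonneg fun q _ => hμ q
    have hn0 : ∀ p i, 0 ≤ n p i := fun p i => Finset.sum_nonneg fun q _ => hμ q
    set X := (msum μ V * msum μ W) ^ (aX ε) with hX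
    set D := δ * ((c * d : ℕ) : ℝ) ^ (-(tX ε)) with hD
    have hD0 : 0 ≤ D := mul_nonneg hδ (Real.rpow_nonneg (Nat.cast_nonneg _) _)
    have hX0 : 0 ≤ X := Real.rpow_nonneg (mul_nonneg (Finset.sum_nonneg fun q _ => hμ q)
      (Finset.sum_nonneg fun q _ => hμ q)) _
    have hMX : ∀ p, ((∑ i ∈ expSet p V W, m p i) * ∑ i ∈ expSet p V W, n p i) ^ (aX ε) = X := by
      intro p
      rw [hX, hm, hn, msum_fib mem_expSet_left, msum_fib mem_expSet_right]
    suffices h : pairSum μ G V W ≤ 2 * 9 ^ (P.filter (· < p0)).card * (D * X) by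
      refine h.trans (le_of_eq ?_); rw [hD]; ring
    have hrec : ∀ p ∈ P, ∀ V' W' c' d', V' ⊆ V → W' ⊆ W → IsState (P.erase p) V' W' c' d' →
        pairSum μ G V' W' ≤ (2 * 9 ^ ((P.erase p).filter (· < p0)).card * δ) *
          ((c' * d' : ℕ) : ℝ) ^ (-(tX ε)) * (msum μ V' * msum μ W') ^ (aX ε) :=
      fun p hp V' W' c' d' hV' hW' hst' => ih _ (Finset.erase_ssubset hp) V' W' c' d'
        (hV'.trans hVS) (hW'.trans hWS) (fun x hx => hP x (Finset.mem_of_mem_erase hx)) hst'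
    have hall : ∀ p ∈ P, pairSum μ G V W ≤ 2 * 9 ^ ((P.erase p).filter (· < p0)).card *
        (D * wsumX ε (rrX ε p) (expSet p V W ×ˢ expSet p V W) (m p) (n p)) := by
      intro p hp
      refine (split_leX hε (fun q hq => hS q (hVS hq)) (fun q hq => hS q (hWS hq)) hst hp
        mem_expSet_left mem_expSet_right _ (subset_refl _) (fun z h h' => absurd h h')
        (hrec p hp)).trans (le_of_eq ?_)
      rw [hD, hm, hn]; ring
    by_cases ha : ∃ p ∈ P, p < p0
    · obtain ⟨p, hp, hlt⟩ := ha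
      refine (hall p hp).trans ?_
      have hw : wsumX ε (rrX ε p) (expSet p V W ×ˢ expSet p V W) (m p) (n p) ≤ 9 * X := by
        refine (wsumX_le hε (rrX_nonneg hε p) (subset_refl _) (hm0 p) (hn0 p)).trans ?_
        rw [hMX]
        exact mul_le_mul_of_nonneg_right (geom_nine (rrX_nonneg hε p) (rrX_le hε (hP p hp)) _) hX0
      rw [Finset.filter_erase, ← Finset.card_erase_add_one (s := P.filter (· < p0)) (a := p)
        (Finset.mem_filter.2 ⟨hp, hlt⟩), pow_succ]
      calc _ ≤ 2 * (9 : ℝ) ^ ((P.filter (· < p0)).erase p).card * (D * (9 * X)) :=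
            mul_le_mul_of_nonneg_left (mul_le_mul_of_nonneg_left hw hD0) (by positivity)
        _ = _ := by ring
    push Not at ha
    have hf0 : ∀ Q ⊆ P, (Q.filter (· < p0)).card = 0 := fun Q hQ => Finset.card_eq_zero.2
      (Finset.filter_eq_empty_iff.2 fun x hx => not_lt.2 (ha x (hQ hx)))
    rw [hf0 P (subset_refl _), pow_zero, mul_one]
    by_cases hb : ∃ p ∈ P, wsumX ε (rrX ε p) (expSet p V W ×ˢ expSet p V W) (m p) (n p) ≤ X
    · obtain ⟨p, hp, hw⟩ := hb
      refine (hall p hp).trans ?_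
      rw [hf0 _ (Finset.erase_subset _ _), pow_zero, mul_one]
      exact mul_le_mul_of_nonneg_left (mul_le_mul_of_nonneg_left hw hD0) (by norm_num)
    push Not at hb
    have hc : ∀ p, ∃ k, p ∈ P → wsumX ε (rrX ε p)
        (((expSet p V W).erase k) ×ˢ ((expSet p V W).erase k)) (m p) (n p) ≤ excBX ε p * X := by
      intro p
      by_cases hp : p ∈ P
      · obtain ⟨k, hk⟩ := concX hε (rrX_nonneg hε p) (rrX_le hε (hP p hp)) (hm0 p) (hn0 p)
          (by rw [hMX]; exact hb p hp)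
        exact ⟨k, fun _ => by rw [excBX]; rwa [hMX] at hk⟩
      · exact ⟨0, fun h => absurd h hp⟩
    choose k hk using hc
    have hgood : pairSum μ (goodG P k G) V W ≤ D * X :=
      hfin P V W k c d hVS hWS (fun p hp => ⟨hP p hp, ha p hp⟩) hst
    have hdecomp : pairSum μ G V W ≤ pairSum μ (goodG P k G) V W + ∑ p ∈ P,
        pairSum μ G (V.filter fun q => q.factorization p ≠ k p)
          (W.filter fun q => q.factorization p ≠ k p) := by
      have e : ∀ p, pairSum μ G (V.filter fun q => q.factorization p ≠ k p)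
          (W.filter fun q => q.factorization p ≠ k p) = ∑ q ∈ V, ∑ r ∈ W,
            if q.factorization p ≠ k p ∧ r.factorization p ≠ k p then μ q * μ r * G q r else 0 := by
        intro p
        unfold pairSum
        rw [Finset.sum_filter]
        refine Finset.sum_congr rfl fun q _ => ?_
        by_cases h : q.factorization p ≠ k p
        · rw [if_pos h, Finset.sum_filter]
          refine Finset.sum_congr rfl fun r _ => ?_
          simp [h]
        · rw [if_neg h, Finset.sum_eq_zero fun r _ => if_neg fun h' => h h'.1]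
      simp only [e]
      unfold pairSum
      rw [Finset.sum_comm (s := P), ← Finset.sum_add_distrib]
      refine Finset.sum_le_sum fun q _ => ?_
      rw [Finset.sum_comm (s := P), ← Finset.sum_add_distrib]
      refine Finset.sum_le_sum fun r _ => ?_
      have h0 : 0 ≤ μ q * μ r * G q r := mul_nonneg (mul_nonneg (hμ q) (hμ r)) (hG q r)
      have hnn : ∀ p ∈ P, 0 ≤
          if q.factorization p ≠ k p ∧ r.factorization p ≠ k p then μ q * μ r * G q r else 0 :=
        fun p _ => by split <;> first | exact h0 | exact le_rfl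
      by_cases hgp : GoodPair P k q r
      · rw [goodG, if_pos hgp]
        exact le_add_of_nonneg_right (Finset.sum_nonneg hnn)
      · rw [goodG, if_neg hgp, mul_zero, zero_add]
        simp only [GoodPair, not_forall, not_or] at hgp
        obtain ⟨p, hp, h1, h2⟩ := hgp
        exact le_trans (le_of_eq (if_pos ⟨h1, h2⟩).symm) (Finset.single_le_sum hnn hp)
    have hbadp : ∀ p ∈ P, pairSum μ G (V.filter fun q => q.factorization p ≠ k p)
        (W.filter fun q => q.factorization p ≠ k p) ≤ 2 * (D * (excBX ε p * X)) := by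
      intro p hp
      set V' := V.filter fun q => q.factorization p ≠ k p with hV'
      set W' := W.filter fun q => q.factorization p ≠ k p with hW'
      have hVsub : V' ⊆ V := Finset.filter_subset _ _
      have hWsub : W' ⊆ W := Finset.filter_subset _ _
      have hst' : IsState P V' W' c d := ⟨fun q hq q' hq' => hst.1 q (hVsub hq) q' (hVsub hq'),
        fun q hq q' hq' => hst.2.1 q (hWsub hq) q' (hWsub hq'),
        fun q hq r hr => hst.2.2 q (hVsub hq) r (hWsub hr)⟩
      set I := (expSet p V W).erase (k p) with hI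
      have hVI : ∀ q ∈ V', q.factorization p ∈ I := fun q hq => Finset.mem_erase.2
        ⟨(Finset.mem_filter.1 hq).2, mem_expSet_left q (hVsub hq)⟩
      have hWI : ∀ q ∈ W', q.factorization p ∈ I := fun q hq => Finset.mem_erase.2
        ⟨(Finset.mem_filter.1 hq).2, mem_expSet_right q (hWsub hq)⟩
      have h := split_leX hε (fun q hq => hS q (hVS (hVsub hq))) (fun q hq => hS q (hWS (hWsub hq)))
        hst' hp hVI hWI _ (subset_refl _) (fun z h h' => absurd h h')
        (fun V'' W'' c' d' h1 h2 => hrec p hp V'' W'' c' d' (h1.trans hVsub) (h2.trans hWsub))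
      have hw : wsumX ε (rrX ε p) (I ×ˢ I) (fun i => msum μ (expFib p i V'))
          (fun i => msum μ (expFib p i W')) = wsumX ε (rrX ε p) (I ×ˢ I) (m p) (n p) := by
        refine Finset.sum_congr rfl fun z hz => ?_
        obtain ⟨h1, h2⟩ := Finset.mem_product.1 hz
        have hf : ∀ (U : Finset ℕ) (i : ℕ), i ∈ I →
            expFib p i (U.filter fun q => q.factorization p ≠ k p) = expFib p i U := by
          intro U i hi
          have := Finset.ne_of_mem_erase hi
          ext q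
          simp only [expFib, Finset.mem_filter]
          exact ⟨fun h => ⟨h.1.1, h.2⟩, fun h => ⟨⟨h.1, h.2 ▸ this⟩, h.2⟩⟩
        simp only [hm, hn, hV', hW', hf _ _ h1, hf _ _ h2]
      rw [hw, hf0 _ (Finset.erase_subset _ _), pow_zero, mul_one] at h
      refine h.trans ?_
      calc 2 * δ * ((c * d : ℕ) : ℝ) ^ (-(tX ε)) * wsumX ε (rrX ε p) (I ×ˢ I) (m p) (n p)
          ≤ 2 * δ * ((c * d : ℕ) : ℝ) ^ (-(tX ε)) * (excBX ε p * X) :=
            mul_le_mul_of_nonneg_left (hk p hp)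
              (mul_nonneg (mul_nonneg (by norm_num) hδ) (Real.rpow_nonneg (Nat.cast_nonneg _) _))
        _ = _ := by rw [hD]; ring
    calc pairSum μ G V W ≤ D * X + ∑ p ∈ P, 2 * (D * (excBX ε p * X)) :=
          hdecomp.trans (add_le_add hgood (Finset.sum_le_sum hbadp))
      _ = D * X + 2 * (∑ p ∈ P, excBX ε p) * (D * X) := by
          rw [Finset.mul_sum, Finset.sum_mul]
          congr 1
          exact Finset.sum_congr rfl fun p _ => by ring
      _ ≤ D * X + 2 * (1 / 2) * (D * X) := by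
          gcongr
          exact hp0 P ha
      _ = _ := by ring

theorem bilinear_stateX :
    ∃ (p0 : ℕ) (K : ℝ), ∀ (μ : ℕ → ℝ) (G : ℕ → ℕ → ℝ) (δ : ℝ) (S : Finset ℕ),
      (∀ q, 0 ≤ μ q) → (∀ q r, 0 ≤ G q r) → 0 ≤ δ → (∀ q ∈ S, 0 < q) →
      FinalX ε p0 μ G δ S →
      ∀ (P V W : Finset ℕ) (c d : ℕ), V ⊆ S → W ⊆ S → (∀ p ∈ P, p.Prime) →
        IsState P V W c d →
        pairSum μ G V W ≤ K * δ * ((c * d : ℕ) : ℝ) ^ (-(tX ε)) * (msum μ V * msum μ W) ^ (aX ε) := by
  obtain ⟨p0, hp0⟩ := exists_tailX hε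
  refine ⟨p0, 2 * 9 ^ p0, fun μ G δ S hμ hG hδ hS hfin P V W c d hV hW hP hst => ?_⟩
  refine (state_auxX hε hp0 hμ hG hδ hS hfin P V W c d hV hW hP hst).trans ?_
  have hcard : (P.filter (· < p0)).card ≤ p0 := by
    refine le_trans (Finset.card_le_card fun x hx => ?_) (le_of_eq (Finset.card_range p0))
    exact Finset.mem_range.2 (Finset.mem_filter.1 hx).2
  have h9 : (9 : ℝ) ^ (P.filter (· < p0)).card ≤ 9 ^ p0 := pow_le_pow_right₀ (by norm_num) hcard
  have hX0 : 0 ≤ (msum μ V * msum μ W) ^ (aX ε) := Real.rpow_nonneg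
    (mul_nonneg (Finset.sum_nonneg fun q _ => hμ q) (Finset.sum_nonneg fun q _ => hμ q)) _
  gcongr

end Vale.Agent.P028X
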