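import Vale.Agent.P028X.Cls

/-! P028X: common definitions for the extra-divergence criterion (see BLUEPRINT.md). -/

namespace Vale.Agent.P028X

open Finset Vale.Agent.P028

/-- `γ` is irrational and not Liouville, with explicit constants. -/
def Dioph (γ μ c : ℝ) : Prop :=
  1 ≤ μ ∧ 0 < c ∧ ∀ B : ℕ, 0 < B → c * (B : ℝ) ^ (-μ) ≤ distInt ((B : ℝ) * γ)

/-- Some integer `n` has `|n + γ h| < y`. -/
def Near (γ y : ℝ) (q r : ℕ) : Prop := distInt (γ * (hh q r : ℝ)) < y

/-- The gain of the density step. -/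
noncomputable def gX : ℝ := 3 / 2500

/-- Lower end of the density range: `e^{-rhoX μ ε t} ≤ η`. -/
noncomputable def rhoX (μ ε : ℝ) : ℝ := ε / (20 * μ)

open Classical in
/-- The kernel of the coincidences with very small `η`. -/
noncomputable def kerTop (γ : ℝ) (ψ : ℕ → ℝ) (ρ : ℝ) (q r : ℕ) : ℝ :=
  if q ≠ r ∧ Near γ (etaP ψ q r) q r ∧ etaP ψ q r ≤ (min (ψ q) (ψ r)) ^ ρ then 1 / etaP ψ q r
  else 0

end Vale.Agent.P028X
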