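import Vale.Agent.P028X.Defs
import Vale.Agent.P028.Density

/-! P028X module DENSITY: gain for the events `Near` in the range `e^{-rhoX μ ε t} ≤ y`. The rotation
is `γ` itself, `T = 1/y`, and the resonant values of `v` are excluded by the Diophantine bound. -/

namespace Vale.Agent.P028X

open Finset Vale.Agent.P028

/-- The two averages. -/
lemma side_pair :
    ∃ Cb K0 T0 t0 : ℝ, 0 ≤ K0 ∧ 1 ≤ T0 ∧ ∀ (β T t y1 y2 : ℝ) (ψ : ℕ → ℝ) (P V W : Finset ℕ)
      (k : ℕ → ℕ) (c d : ℕ),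
      t0 ≤ t → T0 ≤ T → T ≤ Real.exp (3 / 100000 * t) → (d : ℝ) ≤ Real.exp (6 / 10000 * t) →
      0 < c → 0 < d →
      (∀ p ∈ P, p.Prime) → (∀ q ∈ V, 0 < ψ q) → (∀ r ∈ W, 0 < ψ r) → 0 < y1 → 0 < y2 →
      (∀ q ∈ V, ∑ b' ∈ (nMode P k).divisors, rhoN (nMode P k) b' *
        avgA (y1 / (ψ q * (bPart P k q : ℝ) * (d : ℝ))) (fun a' => GA1 Cb β T P k c d q a' b' ^ 2)
          ≤ K0 * T ^ (-(1 / 400) : ℝ)) ∧
      (∀ r ∈ W, ∑ b ∈ (nMode P k).divisors, rhoN (nMode P k) b *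
        avgA (y2 / (ψ r * (bPart P k r : ℝ) * (c : ℝ))) (fun a => GB2 Cb β T t P k c d r a b ^ 2)
          ≤ K0 * T ^ (-(1 / 400) : ℝ)) := by
  classical
  obtain ⟨Cρ, hCρ, hρ⟩ := rho_total
  obtain ⟨Cb, hCb, hbohr⟩ := avg_bohr
  obtain ⟨Cw, Tw, tw, hCw, hTw, hwin⟩ := sum_window Cb hCb
  have hCb0 : (0 : ℝ) ≤ Cb := by linarith
  set K0 := Cρ * Cb + Cw with hK0
  have hK00 : 0 ≤ K0 := by positivity
  refine ⟨Cb, K0, Tw, tw, hK00, hTw, ?_⟩
  intro β T t y1 y2 ψ P V W k c d ht hT hTt hdt hc hd hPp hV' hW' hy1 hy2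
  have hT1 : 1 ≤ T := hTw.trans hT
  have hTp : 0 < T := by linarith
  have hcR : (0 : ℝ) < c := by exact_mod_cast hc
  have hdR : (0 : ℝ) < d := by exact_mod_cast hd
  have hN : 0 < nMode P k := prod_pow_pos P hPp k
  have hbpos : ∀ q, (0 : ℝ) < bPart P k q := fun q => by exact_mod_cast prod_pow_pos P hPp _
  have hapos : ∀ q, 0 < aPart P k q := fun q => prod_pow_pos P hPp _
  set g := T ^ (-(1 / 400) : ℝ)
  have hg0 : 0 ≤ g := by positivity
  refine ⟨fun q hq => ?_, fun r hr => ?_⟩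
  · have hZ : 0 < y1 / (ψ q * (bPart P k q : ℝ) * (d : ℝ)) := by
      have := hV' q hq
      have := hbpos q
      positivity
    simp only [GA1, bb_sq]
    refine (side_avg _ _ _ (Cb * g) Cρ (by positivity) (hρ _ hN)
      (fun b => hbohr β T _ _ _ hT1 hZ)).trans ?_
    rw [← mul_assoc, hK0]
    gcongr
    linarith
  · have hZ : 0 < y2 / (ψ r * (bPart P k r : ℝ) * (c : ℝ)) := by
      have := hW' r hr
      have := hbpos r
      positivity
    simp only [GB2, bb_sq]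
    refine (side_swap _ _ _ (Cw * g) hZ (by positivity) fun a _ =>
      hwin β T t _ _ d (aPart P k r) ht hT hTt hdt hN hd (hapos r)).trans ?_
    rw [hK0]
    gcongr
    linarith [mul_nonneg hCρ.le hCb0]

/-- A Diophantine rotation has no resonance at the values of `v` under consideration. -/
lemma not_RV {γ μ c ε T t : ℝ} (h : Dioph γ μ c) (hε : Small ε) {d v : ℕ} (hd : 0 < d) (ht : 0 ≤ t)
    (hT1 : 1 ≤ T) (hTt : T ≤ Real.exp (rhoX μ ε * t))
    (hdT : (d : ℝ) ≤ T ^ (1 / (125 * ε))) (hv : Real.exp (99 / 100 * t) ≤ (v : ℝ))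
    (htc : 1 < c * Real.exp (9 / 10 * t)) :
    ¬ RV γ T d v := by
  obtain ⟨hμ, hc, hD⟩ := h
  obtain ⟨hε0, hε1⟩ := hε
  rintro ⟨B', hB'1, hB'le, hB'd⟩
  have hTp : 0 < T := by linarith
  have hμ0 : 0 < μ := by linarith
  have hdr : (0 : ℝ) < d := by exact_mod_cast hd
  have hB'r : (0 : ℝ) < B' := by exact_mod_cast hB'1
  have hρμ : rhoX μ ε * μ = ε / 20 := by unfold rhoX; field_simp
  have hρK : rhoX μ ε * (1 / (125 * ε)) = 1 / (2500 * μ) := by unfold rhoX; field_simp; ring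
  have hρK1 : rhoX μ ε * (1 / (125 * ε)) ≤ 1 / 2500 := by
    rw [hρK]; exact one_div_le_one_div_of_le (by norm_num) (by linarith)
  have hdexp : (d : ℝ) ≤ Real.exp (6 / 10000 * t) := by
    refine hdT.trans ((Real.rpow_le_rpow hTp.le hTt (by positivity)).trans ?_)
    rw [← Real.exp_mul]
    have := mul_le_mul_of_nonneg_left hρK1 ht
    exact Real.exp_le_exp.2 (by linarith)
  have hprod : (((d * B' : ℕ) : ℝ))
      ≤ Real.exp (rhoX μ ε * t * (1 / (125 * ε) + 1)) := by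
    push_cast
    calc (d : ℝ) * B' ≤ T ^ (1 / (125 * ε)) * T ^ (3 / 50 : ℝ) :=
          mul_le_mul hdT hB'le hB'r.le (by positivity)
      _ ≤ T ^ (1 / (125 * ε) + 1) := by
          rw [← Real.rpow_add hTp]
          exact Real.rpow_le_rpow_of_exponent_le hT1 (by linarith)
      _ ≤ _ := by
          rw [Real.exp_mul (rhoX μ ε * t) (1 / (125 * ε) + 1)]
          exact Real.rpow_le_rpow hTp.le hTt (by positivity)
  have hlow : c * Real.exp (-(1 / 2400 * t)) ≤ distInt (γ * d * B') := by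
    have h1 := hD (d * B') (Nat.mul_pos hd hB'1)
    rw [show ((d * B' : ℕ) : ℝ) * γ = γ * d * B' by push_cast; ring] at h1
    refine le_trans (mul_le_mul_of_nonneg_left ?_ hc.le) h1
    refine le_trans ?_
      (Real.rpow_le_rpow_of_nonpos (by positivity) hprod (by linarith))
    rw [← Real.exp_mul]
    refine Real.exp_le_exp.2 ?_
    have hK : rhoX μ ε * (1 / (125 * ε)) * μ = 1 / 2500 := by rw [hρK]; field_simp
    have e : rhoX μ ε * t * (1 / (125 * ε) + 1) * -μ = -((1 / 2500 + ε / 20) * t) := by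
      linear_combination -t * hK - t * hρμ
    rw [e]
    exact neg_le_neg (mul_le_mul_of_nonneg_right (by linarith) ht)
  have hup : distInt (γ * d * B') ≤ Real.exp (-(9894 / 10000 * t)) := by
    refine hB'd.trans ?_
    have hX : T ^ (3 / 25 - 1 : ℝ) ≤ 1 :=
      Real.rpow_le_one_of_one_le_of_nonpos hT1 (by norm_num)
    refine (div_le_div₀ (Real.exp_nonneg _) ((mul_le_of_le_one_left hdr.le hX).trans hdexp)
      (Real.exp_pos _) hv).trans (le_of_eq ?_)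
    rw [← Real.exp_sub]
    congr 1
    ring
  have h2 := mul_le_mul_of_nonneg_right (hlow.trans hup) (Real.exp_nonneg (9 / 10 * t + 1 / 2400 * t))
  rw [mul_assoc, ← Real.exp_add, ← Real.exp_add] at h2
  ring_nf at h2
  have h3 : Real.exp (t * (-(9894 / 10000) + (9 / 10 + 1 / 2400))) ≤ 1 :=
    Real.exp_le_one_iff.2 (mul_nonpos_of_nonneg_of_nonpos ht (by norm_num))
  ring_nf at h3 htc
  linarith

/-- The event restricted to `q ∈ V` and to one dyadic class. -/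
noncomputable def GV (γ y : ℝ) (ψ : ℕ → ℝ) (y1 y2 : ℝ) (V : Finset ℕ) (q r : ℕ) : ℝ :=
  bb (q ∈ V ∧ Near γ y q r) * clsI ψ y1 y2 q r

lemma GV_mem (γ y : ℝ) (ψ : ℕ → ℝ) (y1 y2 : ℝ) (V : Finset ℕ) (q r : ℕ) :
    0 ≤ GV γ y ψ y1 y2 V q r ∧ GV γ y ψ y1 y2 V q r ≤ clsI ψ y1 y2 q r :=
  ⟨mul_nonneg (bb_nonneg _) (cls_mem ψ y1 y2 q r).1,
    mul_le_of_le_one_left (cls_mem ψ y1 y2 q r).1 (bb_le_one _)⟩

/-- Every pair of the event is covered by the two averaged classes. -/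
lemma cover_pair (γ T t y y1 y2 Cb : ℝ) (ψ : ℕ → ℝ) (c d : ℕ) (P V0 V W : Finset ℕ) (k : ℕ → ℕ)
    (hPp : ∀ p ∈ P, p.Prime) (hst : IsState P V W c d) (q r : ℕ) (hq : q ∈ V) (hr : r ∈ W)
    (hq0 : 0 < q) (hr0 : 0 < r) (hgp : GoodPair P k q r) (hyT : y = 1 / T)
    (hv : q ∈ V0 → InCls ψ y1 y2 q r → Real.exp (99 / 100 * t) ≤ (vv q r : ℝ) ∧
        (vv q r : ℝ) ≤ Real.exp (101 / 100 * t) ∧ ¬ RV γ T d (vv q r)) :
    GV γ y ψ y1 y2 V0 q r ≤
      clsI ψ y1 y2 q r * GA1 Cb γ T P k c d q (aPart P k r) (bPart P k r)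
      + clsI ψ y1 y2 q r * GB2 Cb γ T t P k c d r (aPart P k q) (bPart P k q) := by
  obtain ⟨hc0, _⟩ := cls_mem ψ y1 y2 q r
  have hF1 : 0 ≤ clsI ψ y1 y2 q r * GA1 Cb γ T P k c d q (aPart P k r) (bPart P k r) :=
    mul_nonneg hc0 (bb_nonneg _)
  have hF2 : 0 ≤ clsI ψ y1 y2 q r * GB2 Cb γ T t P k c d r (aPart P k q) (bPart P k q) :=
    mul_nonneg hc0 (bb_nonneg _)
  by_cases hzero : GV γ y ψ y1 y2 V0 q r = 0
  · rw [hzero]; linarith
  obtain ⟨hb, hC⟩ := mul_ne_zero_iff.1 hzero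
  have hQ : q ∈ V0 ∧ Near γ y q r := by_contra fun h => hb (bb_false h)
  obtain ⟨hvlo, hvhi, hnR⟩ := hv hQ.1 (cls_inCls hC)
  obtain ⟨hu, hvq⟩ := uu_eq P k V W c d q r hPp hst hq hr hq0 hr0 hgp
  have hdist : distInt (γ * (hh q r : ℝ)) < 1 / T := hyT ▸ hQ.2
  have hhR : (hh q r : ℝ) = (vv q r : ℝ) - (uu q r : ℝ) := by simp [hh]
  have hvR : (vv q r : ℝ) = (d : ℝ) * aPart P k r * bPart P k q := by rw [hvq]; push_cast; rfl
  have huR : (uu q r : ℝ) = (c : ℝ) * aPart P k q * bPart P k r := by rw [hu]; push_cast; rfl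
  rw [hhR, hvR, huR] at hdist
  have hle := (GV_mem γ y ψ y1 y2 V0 q r).2
  by_cases hA : T ^ (1 / 100 : ℝ) ≤ (aPart P k r : ℝ) ∧
      ¬ ∃ B1, ResAt Cb γ T (d * bPart P k q) B1 (aPart P k r)
  · have : GA1 Cb γ T P k c d q (aPart P k r) (bPart P k r) = 1 := bb_true ⟨hA.1, by
      refine lt_of_eq_of_lt ?_ hdist
      congr 1
      push_cast
      ring, hA.2⟩
    rw [this, mul_one]
    linarith
  · have : GB2 Cb γ T t P k c d r (aPart P k q) (bPart P k q) = 1 := bb_true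
      ⟨by rw [← hvq]; exact hvlo, by rw [← hvq]; exact hvhi, by rwa [← hvq], by
        by_cases ha : T ^ (1 / 100 : ℝ) ≤ (aPart P k r : ℝ)
        · exact Or.inl ⟨ha, by_contra fun h => hA ⟨ha, h⟩⟩
        · refine Or.inr ⟨not_le.1 ha, lt_of_eq_of_lt ?_ hdist⟩
          congr 1
          push_cast
          ring⟩
    rw [this, mul_one]
    linarith

/-- The final hypothesis of the bilinear bound for the event. -/
lemma pair_final (γ μ c0 ε : ℝ) (h : Dioph γ μ c0) (hε : Small ε) :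
    ∃ C T0 t0 : ℝ, 0 ≤ C ∧ 1 ≤ T0 ∧ ∀ (T t y y1 y2 : ℝ) (ψ : ℕ → ℝ) (S V0 : Finset ℕ) (p0 : ℕ),
      t0 ≤ t → T0 ≤ T → T ≤ Real.exp (rhoX μ ε * t) → y = 1 / T →
      (∀ q, 0 ≤ ψ q) → (∀ q ∈ S, 0 < q ∧ 0 < ψ q) → 0 < y1 → 0 < y2 →
      (∀ q ∈ V0, ∀ r ∈ S, InCls ψ y1 y2 q r → Real.exp (99 / 100 * t) ≤ (vv q r : ℝ) ∧
        (vv q r : ℝ) ≤ Real.exp (101 / 100 * t)) →
      FinalX ε p0 (mu ψ) (GV γ y ψ y1 y2 V0)
        (C * T ^ (-gX) * (y1 * y2) ^ (1 / 2 - ε)) S := by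
  classical
  obtain ⟨Cs₀, hs⟩ := schur
  set Cs := max Cs₀ 0 with hCs
  obtain ⟨Cc, hCc, hcls⟩ := cls_schur
  obtain ⟨Cρ, hCρ, hρ⟩ := rho_total
  obtain ⟨Cb, K0, Tw, tw, hK00, hTw, hsides⟩ := side_pair
  obtain ⟨hμ1, hc0, -⟩ := id h
  set C2 := 2 * (Cs * Real.sqrt (K0 * Cρ)) with hC2
  refine ⟨C2 ^ (1 - 2 * ε) + Cc ^ (1 - 2 * ε), Tw, max tw (max 0 (2 / c0)), by positivity,
    hTw, ?_⟩
  intro T t y y1 y2 ψ S V0 p0 ht hT hTt hyT hψ hS hy1 hy2 hvrange P V W k c d hV hW hP hst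
  have htw : tw ≤ t := (le_max_left _ _).trans ht
  have ht0 : 0 ≤ t := (le_max_left _ _).trans ((le_max_right _ _).trans ht)
  have htc : 2 / c0 ≤ t := (le_max_right _ _).trans ((le_max_right _ _).trans ht)
  have hexp : 1 < c0 * Real.exp (9 / 10 * t) := by
    rw [div_le_iff₀ hc0] at htc
    have h1 := mul_le_mul_of_nonneg_left (Real.add_one_le_exp (9 / 10 * t)) hc0.le
    linarith
  have hT1 : 1 ≤ T := hTw.trans hT
  have hTp : 0 < T := by linarith
  have hρ1 : rhoX μ ε * t ≤ 1 / 2000000 * t := by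
    refine mul_le_mul_of_nonneg_right ?_ ht0
    unfold rhoX
    rw [div_le_iff₀ (by linarith)]
    linarith [hε.1, hε.2]
  have hρK1 : rhoX μ ε * (1 / (125 * ε)) ≤ 1 / 2500 := by
    have hε0 := hε.1
    rw [show rhoX μ ε * (1 / (125 * ε)) = 1 / (2500 * μ) by unfold rhoX; field_simp; ring]
    exact one_div_le_one_div_of_le (by norm_num) (by linarith)
  have hTt' : T ≤ Real.exp (3 / 100000 * t) :=
    hTt.trans (Real.exp_le_exp.2 (by linarith))
  have hμ := mu_nonneg' hψ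
  have hX0 : 0 ≤ (msum (mu ψ) V * msum (mu ψ) W) ^ aX ε := Real.rpow_nonneg
    (mul_nonneg (Finset.sum_nonneg fun q _ => hμ q) (Finset.sum_nonneg fun q _ => hμ q)) _
  set G1 : ℕ → ℕ → ℝ := GV γ y ψ y1 y2 V0 with hG1
  have hG1le : ∀ q r, 0 ≤ G1 q r ∧ G1 q r ≤ clsI ψ y1 y2 q r := GV_mem γ y ψ y1 y2 V0
  have hgood : ∀ q r, 0 ≤ goodG P k G1 q r ∧ goodG P k G1 q r ≤ 1 := fun q r => by
    unfold goodG
    split_ifs
    · exact ⟨(hG1le q r).1, (hG1le q r).2.trans (cls_mem ψ y1 y2 q r).2⟩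
    · norm_num
  have hPp : ∀ p ∈ P, p.Prime := fun p hp => (hP p hp).1
  have hV' : ∀ q ∈ V, 0 < q ∧ 0 < ψ q := fun q hq => hS q (hV hq)
  have hW' : ∀ q ∈ W, 0 < q ∧ 0 < ψ q := fun q hq => hS q (hW hq)
  have heps := hε.1
  by_cases hbig : T ^ (1 / (125 * ε)) < ((c * d : ℕ) : ℝ)
  · have hle : pairSum (mu ψ) (goodG P k G1) V W
        ≤ pairSum (mu ψ) (goodG P k (clsI ψ y1 y2)) V W :=
      pairSum_mono hμ fun q _ r _ => by
        unfold goodG
        split_ifs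
        · exact (hG1le q r).2
        · exact le_rfl
    refine (to_finalX hε _ _ V W c d Cc _ hμ hgood hCc (by positivity)
      (hle.trans (hcls ψ P V W k c d y1 y2 hψ hPp hV' hW' hst hy1 hy2))).trans ?_
    refine mul_le_mul_of_nonneg_right (mul_le_mul_of_nonneg_right ?_ (by positivity)) hX0
    rw [mul_assoc, mul_assoc (C2 ^ _ + _), mul_comm (T ^ (-gX))]
    refine mul_le_mul (le_add_of_nonneg_left (by positivity)) (mul_le_mul_of_nonneg_left ?_
      (by positivity)) (by positivity) (by positivity)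
    refine (Real.rpow_le_rpow_of_nonpos (by positivity) hbig.le (by linarith)).trans ?_
    rw [← Real.rpow_mul hTp.le]
    refine Real.rpow_le_rpow_of_exponent_le hT1 ?_
    have e : 1 / (125 * ε) * -(ε / 4) = -(1 / 500) := by field_simp; ring
    unfold gX
    linarith
  push Not at hbig
  by_cases hne : V.Nonempty ∧ W.Nonempty
  swap
  · have h0 : pairSum (mu ψ) (goodG P k G1) V W = 0 := by
      rcases not_and_or.1 hne with h | h <;>
        simp [pairSum, Finset.not_nonempty_iff_eq_empty.1 h]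
    rw [h0]; positivity
  obtain ⟨⟨q0, hq0⟩, ⟨r0, hr0⟩⟩ := hne
  have hc : 0 < c := (hst.2.2 q0 hq0 r0 hr0).1 ▸ outPart_pos P _
  have hd : 0 < d := (hst.2.2 q0 hq0 r0 hr0).2 ▸ outPart_pos P _
  have hdT : (d : ℝ) ≤ T ^ (1 / (125 * ε)) :=
    le_trans (by exact_mod_cast Nat.le_mul_of_pos_left d hc) hbig
  have hdt : (d : ℝ) ≤ Real.exp (6 / 10000 * t) := by
    refine hdT.trans ((Real.rpow_le_rpow hTp.le hTt (by positivity)).trans ?_)
    rw [← Real.exp_mul]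
    have := mul_le_mul_of_nonneg_left hρK1 ht0
    exact Real.exp_le_exp.2 (by linarith)
  have hN : 0 < nMode P k := prod_pow_pos P hPp k
  set g := T ^ (-(1 / 400) : ℝ) with hg
  have hg0 : 0 < g := by positivity
  have hcR : (0 : ℝ) < c := by exact_mod_cast hc
  have hdR : (0 : ℝ) < d := by exact_mod_cast hd
  have hbpos : ∀ q, (0 : ℝ) < bPart P k q := fun q => by exact_mod_cast prod_pow_pos P hPp _
  have hZA : ∀ q ∈ V, 0 < y1 / (ψ q * (bPart P k q : ℝ) * (d : ℝ)) := fun q hq => by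
    have := (hV' q hq).2
    have := hbpos q
    positivity
  have hZB : ∀ r ∈ W, 0 < y2 / (ψ r * (bPart P k r : ℝ) * (c : ℝ)) := fun r hr => by
    have := (hW' r hr).2
    have := hbpos r
    positivity
  obtain ⟨hA1, hB2⟩ := hsides γ T t y1 y2 ψ P V W k c d htw hT hTt' hdt hc hd hPp
    (fun q hq => (hV' q hq).2) (fun q hq => (hW' q hq).2) hy1 hy2
  have hK0' : 0 ≤ K0 * g := by positivity
  set R := Cs * Real.sqrt (K0 * g * Cρ) * Real.sqrt (y1 * y2)
    * ((c * d : ℕ) : ℝ) ^ (-(1 / 2 : ℝ)) * Real.sqrt (msum (mu ψ) V * msum (mu ψ) W) with hR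
  set F1 : ℕ → ℕ → ℝ := fun q r =>
    clsI ψ y1 y2 q r * GA1 Cb γ T P k c d q (aPart P k r) (bPart P k r) with hF1
  set F2 : ℕ → ℕ → ℝ := fun q r =>
    clsI ψ y1 y2 q r * GB2 Cb γ T t P k c d r (aPart P k q) (bPart P k q) with hF2
  have sideA : pairSum (mu ψ) (goodG P k F1) V W ≤ R := by
    refine (hs ψ P V W k c d y1 y2 F1 (GA1 Cb γ T P k c d) (fun _ _ _ => 1) (K0 * g) Cρ hψ hPp
      hV' hW' hst hy1 hy2 hK0' hCρ.le (fun q r => mul_nonneg (cls_mem ψ y1 y2 q r).1 (bb_nonneg _))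
      (fun _ _ _ => bb_nonneg _) (fun _ _ _ => zero_le_one)
      (fun q _ r _ h => cls_inCls (left_ne_zero_of_mul h))
      (fun q _ r _ _ => ?_) hA1 (fun r hr => side_one (hZB r hr) (hρ _ hN))).trans ?_
    · rw [mul_one]
      exact mul_le_of_le_one_left (bb_nonneg _) (cls_mem ψ y1 y2 q r).2
    · rw [hR]
      gcongr
      exact le_max_left _ _
  have sideB : pairSum (mu ψ) (goodG P k F2) V W ≤ R := by
    refine (hs ψ P V W k c d y1 y2 F2 (fun _ _ _ => 1) (GB2 Cb γ T t P k c d) Cρ (K0 * g) hψ hPp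
      hV' hW' hst hy1 hy2 hCρ.le hK0' (fun q r => mul_nonneg (cls_mem ψ y1 y2 q r).1 (bb_nonneg _))
      (fun _ _ _ => zero_le_one) (fun _ _ _ => bb_nonneg _)
      (fun q _ r _ h => cls_inCls (left_ne_zero_of_mul h))
      (fun q _ r _ _ => ?_) (fun q hq => side_one (hZA q hq) (hρ _ hN)) hB2).trans ?_
    · rw [one_mul]
      exact mul_le_of_le_one_left (bb_nonneg _) (cls_mem ψ y1 y2 q r).2
    · rw [hR, mul_comm Cρ]
      gcongr
      exact le_max_left _ _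
  have hcover : ∀ q ∈ V, ∀ r ∈ W,
      goodG P k G1 q r ≤ goodG P k F1 q r + goodG P k F2 q r := by
    intro q hq r hr
    unfold goodG
    split_ifs with hgp
    swap
    · norm_num
    refine cover_pair γ T t y y1 y2 Cb ψ c d P V0 V W k hPp hst q r hq hr (hV' q hq).1
      (hW' r hr).1 hgp hyT fun hq0 hin => ?_
    obtain ⟨hlo, hhi⟩ := hvrange q hq0 r (hW hr) hin
    exact ⟨hlo, hhi, not_RV h hε hd ht0 hT1 hTt hdT hlo hexp⟩
  have hsum : pairSum (mu ψ) (goodG P k G1) V W ≤ C2 * T ^ (-(1 / 800) : ℝ)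
      * Real.sqrt (y1 * y2) * ((c * d : ℕ) : ℝ) ^ (-(1 / 2 : ℝ))
      * Real.sqrt (msum (mu ψ) V * msum (mu ψ) W) := by
    refine (pairSum_mono hμ hcover).trans ?_
    rw [pairSum_add]
    have e : Real.sqrt (K0 * g * Cρ) = Real.sqrt (K0 * Cρ) * T ^ (-(1 / 800) : ℝ) := by
      rw [mul_right_comm, Real.sqrt_mul' _ hg0.le, hg, Real.sqrt_eq_rpow (T ^ _),
        ← Real.rpow_mul hTp.le]
      norm_num
    refine le_trans (add_le_add sideA sideB) (le_of_eq ?_)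
    rw [hR, e, hC2]; ring
  have hC20 : 0 ≤ C2 := by
    have : 0 ≤ Cs := le_max_right _ _
    positivity
  refine (to_finalX hε _ _ V W c d (C2 * T ^ (-(1 / 800) : ℝ)) _ hμ hgood (by positivity)
    (by positivity) hsum).trans ?_
  refine mul_le_mul_of_nonneg_right (mul_le_mul_of_nonneg_right ?_ (by positivity)) hX0
  refine (mul_le_of_le_one_right (by positivity)
    (rpow_neg_natCast_le_one _ (by linarith))).trans ?_
  refine mul_le_mul_of_nonneg_right ?_ (by positivity)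
  rw [Real.mul_rpow hC20 (by positivity), ← Real.rpow_mul hTp.le]
  refine mul_le_mul (le_add_of_nonneg_right (by positivity))
    (Real.rpow_le_rpow_of_exponent_le hT1 (by unfold gX; linarith [hε.2])) (by positivity)
    (by positivity)

/-- `V` is one cell of scale `t`; `S` is arbitrary (no hypothesis on the scales of `ψ r`). -/
theorem density_gain (γ μ c ε : ℝ) (h : Dioph γ μ c) (hε : Small ε) :
    ∃ C T0 t0 : ℝ, 0 ≤ C ∧ 1 ≤ T0 ∧ ∀ (ψ : ℕ → ℝ) (S V : Finset ℕ) (t y y1 y2 : ℝ),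
      t0 ≤ t → (∀ q, 0 ≤ ψ q) → (∀ q ∈ S, 0 < q ∧ 0 < ψ q) → V ⊆ S →
      (∀ q ∈ V, Real.exp (-(1 + zeta0) * t) ≤ ψ q ∧ ψ q ≤ Real.exp (-t)) →
      Real.exp (-rhoX μ ε * t) ≤ y → y * T0 ≤ 1 → 0 < y2 →
      y * Real.exp (-nuM * t) ≤ y1 → y1 ≤ y →
      pairSum (mu ψ) (fun q r => bb (Near γ y q r) * clsI ψ y1 y2 q r) V S
        ≤ C * y ^ gX * (y1 * y2) ^ (1 / 2 - ε) * (msum (mu ψ) V * msum (mu ψ) S) ^ aX ε := by
  classical
  obtain ⟨Cg, T0, t0, hCg, hT0, hfin⟩ := pair_final γ μ c ε h hε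
  obtain ⟨p0, K, hbil⟩ := bilinear_stateX hε
  refine ⟨max K 0 * Cg, T0, max t0 1000, by positivity, hT0, ?_⟩
  intro ψ S V t y y1 y2 ht hψ hS hVS hcell hylo hyT0 hy2 h1lo h1hi
  have ht1000 : 1000 ≤ t := (le_max_right _ _).trans ht
  have hy : 0 < y := lt_of_lt_of_le (Real.exp_pos _) hylo
  have hy1 : 0 < y1 := lt_of_lt_of_le (mul_pos hy (Real.exp_pos _)) h1lo
  obtain ⟨hμ1, -, -⟩ := id h
  have hTT : T0 ≤ 1 / y := by rw [le_div_iff₀ hy]; linarith
  have hT1 : y ≤ 1 := le_trans (le_mul_of_one_le_right hy.le hT0) hyT0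
  have hTt : 1 / y ≤ Real.exp (rhoX μ ε * t) := by
    rw [one_div, ← inv_inv (Real.exp _), ← Real.exp_neg]
    refine inv_anti₀ (Real.exp_pos _) ?_
    rwa [← neg_mul]
  have hρ1 : rhoX μ ε ≤ 1 / 2000000 := by
    unfold rhoX
    rw [div_le_iff₀ (by linarith)]
    linarith [hε.1, hε.2]
  have hv : ∀ q ∈ V, ∀ r ∈ S, InCls ψ y1 y2 q r → Real.exp (99 / 100 * t) ≤ (vv q r : ℝ) ∧
      (vv q r : ℝ) ≤ Real.exp (101 / 100 * t) := by
    intro q hq r _ hin
    obtain ⟨hlo, hhi⟩ := hcell q hq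
    obtain ⟨⟨hw1, hw2⟩, -⟩ := hin
    set w := (vv q r : ℝ) with hwdef
    have hw0 : 0 ≤ w := Nat.cast_nonneg _
    constructor
    · have h2 : (2 : ℝ) ≤ Real.exp (t / 200) := by
        have := Real.add_one_le_exp (t / 200); linarith
      have h3 : Real.exp (-(rhoX μ ε + nuM) * t) ≤ y1 := by
        refine le_trans ?_ ((mul_le_mul_of_nonneg_right hylo (Real.exp_nonneg _)).trans h1lo)
        rw [← Real.exp_add]
        exact le_of_eq (by ring_nf)
      have h4 : Real.exp (-(rhoX μ ε + nuM) * t) ≤ w * Real.exp (-t) * Real.exp (t / 200) := by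
        have h5 := mul_le_mul_of_nonneg_left hhi hw0
        have h6 := mul_le_mul_of_nonneg_left h2 (mul_nonneg hw0 (Real.exp_nonneg (-t)))
        linarith
      rw [mul_assoc, ← Real.exp_add] at h4
      refine le_of_mul_le_mul_right ?_ (Real.exp_pos (-t + t / 200))
      refine le_trans ?_ h4
      rw [← Real.exp_add]
      have := mul_le_mul_of_nonneg_right hρ1 (show 0 ≤ t by linarith)
      exact Real.exp_le_exp.2 (by unfold nuM; linarith)
    · have h7 : w * Real.exp (-(1 + zeta0) * t) ≤ 1 :=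
        (mul_le_mul_of_nonneg_left hlo hw0).trans (hw2.trans (h1hi.trans hT1))
      refine le_of_mul_le_mul_right ?_ (Real.exp_pos (-(1 + zeta0) * t))
      refine h7.trans ?_
      rw [← Real.exp_add]
      exact Real.one_le_exp (by unfold zeta0; linarith)
  have hf := hfin (1 / y) t y y1 y2 ψ S V p0 ((le_max_left _ _).trans ht) hTT hTt
    (by rw [one_div_one_div]) hψ hS hy1 hy2 hv
  obtain ⟨hcv, hcs, hout⟩ := state_univ (P := S.biUnion Nat.primeFactors) (S := S)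
    (fun q hq => (hS q hq).1) (fun q hq => Finset.subset_biUnion_of_mem Nat.primeFactors hq)
  have hb := hbil (mu ψ) (GV γ y ψ y1 y2 V) _ S (mu_nonneg' hψ)
    (fun q r => (GV_mem γ y ψ y1 y2 V q r).1) (by positivity) (fun q hq => (hS q hq).1) hf
    (S.biUnion Nat.primeFactors) V S 1 1 hVS subset_rfl
    (fun p hp => by
      obtain ⟨q, -, hpq⟩ := Finset.mem_biUnion.1 hp
      exact Nat.prime_of_mem_primeFactors hpq)
    ⟨fun q hq q' hq' => hcv q (hVS hq) q' (hVS hq'), hcs,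
      fun q hq r hr => hout q (hVS hq) r hr⟩
  have heq : pairSum (mu ψ) (fun q r => bb (Near γ y q r) * clsI ψ y1 y2 q r) V S
      = pairSum (mu ψ) (GV γ y ψ y1 y2 V) V S :=
    Finset.sum_congr rfl fun q hq => Finset.sum_congr rfl fun r _ => by
      simp only [GV, hq, true_and]
  rw [heq]
  refine hb.trans ?_
  simp only [Nat.cast_one, Real.one_rpow, mul_one]
  have hM : 0 ≤ (msum (mu ψ) V * msum (mu ψ) S) ^ aX ε := Real.rpow_nonneg
    (mul_nonneg (Finset.sum_nonneg fun q _ => mu_nonneg' hψ q)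
      (Finset.sum_nonneg fun q _ => mu_nonneg' hψ q)) _
  rw [one_div y, Real.inv_rpow hy.le, ← Real.rpow_neg hy.le, neg_neg, ← mul_assoc K,
    ← mul_assoc K]
  gcongr
  exact le_max_left _ _

end Vale.Agent.P028X
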