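import Vale.Agent.P028X.Defs

/-! P028X module TOP, counting: pairs of positive tuples `x, y` with equal products, coprime
coordinates and many small values of `‖γ (x i - y i)‖`. -/

namespace Vale.Agent.P028X

open Finset Vale.Agent.P028

namespace TopAux

lemma distInt_le (x : ℝ) (m : ℤ) : distInt x ≤ |x - m| := round_le x m

lemma distInt_sub_le (x y : ℝ) : distInt (x - y) ≤ distInt x + distInt y := by
  refine (distInt_le _ (round x - round y)).trans ?_
  rw [show x - y - ((round x - round y : ℤ) : ℝ) = (x - round x) - (y - round y) by push_cast; ring]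
  exact abs_sub _ _

lemma gap {γ μ c : ℝ} (h : Dioph γ μ c) {n : ℕ} (hn : 0 < n) {η : ℝ}
    (hit : distInt ((n : ℝ) * γ) < η) : (c / η) ^ (1 / μ) ≤ (n : ℝ) := by
  obtain ⟨hμ, hc, hd⟩ := h
  have hnR : (0 : ℝ) < n := by exact_mod_cast hn
  have h1 := (hd n hn).trans hit.le
  have hη : 0 < η := lt_of_lt_of_le (mul_pos hc (Real.rpow_pos_of_pos hnR _)) h1
  have h2 : c / η ≤ (n : ℝ) ^ μ := by
    rw [Real.rpow_neg hnR.le, ← div_eq_mul_inv, div_le_iff₀ (by positivity)] at h1
    rw [div_le_iff₀ hη]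
    linarith
  calc (c / η) ^ (1 / μ) ≤ ((n : ℝ) ^ μ) ^ (1 / μ) :=
        Real.rpow_le_rpow (by positivity) h2 (by positivity)
    _ = n := by rw [one_div, Real.rpow_rpow_inv hnR.le (by linarith)]

lemma near_count {γ μ c : ℝ} (h : Dioph γ μ c) (N : ℕ) {η : ℝ} (hη : 0 < η) :
    (((Icc 1 N).filter fun n : ℕ => distInt ((n : ℝ) * γ) < η).card : ℝ)
      ≤ N * (2 * η / c) ^ (1 / μ) := by
  obtain ⟨hμ, hc, -⟩ := id h
  set δ := (c / (2 * η)) ^ (1 / μ) with hδ
  have hδ0 : 0 < δ := by positivity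
  set s := (Icc 1 N).filter fun n : ℕ => distInt ((n : ℝ) * γ) < η with hs
  have hge : ∀ n ∈ s, δ ≤ (n : ℝ) := by
    intro n hn
    obtain ⟨h1, h2⟩ := mem_filter.1 hn
    exact gap h (mem_Icc.1 h1).1 (h2.trans_le (by linarith))
  have hsep : ∀ n ∈ s, ∀ n' ∈ s, n < n' → δ ≤ (n' : ℝ) - n := by
    intro n hn n' hn' hlt
    have := gap h (Nat.sub_pos_of_lt hlt) (η := 2 * η) ?_
    · rwa [Nat.cast_sub hlt.le] at this
    rw [Nat.cast_sub hlt.le, sub_mul]
    refine (distInt_sub_le _ _).trans_lt ?_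
    linarith [(mem_filter.1 hn).2, (mem_filter.1 hn').2]
  have hcard : s.card ≤ (Icc 1 ⌊(N : ℝ) / δ⌋₊).card := by
    refine Finset.card_le_card_of_injOn (fun n : ℕ => ⌊(n : ℝ) / δ⌋₊) ?_ ?_
    · intro n hn
      have h1 := hge n hn
      have h2 : (n : ℝ) ≤ N := by exact_mod_cast (mem_Icc.1 (mem_filter.1 hn).1).2
      refine mem_coe.2 (mem_Icc.2 ⟨Nat.le_floor ?_, Nat.floor_le_floor ?_⟩)
      · rw [Nat.cast_one, le_div_iff₀ hδ0]
        linarith
      · exact div_le_div_of_nonneg_right h2 hδ0.le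
    · intro n hn n' hn' heq
      by_contra hne
      have key : ∀ a ∈ s, ∀ b ∈ s, a < b → ⌊(a : ℝ) / δ⌋₊ ≠ ⌊(b : ℝ) / δ⌋₊ := by
        intro a ha b hb hab he
        have h1 := hsep a ha b hb hab
        have h2 : (b : ℝ) / δ < ⌊(b : ℝ) / δ⌋₊ + 1 := Nat.lt_floor_add_one _
        have h3 : (⌊(a : ℝ) / δ⌋₊ : ℝ) ≤ (a : ℝ) / δ := Nat.floor_le (by positivity)
        have h4 : (1 : ℝ) ≤ (b : ℝ) / δ - (a : ℝ) / δ := by
          rw [← sub_div, le_div_iff₀ hδ0]
          linarith
        rw [he] at h3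
        linarith
      rcases lt_or_gt_of_ne hne with hl | hl
      · exact key n hn n' hn' hl heq
      · exact key n' hn' n hn hl heq.symm
  rw [Nat.card_Icc, Nat.add_sub_cancel] at hcard
  calc (s.card : ℝ) ≤ (⌊(N : ℝ) / δ⌋₊ : ℝ) := by exact_mod_cast hcard
    _ ≤ (N : ℝ) / δ := Nat.floor_le (by positivity)
    _ = _ := by
      rw [hδ, div_eq_mul_inv, ← Real.inv_rpow (by positivity), inv_div]

/-- Hits of a shifted progression are controlled by the unshifted ones. -/
lemma shift_count (γ β η : ℝ) (P M : ℕ) :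
    ((Icc 1 M).filter fun D : ℕ => distInt (γ * ((P : ℝ) * D) - β) < η).card
      ≤ 1 + ((Icc 1 M).filter fun D : ℕ => distInt (((P * D : ℕ) : ℝ) * γ) < 2 * η).card := by
  set s := (Icc 1 M).filter fun D : ℕ => distInt (γ * ((P : ℝ) * D) - β) < η with hs
  rcases s.eq_empty_or_nonempty with he | hne
  · simp [he]
  set d0 := s.min' hne
  have hd0 := s.min'_mem hne
  refine le_trans (Finset.card_le_card_of_injOn (fun D => D - d0)
    (t := insert 0 ((Icc 1 M).filter fun D : ℕ => distInt (((P * D : ℕ) : ℝ) * γ) < 2 * η)) ?_ ?_)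
    ((card_insert_le _ _).trans_eq (add_comm _ _))
  · intro D hD
    have hle : d0 ≤ D := s.min'_le D hD
    obtain ⟨hDM, hDh⟩ := mem_filter.1 hD
    obtain ⟨_, hdh⟩ := mem_filter.1 hd0
    simp only [coe_insert, Set.mem_insert_iff, mem_coe, mem_filter, mem_Icc]
    rcases Nat.eq_zero_or_pos (D - d0) with h0 | hpos
    · exact Or.inl h0
    · refine Or.inr ⟨⟨hpos, (Nat.sub_le _ _).trans (mem_Icc.1 hDM).2⟩, ?_⟩
      have e : ((P * (D - d0) : ℕ) : ℝ) * γ
          = (γ * ((P : ℝ) * D) - β) - (γ * ((P : ℝ) * d0) - β) := by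
        push_cast [hle]
        ring
      rw [e]
      exact (distInt_sub_le _ _).trans_lt (by linarith)
  · intro D hD D' hD' he
    have h1 := s.min'_le D hD
    have h2 := s.min'_le D' hD'
    simp only at he
    omega

variable {ι : Type*} [Fintype ι] [DecidableEq ι]

omit [Fintype ι] in
lemma split_dvd (t : Finset ι) :
    ∀ (n : ℕ) (y : ι → ℕ), n ∣ ∏ j ∈ t, y j →
      ∃ d : ι → ℕ, (∀ j ∈ t, d j ∣ y j) ∧ ∏ j ∈ t, d j = n := by
  induction t using Finset.induction_on with
  | empty => exact fun n y hn => ⟨fun _ => 1, by simp, by simpa [eq_comm] using hn⟩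
  | @insert i t hit ih =>
    intro n y hn
    rw [prod_insert hit, dvd_mul] at hn
    obtain ⟨d1, d2, h1, h2, rfl⟩ := hn
    obtain ⟨d, hd, hp⟩ := ih d2 y h2
    refine ⟨Function.update d i d1, fun j hj => ?_, ?_⟩
    · rcases eq_or_ne j i with rfl | hne
      · rwa [Function.update_self]
      · rw [Function.update_of_ne hne]
        exact hd j ((mem_insert.1 hj).resolve_left hne)
    · rw [prod_insert hit, Function.update_self]
      congr 1
      rw [← hp]
      exact prod_congr rfl fun j hj =>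
        Function.update_of_ne (fun h : j = i => hit (h ▸ hj)) _ _

lemma refine_prod (s : Finset ι) :
    ∀ (x y : ι → ℕ), (∀ i, 0 < x i) → (∀ i, 0 < y i) → ∏ i ∈ s, x i = ∏ j, y j →
      ∃ a : ι → ι → ℕ, (∀ i ∈ s, ∏ j, a i j = x i) ∧ ∀ j, ∏ i ∈ s, a i j = y j := by
  induction s using Finset.induction_on with
  | empty =>
    intro x y _ _ h
    refine ⟨fun _ _ => 1, by simp, fun j => ?_⟩
    rw [prod_empty] at h ⊢
    exact (Finset.prod_eq_one_iff.1 h.symm j (mem_univ j)).symm
  | @insert i0 t hit ih =>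
    intro x y hx hy h
    rw [prod_insert hit] at h
    obtain ⟨d, hd, hp⟩ := split_dvd univ (x i0) y (Dvd.intro _ h)
    have hd0 : ∀ j, 0 < d j := fun j => Nat.pos_of_dvd_of_pos (hd j (mem_univ j)) (hy j)
    have hy' : ∀ j, 0 < y j / d j := fun j =>
      Nat.div_pos (Nat.le_of_dvd (hy j) (hd j (mem_univ j))) (hd0 j)
    have hmul : ∀ j, d j * (y j / d j) = y j := fun j => Nat.mul_div_cancel' (hd j (mem_univ j))
    have h2 : ∏ i ∈ t, x i = ∏ j, y j / d j := by
      apply Nat.eq_of_mul_eq_mul_left (hx i0)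
      calc x i0 * ∏ i ∈ t, x i = ∏ j, y j := h
        _ = ∏ j, d j * (y j / d j) := prod_congr rfl fun j _ => (hmul j).symm
        _ = x i0 * ∏ j, y j / d j := by rw [prod_mul_distrib, hp]
    obtain ⟨a, ha1, ha2⟩ := ih x (fun j => y j / d j) hx hy' h2
    refine ⟨Function.update a i0 d, fun i hi => ?_, fun j => ?_⟩
    · rcases eq_or_ne i i0 with rfl | hne
      · rw [Function.update_self]; exact hp
      · rw [Function.update_of_ne hne]
        exact ha1 i ((mem_insert.1 hi).resolve_left hne)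
    · rw [prod_insert hit, Function.update_self]
      refine (congrArg (d j * ·) ?_).trans (hmul j)
      rw [← ha2 j]
      exact prod_congr rfl fun i hi => by
        rw [Function.update_of_ne (fun h : i = i0 => hit (h ▸ hi))]

/-- A row of the box with exponents `k`. -/
def rbox (k : ι → ℕ) : Finset (ι → ℕ) :=
  Fintype.piFinset fun j => Ico (2 ^ k j) (2 ^ (k j + 1))

/-- The part of a row inside the columns `S`. -/
def key (S : Finset ι) (r : ι → ℕ) : ι → ℕ := fun j => if j ∈ S then r j else 1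

lemma rbox_card (k : ι → ℕ) : (rbox k).card = 2 ^ ∑ j, k j := by
  rw [rbox, Fintype.card_piFinset, ← Finset.prod_pow_eq_pow_sum]
  exact prod_congr rfl fun j _ => by rw [Nat.card_Ico, pow_succ]; omega

lemma mem_rbox {k r : ι → ℕ} (h : r ∈ rbox k) (j : ι) : 1 ≤ r j ∧ r j ≤ 2 ^ (k j + 1) := by
  have := mem_Ico.1 (Fintype.mem_piFinset.1 h j)
  exact ⟨le_trans Nat.one_le_two_pow this.1, this.2.le⟩

/-- Rows with a prescribed key and one hit. -/
lemma row_fibre (γ η : ℝ) (S : Finset ι) (k κ : ι → ℕ) (Y T : ℕ)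
    (hT : ∀ D, 1 ≤ D → D ≤ 2 ^ ∑ j, (k j + 1) → D.divisors.card ≤ T) :
    ((rbox k).filter fun r => key S r = κ ∧
      distInt (γ * (((∏ j, r j : ℕ) : ℝ) - (Y : ℝ))) < η).card
      ≤ T ^ Fintype.card ι * (1 + ((Icc 1 (2 ^ ∑ j ∈ univ \ S, (k j + 1))).filter
          fun D : ℕ => distInt ((((∏ j ∈ S, κ j) * D : ℕ) : ℝ) * γ) < 2 * η).card) := by
  set P := ∏ j ∈ S, κ j with hP
  set M := 2 ^ ∑ j ∈ univ \ S, (k j + 1) with hM
  set s := (rbox k).filter fun r => key S r = κ ∧
      distInt (γ * (((∏ j, r j : ℕ) : ℝ) - (Y : ℝ))) < η with hs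
  have hMle : M ≤ 2 ^ ∑ j, (k j + 1) :=
    Nat.pow_le_pow_right two_pos (sum_le_sum_of_subset sdiff_subset)
  set f : (ι → ℕ) → ℕ := fun r => ∏ j ∈ univ \ S, r j with hf
  have hmap : ∀ r ∈ s, f r ∈ (Icc 1 M).filter
      fun D : ℕ => distInt (γ * ((P : ℝ) * D) - γ * Y) < η := by
    intro r hr
    obtain ⟨hrb, hk, hh⟩ := mem_filter.1 hr
    refine mem_filter.2 ⟨mem_Icc.2 ⟨?_, ?_⟩, ?_⟩
    · exact one_le_prod' fun j _ => (mem_rbox hrb j).1
    · rw [hM, ← prod_pow_eq_pow_sum]
      exact prod_le_prod' fun j _ => (mem_rbox hrb j).2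
    · have e : P * f r = ∏ j, r j := by
        rw [hP, hf]
        simp only
        rw [← prod_sdiff (subset_univ S), mul_comm]
        congr 1
        exact prod_congr rfl fun j hj => by rw [← hk, key, if_pos hj]
      rw [← mul_sub]
      have : (P : ℝ) * (f r : ℝ) = ((∏ j, r j : ℕ) : ℝ) := by exact_mod_cast e
      rw [this]
      exact hh
  have hfib : ∀ D ∈ s.image f, (s.filter fun r => f r = D).card ≤ T ^ Fintype.card ι := by
    intro D hD
    obtain ⟨r0, hr0, rfl⟩ := mem_image.1 hD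
    have hD' := mem_Icc.1 (mem_filter.1 (hmap r0 hr0)).1
    calc (s.filter fun r => f r = f r0).card
        ≤ (Fintype.piFinset fun _ : ι => (f r0).divisors).card := by
          refine Finset.card_le_card_of_injOn (fun r j => if j ∈ S then 1 else r j) ?_ ?_
          · intro r hr
            obtain ⟨hr1, hr2⟩ := mem_filter.1 hr
            refine mem_coe.2 (Fintype.mem_piFinset.2 fun j => Nat.mem_divisors.2 ⟨?_, by omega⟩)
            show (if j ∈ S then 1 else r j) ∣ f r0
            split_ifs with hj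
            · exact one_dvd _
            · rw [← hr2]
              exact dvd_prod_of_mem _ (mem_sdiff.2 ⟨mem_univ _, hj⟩)
          · intro r hr r' hr' he
            funext j
            obtain ⟨-, hk, -⟩ := mem_filter.1 (mem_filter.1 hr).1
            obtain ⟨-, hk', -⟩ := mem_filter.1 (mem_filter.1 hr').1
            by_cases hj : j ∈ S
            · have := congrFun (hk.trans hk'.symm) j
              simpa [key, hj] using this
            · simpa [hj] using congrFun he j
      _ = (f r0).divisors.card ^ Fintype.card ι := by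
          rw [Fintype.card_piFinset, prod_const, card_univ]
      _ ≤ _ := Nat.pow_le_pow_left (hT _ hD'.1 (hD'.2.trans hMle)) _
  calc s.card ≤ T ^ Fintype.card ι * (s.image f).card :=
        card_le_mul_card_image s _ hfib
    _ ≤ _ := Nat.mul_le_mul_left _ ((card_le_card fun D hD => by
        obtain ⟨r, hr, rfl⟩ := mem_image.1 hD; exact hmap r hr).trans (shift_count γ _ η P M))

/-- Sum of the fibre bounds over all keys of a row. -/
lemma key_sum (γ η : ℝ) (S : Finset ι) (k : ι → ℕ) (T : ℕ)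
    (hT : ∀ D, 1 ≤ D → D ≤ 2 ^ ∑ j, (k j + 1) → D.divisors.card ≤ T) :
    ∑ κ ∈ (rbox k).image (key S), (1 + ((Icc 1 (2 ^ ∑ j ∈ univ \ S, (k j + 1))).filter
          fun D : ℕ => distInt ((((∏ j ∈ S, κ j) * D : ℕ) : ℝ) * γ) < 2 * η).card)
      ≤ T ^ Fintype.card ι * (2 ^ (∑ j ∈ S, (k j + 1)) +
          T * ((Icc 1 (2 ^ ∑ j, (k j + 1))).filter
            fun n : ℕ => distInt ((n : ℝ) * γ) < 2 * η).card) := by
  set C := 2 ^ ∑ j ∈ S, (k j + 1) with hC
  set M := 2 ^ ∑ j ∈ univ \ S, (k j + 1) with hM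
  set Kk := (rbox k).image (key S) with hKk
  set cp : (ι → ℕ) → ℕ := fun κ => ∏ j ∈ S, κ j with hcp
  set G : ℕ → ℕ := fun c => 1 + ((Icc 1 M).filter
    fun D : ℕ => distInt (((c * D : ℕ) : ℝ) * γ) < 2 * η).card with hG
  have hCM : C * M = 2 ^ ∑ j, (k j + 1) := by
    rw [hC, hM, ← pow_add, add_comm, sum_sdiff (subset_univ S)]
  have hCle : C ≤ 2 ^ ∑ j, (k j + 1) :=
    Nat.pow_le_pow_right two_pos (sum_le_sum_of_subset (subset_univ S))
  have hcpmem : ∀ κ ∈ Kk, cp κ ∈ Icc 1 C := by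
    intro κ hκ
    obtain ⟨r, hr, rfl⟩ := mem_image.1 hκ
    have e : cp (key S r) = ∏ j ∈ S, r j := prod_congr rfl fun j hj => if_pos hj
    rw [e]
    refine mem_Icc.2 ⟨one_le_prod' fun j _ => (mem_rbox hr j).1, ?_⟩
    rw [hC, ← prod_pow_eq_pow_sum]
    exact prod_le_prod' fun j _ => (mem_rbox hr j).2
  have hfib : ∀ c ∈ Icc 1 C, (Kk.filter fun κ => cp κ = c).card ≤ T ^ Fintype.card ι := by
    intro c hc
    calc (Kk.filter fun κ => cp κ = c).card
        ≤ (Fintype.piFinset fun _ : ι => c.divisors).card := by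
          refine card_le_card fun κ hκ => Fintype.mem_piFinset.2 fun j => ?_
          obtain ⟨hκ1, hκ2⟩ := mem_filter.1 hκ
          obtain ⟨r, hr, rfl⟩ := mem_image.1 hκ1
          refine Nat.mem_divisors.2 ⟨?_, by linarith [(mem_Icc.1 hc).1]⟩
          by_cases hj : j ∈ S
          · rw [← hκ2]; exact dvd_prod_of_mem _ hj
          · rw [key, if_neg hj]; exact one_dvd _
      _ = c.divisors.card ^ Fintype.card ι := by rw [Fintype.card_piFinset, prod_const, card_univ]
      _ ≤ _ := Nat.pow_le_pow_left (hT c (mem_Icc.1 hc).1 ((mem_Icc.1 hc).2.trans hCle)) _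
  have hpairs : ∑ c ∈ Icc 1 C, ((Icc 1 M).filter
      fun D : ℕ => distInt (((c * D : ℕ) : ℝ) * γ) < 2 * η).card
      ≤ T * ((Icc 1 (2 ^ ∑ j, (k j + 1))).filter
            fun n : ℕ => distInt ((n : ℝ) * γ) < 2 * η).card := by
    rw [← card_sigma]
    set W := (Icc 1 C).sigma fun c => (Icc 1 M).filter
      fun D : ℕ => distInt (((c * D : ℕ) : ℝ) * γ) < 2 * η
    refine (card_le_mul_card_image W T (f := fun x => x.1 * x.2) ?_).trans
      (Nat.mul_le_mul_left _ (card_le_card ?_))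
    · intro n hn
      obtain ⟨⟨c, D⟩, hx, rfl⟩ := mem_image.1 hn
      obtain ⟨hc, hD⟩ := mem_sigma.1 hx
      have hc' := mem_Icc.1 hc
      have hD' := mem_Icc.1 (mem_filter.1 hD).1
      refine le_trans ?_ (hT (c * D) (Nat.mul_pos hc'.1 hD'.1)
        (hCM ▸ Nat.mul_le_mul hc'.2 hD'.2))
      refine Finset.card_le_card_of_injOn (fun x => x.1) ?_ ?_
      · rintro ⟨c', D'⟩ hx'
        obtain ⟨-, he⟩ := mem_filter.1 hx'
        exact mem_coe.2 (Nat.mem_divisors.2 ⟨⟨D', he.symm⟩, (Nat.mul_pos hc'.1 hD'.1).ne'⟩)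
      · rintro ⟨c1, D1⟩ h1 ⟨c2, D2⟩ h2 (rfl : c1 = c2)
        obtain ⟨h1', e1⟩ := mem_filter.1 h1
        obtain ⟨-, e2⟩ := mem_filter.1 h2
        have hc1 : 0 < c1 := (mem_Icc.1 (mem_sigma.1 h1').1).1
        have : D1 = D2 := Nat.eq_of_mul_eq_mul_left hc1 (e1.trans e2.symm)
        rw [this]
    · intro n hn
      obtain ⟨⟨c, D⟩, hx, rfl⟩ := mem_image.1 hn
      obtain ⟨hc, hD⟩ := mem_sigma.1 hx
      obtain ⟨hD', hh⟩ := mem_filter.1 hD
      exact mem_filter.2 ⟨mem_Icc.2 ⟨Nat.mul_pos (mem_Icc.1 hc).1 (mem_Icc.1 hD').1,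
        hCM ▸ Nat.mul_le_mul (mem_Icc.1 hc).2 (mem_Icc.1 hD').2⟩, hh⟩
  calc ∑ κ ∈ Kk, G (cp κ)
      = ∑ c ∈ Icc 1 C, ∑ κ ∈ Kk.filter (fun κ => cp κ = c), G (cp κ) :=
        (sum_fiberwise_of_maps_to hcpmem _).symm
    _ ≤ ∑ c ∈ Icc 1 C, T ^ Fintype.card ι * G c := by
        refine sum_le_sum fun c hc => ?_
        rw [sum_congr rfl fun κ hκ => by rw [(mem_filter.1 hκ).2], sum_const, smul_eq_mul]
        exact Nat.mul_le_mul_right _ (hfib c hc)
    _ ≤ _ := by
        rw [← mul_sum]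
        refine Nat.mul_le_mul_left _ ?_
        rw [hG]
        dsimp only
        rw [sum_add_distrib, sum_const, Nat.card_Icc, smul_eq_mul, mul_one, Nat.add_sub_cancel]
        exact Nat.add_le_add_left hpairs _

/-- All matrices of one box with hits in the rows `H`. -/
lemma box_count (γ η : ℝ) (S H : Finset ι) (hHS : H ⊆ S) (k : ι → ι → ℕ) (T : ℕ)
    (hT : ∀ i ∈ H, ∀ D, 1 ≤ D → D ≤ 2 ^ ∑ j, (k i j + 1) → D.divisors.card ≤ T) :
    ((Fintype.piFinset fun i => rbox (k i)).filter fun a => ∀ i ∈ H,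
        distInt (γ * (((∏ j, a i j : ℕ) : ℝ) - ((∏ l, a l i : ℕ) : ℝ))) < η).card
      ≤ ∏ i, if i ∈ H then T ^ (2 * Fintype.card ι) * (2 ^ (∑ j ∈ S, (k i j + 1)) +
          T * ((Icc 1 (2 ^ ∑ j, (k i j + 1))).filter
            fun n : ℕ => distInt ((n : ℝ) * γ) < 2 * η).card) else 2 ^ ∑ j, k i j := by
  set A := (Fintype.piFinset fun i => rbox (k i)).filter fun a => ∀ i ∈ H,
    distInt (γ * (((∏ j, a i j : ℕ) : ℝ) - ((∏ l, a l i : ℕ) : ℝ))) < η with hA
  set Φ : (ι → ι → ℕ) → (ι → ι → ℕ) := fun a i => if i ∈ H then key S (a i) else a i with hΦ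
  set K : ι → Finset (ι → ℕ) := fun i => if i ∈ H then (rbox (k i)).image (key S) else rbox (k i)
    with hK
  set w : ι → (ι → ℕ) → ℕ := fun i κ => if i ∈ H then T ^ Fintype.card ι *
      (1 + ((Icc 1 (2 ^ ∑ j ∈ univ \ S, (k i j + 1))).filter
          fun D : ℕ => distInt ((((∏ j ∈ S, κ j) * D : ℕ) : ℝ) * γ) < 2 * η).card) else 1 with hw
  have hmaps : ∀ a ∈ A, Φ a ∈ Fintype.piFinset K := by
    intro a ha
    refine Fintype.mem_piFinset.2 fun i => ?_
    have := Fintype.mem_piFinset.1 (mem_filter.1 ha).1 i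
    simp only [hΦ, hK]
    split_ifs
    · exact mem_image_of_mem _ this
    · exact this
  have hfib : ∀ κ ∈ Fintype.piFinset K, (A.filter fun a => Φ a = κ).card ≤ ∏ i, w i (κ i) := by
    intro κ _
    calc (A.filter fun a => Φ a = κ).card
        ≤ (Fintype.piFinset fun i => if i ∈ H then (rbox (k i)).filter fun r => key S r = κ i ∧
            distInt (γ * (((∏ j, r j : ℕ) : ℝ) - ((∏ l, κ l i : ℕ) : ℝ))) < η
            else {κ i}).card := by
          refine card_le_card fun a ha => Fintype.mem_piFinset.2 fun i => ?_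
          obtain ⟨haA, hak⟩ := mem_filter.1 ha
          obtain ⟨hab, hah⟩ := mem_filter.1 haA
          split_ifs with hi
          · refine mem_filter.2 ⟨Fintype.mem_piFinset.1 hab i, ?_, ?_⟩
            · rw [← hak]; simp [hΦ, hi]
            · have e : ∏ l, κ l i = ∏ l, a l i := prod_congr rfl fun l _ => by
                rw [← hak]
                simp only [hΦ]
                split_ifs with hl
                · simp [key, hHS hi]
                · rfl
              rw [e]
              exact hah i hi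
          · rw [mem_singleton, ← hak]; simp [hΦ, hi]
      _ ≤ _ := by
          rw [Fintype.card_piFinset]
          refine prod_le_prod' fun i _ => ?_
          simp only [hw]
          split_ifs with hi
          · exact row_fibre γ η S (k i) (κ i) _ T (hT i hi)
          · simp
  calc A.card = ∑ κ ∈ Fintype.piFinset K, (A.filter fun a => Φ a = κ).card :=
        card_eq_sum_card_fiberwise hmaps
    _ ≤ ∑ κ ∈ Fintype.piFinset K, ∏ i, w i (κ i) := sum_le_sum hfib
    _ = ∏ i, ∑ κ ∈ K i, w i κ := (prod_univ_sum K w).symm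
    _ ≤ _ := by
        refine prod_le_prod' fun i _ => ?_
        simp only [hK, hw]
        split_ifs with hi
        · rw [← mul_sum, two_mul (Fintype.card ι), pow_add, mul_assoc]
          exact Nat.mul_le_mul_left _ (key_sum γ η S (k i) T (hT i hi))
        · simp [rbox_card]

/-- A random set of columns separates a quarter of the off-diagonal exponents. -/
lemma exists_split (s : Finset ι) (k : ι → ι → ℕ) :
    ∃ S : Finset ι, ∑ i ∈ s, ∑ j ∈ univ.erase i, k i j
      ≤ 4 * ∑ i ∈ s ∩ S, ∑ j ∈ univ \ S, k i j := by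
  have hcnt : ∀ i j : ι, j ≠ i → 2 ^ Fintype.card ι
      ≤ 4 * ((univ : Finset ι).powerset.filter fun S => i ∈ S ∧ j ∉ S).card := by
    intro i j hji
    have h1 : ((univ : Finset ι).erase i |>.erase j).powerset.card
        ≤ ((univ : Finset ι).powerset.filter fun S => i ∈ S ∧ j ∉ S).card := by
      refine Finset.card_le_card_of_injOn (fun R => insert i R) ?_ ?_
      · intro R hR
        have hR' := mem_powerset.1 hR
        refine mem_coe.2 (mem_filter.2 ⟨mem_powerset.2 (subset_univ _), mem_insert_self _ _, ?_⟩)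
        intro hj
        rcases mem_insert.1 hj with h | h
        · exact hji h
        · exact (mem_erase.1 (hR' h)).1 rfl
      · intro R hR R' hR' he
        have hiR : i ∉ R := fun h => by simpa using (mem_erase.1 (mem_powerset.1 hR h)).2
        have hiR' : i ∉ R' := fun h => by simpa using (mem_erase.1 (mem_powerset.1 hR' h)).2
        rw [← erase_insert hiR, ← erase_insert hiR']
        exact congrArg (fun U => U.erase i) he
    rw [card_powerset, card_erase_of_mem (mem_erase.2 ⟨hji, mem_univ _⟩),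
      card_erase_of_mem (mem_univ _), card_univ] at h1
    calc 2 ^ Fintype.card ι ≤ 2 ^ (Fintype.card ι - 1 - 1 + 2) :=
          Nat.pow_le_pow_right two_pos (by omega)
      _ = 4 * 2 ^ (Fintype.card ι - 1 - 1) := by ring
      _ ≤ _ := Nat.mul_le_mul_left _ h1
  by_contra hcon
  simp only [not_exists, not_le] at hcon
  set U := (univ : Finset ι).powerset
  have h1 : ∑ S ∈ U, 4 * ∑ i ∈ s ∩ S, ∑ j ∈ univ \ S, k i j
      < ∑ _S ∈ U, ∑ i ∈ s, ∑ j ∈ univ.erase i, k i j :=
    sum_lt_sum_of_nonempty ⟨∅, empty_mem_powerset _⟩ fun S _ => hcon S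
  have h2 : ∑ _S ∈ U, ∑ i ∈ s, ∑ j ∈ univ.erase i, k i j
      ≤ ∑ S ∈ U, 4 * ∑ i ∈ s ∩ S, ∑ j ∈ univ \ S, k i j := by
    have e : ∀ S ∈ U, ∑ i ∈ s ∩ S, ∑ j ∈ univ \ S, k i j
        = ∑ i ∈ s, ∑ j, if i ∈ S ∧ j ∉ S then k i j else 0 := by
      intro S _
      rw [← filter_mem_eq_inter, sum_filter]
      refine sum_congr rfl fun i _ => ?_
      rw [sdiff_eq_filter, sum_filter]
      by_cases hi : i ∈ S <;> simp [hi]
    rw [← mul_sum, sum_congr rfl e, sum_const, card_powerset, card_univ, smul_eq_mul]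
    rw [sum_comm (s := U), mul_sum, mul_sum]
    refine sum_le_sum fun i _ => ?_
    rw [sum_comm (s := U), mul_sum, mul_sum]
    refine (sum_le_sum fun j hj => ?_).trans (sum_le_sum_of_subset (subset_univ _))
    rw [← sum_filter, sum_const, smul_eq_mul, ← mul_assoc]
    exact Nat.mul_le_mul_right _ (hcnt i j (mem_erase.1 hj).1)
  omega

end TopAux

end Vale.Agent.P028X
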